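import Vale.Agent.P262.Sharp.Kernel

/-!
Linear algebra for the regressed rounding walk: kernel vectors, counting of large eigendirections,
ridge regression, and the second moments of a small shift.
-/

open Finset
open scoped RealInnerProductSpace

namespace Vale.Agent.P262.Full

/-- A nonzero vector supported on `F` killed by fewer than `F.card` functionals. -/
theorem exists_kill {ι : Type*} [Fintype ι] [DecidableEq ι] (F : Finset ι)
    (L : List ((ι → ℝ) →ₗ[ℝ] ℝ)) (h : L.length < F.card) :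
    ∃ t : ι → ℝ, (∃ a, t a ≠ 0) ∧ (∀ a ∉ F, t a = 0) ∧ ∀ φ ∈ L, φ t = 0 := by
  obtain ⟨t, h1, h2, h3⟩ := Sharp.exists_kernel F (J := Fin L.length)
    (fun j a => L[j] (Pi.single a 1)) (by simpa using h)
  refine ⟨t, h1, h2, fun φ hφ => ?_⟩
  obtain ⟨n, hn, rfl⟩ := List.getElem_of_mem hφ
  have h4 := h3 ⟨n, hn⟩
  rw [← h4]
  conv_lhs => rw [pi_eq_sum_univ' t]
  simp only [map_sum, map_smul, smul_eq_mul, Fin.getElem_fin]
  exact sum_congr rfl fun a _ => mul_comm _ _

/-- A symmetric form splits into few large directions and a small rest. -/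
theorem exists_spectral {m : Type*} [Fintype m] [DecidableEq m] (M : m → m → ℝ)
    (hM : ∀ i k, M i k = M k i) :
    ∃ (U : m → m → ℝ) (ev : m → ℝ), (∀ η : m → ℝ, ∑ j, (∑ i, U j i * η i) ^ 2 = ∑ i, η i ^ 2) ∧
      (∀ η : m → ℝ, ∑ i, ∑ k, η i * M i k * η k = ∑ j, ev j * (∑ i, U j i * η i) ^ 2) ∧
      ∑ i, ∑ k, M i k ^ 2 = ∑ j, ev j ^ 2 ∧ (∀ j, ∑ i, U j i ^ 2 = 1) ∧
      ∀ j, ∑ i, ∑ k, U j i * M i k * U j k = ev j := by
  have hH : (Matrix.of M).IsHermitian := by
    ext i k
    simp [hM i k]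
  set b := hH.eigenvectorBasis
  set U : m → m → ℝ := fun j i => b j i with hU
  set ev := hH.eigenvalues
  have hmul : ∀ j i, ∑ k, M i k * U j k = ev j * U j i := fun j i => by
    have h := congrFun (hH.mulVec_eigenvectorBasis j) i
    simp only [Matrix.mulVec, dotProduct, Matrix.of_apply, Pi.smul_apply, smul_eq_mul] at h
    exact h
  have hip : ∀ j (η : m → ℝ), ∑ i, U j i * η i = ⟪b j, WithLp.toLp 2 η⟫ := fun j η => by
    simp [PiLp.inner_apply, hU, mul_comm]
  have hpar : ∀ η θ : m → ℝ,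
      ∑ j, (∑ i, U j i * η i) * (∑ i, U j i * θ i) = ∑ i, η i * θ i := by
    intro η θ
    have h := b.sum_inner_mul_inner (WithLp.toLp 2 η) (WithLp.toLp 2 θ)
    simp only [hip]
    refine Eq.trans (sum_congr rfl fun j _ => ?_) (h.trans ?_)
    · rw [real_inner_comm (b j) (WithLp.toLp 2 η)]
    · simp [PiLp.inner_apply, mul_comm]
  have hsq : ∀ η : m → ℝ, ∑ j, (∑ i, U j i * η i) ^ 2 = ∑ i, η i ^ 2 := fun η => by
    simp only [pow_two]
    exact hpar η η
  have hone : ∀ j, ∑ i, U j i ^ 2 = 1 := fun j => by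
    have h := b.orthonormal.1 j
    rw [EuclideanSpace.norm_eq, Real.sqrt_eq_one] at h
    simpa [hU, sq_abs] using h
  have hrow : ∀ i j, ∑ k, U j k * M i k = ev j * U j i := fun i j => by
    rw [← hmul]
    exact sum_congr rfl fun k _ => mul_comm _ _
  refine ⟨U, ev, hsq, fun η => ?_, ?_, hone, fun j => ?_⟩
  · calc ∑ i, ∑ k, η i * M i k * η k
        = ∑ i, η i * ∑ k, M i k * η k := by simp only [mul_sum, mul_assoc]
      _ = ∑ i, η i * ∑ j, (ev j * U j i) * (∑ k, U j k * η k) := by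
          refine sum_congr rfl fun i _ => ?_
          rw [← hpar (fun k => M i k) η]
          simp only [hrow]
      _ = ∑ j, ev j * (∑ i, U j i * η i) ^ 2 := by
          simp only [mul_sum]
          rw [sum_comm]
          refine sum_congr rfl fun j _ => ?_
          rw [pow_two, sum_mul, mul_sum]
          refine sum_congr rfl fun i _ => ?_
          rw [mul_sum, mul_sum]
          exact sum_congr rfl fun k _ => by ring
  · calc ∑ i, ∑ k, M i k ^ 2 = ∑ i, ∑ j, (ev j * U j i) ^ 2 :=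
          sum_congr rfl fun i _ => by rw [← hsq (fun k => M i k)]; simp only [hrow]
      _ = ∑ j, ev j ^ 2 := by
          rw [sum_comm]
          exact sum_congr rfl fun j _ => by simp only [mul_pow, ← mul_sum, hone, mul_one]
  · simp only [mul_assoc, ← mul_sum, hmul]
    calc ∑ i, U j i * (ev j * U j i) = ev j * ∑ i, U j i ^ 2 := by
          rw [mul_sum]; exact sum_congr rfl fun i _ => by ring
      _ = ev j := by rw [hone, mul_one]

/-- Few directions carry the part of a symmetric form above `τ`. -/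
theorem exists_big_dirs_sq {m : Type*} [Fintype m] [DecidableEq m] (M : m → m → ℝ)
    (hM : ∀ i k, M i k = M k i) {τ : ℝ} (hτ : 0 ≤ τ) :
    ∃ L : List (m → ℝ), (L.length : ℝ) * τ ^ 2 ≤ ∑ i, ∑ k, M i k ^ 2 ∧
      ∀ η : m → ℝ, (∀ u ∈ L, ∑ i, u i * η i = 0) →
        |∑ i, ∑ k, η i * M i k * η k| ≤ τ * ∑ i, η i ^ 2 := by
  classical
  obtain ⟨U, ev, hsq, hform, hfro, -, -⟩ := exists_spectral M hM
  set S := univ.filter fun j => τ < |ev j|
  refine ⟨S.toList.map U, ?_, fun η hη => ?_⟩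
  · rw [List.length_map, length_toList, hfro, ← nsmul_eq_mul]
    refine (card_nsmul_le_sum S (fun j => ev j ^ 2) (τ ^ 2) fun j hj => ?_).trans
      (sum_le_sum_of_subset_of_nonneg (subset_univ S) fun j _ _ => sq_nonneg _)
    rw [← sq_abs (ev j)]
    exact pow_le_pow_left₀ hτ (mem_filter.mp hj).2.le 2
  · rw [hform, ← hsq η, mul_sum]
    refine (abs_sum_le_sum_abs _ _).trans (sum_le_sum fun j _ => ?_)
    rw [abs_mul, abs_of_nonneg (sq_nonneg (∑ i, U j i * η i))]
    by_cases hj : τ < |ev j|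
    · have h0 := hη (U j) (List.mem_map.mpr ⟨j, by simp [S, hj], rfl⟩)
      rw [h0]; simp
    · exact mul_le_mul_of_nonneg_right (not_lt.mp hj) (sq_nonneg _)

/-- Few directions carry the part above `τ` of a sum of rank one forms. -/
theorem exists_big_dirs_psd {α m : Type*} [Fintype m] [DecidableEq m] (s : Finset α)
    (b : α → m → ℝ) (τ : ℝ) :
    ∃ L : List (m → ℝ), (L.length : ℝ) * τ ≤ ∑ a ∈ s, ∑ i, b a i ^ 2 ∧
      ∀ η : m → ℝ, (∀ u ∈ L, ∑ i, u i * η i = 0) →
        ∑ a ∈ s, (∑ i, b a i * η i) ^ 2 ≤ τ * ∑ i, η i ^ 2 := by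
  classical
  obtain ⟨U, ev, hsq, hform, -, -, hev⟩ := exists_spectral (fun i k => ∑ a ∈ s, b a i * b a k)
    fun i k => sum_congr rfl fun a _ => mul_comm _ _
  have key : ∀ η : m → ℝ, ∑ i, ∑ k, η i * (∑ a ∈ s, b a i * b a k) * η k =
      ∑ a ∈ s, (∑ i, b a i * η i) ^ 2 := by
    intro η
    have e : ∀ a, (∑ i, b a i * η i) ^ 2 = ∑ i, ∑ k, η i * (b a i * b a k) * η k := fun a => by
      rw [pow_two, sum_mul_sum]
      exact sum_congr rfl fun i _ => sum_congr rfl fun k _ => by ring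
    simp only [e, mul_sum, sum_mul]
    rw [sum_comm (s := s)]
    exact sum_congr rfl fun i _ => sum_comm
  have hev' : ∀ j, ev j = ∑ a ∈ s, (∑ i, b a i * U j i) ^ 2 := fun j => by rw [← hev, key]
  set S := univ.filter fun j => τ < ev j
  refine ⟨S.toList.map U, ?_, fun η hη => ?_⟩
  · rw [List.length_map, length_toList, ← nsmul_eq_mul]
    calc S.card • τ ≤ ∑ j ∈ S, ev j :=
          card_nsmul_le_sum S ev τ fun j hj => (mem_filter.mp hj).2.le
      _ ≤ ∑ j, ev j := sum_le_sum_of_subset_of_nonneg (subset_univ S) fun j _ _ => by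
          rw [hev']; exact sum_nonneg fun a _ => sq_nonneg _
      _ = _ := by
          simp only [hev']
          rw [sum_comm]
          refine sum_congr rfl fun a _ => ?_
          rw [← hsq (b a)]
          exact sum_congr rfl fun j _ => by simp only [mul_comm]
  · rw [← key, hform, ← hsq η, mul_sum]
    refine sum_le_sum fun j _ => ?_
    by_cases hj : τ < ev j
    · have h0 := hη (U j) (List.mem_map.mpr ⟨j, by simp [S, hj], rfl⟩)
      rw [h0]; simp
    · exact mul_le_mul_of_nonneg_right (not_lt.mp hj) (sq_nonneg _)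

/-- A mixed direction keeps half of the form on one part, minus the form on the other part. -/
theorem sq_add_ge {α m : Type*} [Fintype m] (s : Finset α) (b : α → m → ℝ) (h l : m → ℝ) :
    (∑ a ∈ s, (∑ i, b a i * h i) ^ 2) / 2 - ∑ a ∈ s, (∑ i, b a i * l i) ^ 2 ≤
      ∑ a ∈ s, (∑ i, b a i * (h i + l i)) ^ 2 := by
  rw [sum_div, ← sum_sub_distrib]
  refine sum_le_sum fun a _ => ?_
  simp only [mul_add, sum_add_distrib]
  nlinarith [sq_nonneg ((∑ i, b a i * h i) + 2 * ∑ i, b a i * l i)]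

/-- Ridge regression on the vectors of `free` with weights `g`. -/
theorem exists_ridge {α m : Type*} [Fintype m] [DecidableEq m] (free : Finset α)
    (u : α → m → ℝ) (g : m → ℝ) (hg : ∀ i, 0 < g i) {B : ℝ} (hB : 0 < B) :
    ∃ θ : (m → ℝ) →ₗ[ℝ] (m → ℝ), ∀ dv : m → ℝ,
      ∑ i, g i * (dv i - ∑ a ∈ free, (∑ k, u a k * θ dv k) * u a i) ^ 2 +
          B * ∑ a ∈ free, (∑ k, u a k * θ dv k) ^ 2 = B * ∑ i, dv i * θ dv i ∧
      ∑ i, dv i * θ dv i =
        ∑ a ∈ free, (∑ k, u a k * θ dv k) ^ 2 + ∑ i, B / g i * θ dv i ^ 2 := by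
  let G : (m → ℝ) →ₗ[ℝ] (m → ℝ) :=
    { toFun := fun x i => (∑ a ∈ free, (∑ k, u a k * x k) * u a i) + B / g i * x i
      map_add' := fun x y => by
        funext i; simp only [Pi.add_apply, mul_add, sum_add_distrib, add_mul]; ring
      map_smul' := fun c x => by
        funext i
        simp only [Pi.smul_apply, smul_eq_mul, RingHom.id_apply, mul_add, mul_sum, sum_mul]
        congr 1
        · exact sum_congr rfl fun a _ => sum_congr rfl fun k _ => by ring
        · ring }
  have hQ : ∀ x : m → ℝ, ∑ i, G x i * x i =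
      ∑ a ∈ free, (∑ k, u a k * x k) ^ 2 + ∑ i, B / g i * x i ^ 2 := by
    intro x
    show ∑ i, ((∑ a ∈ free, (∑ k, u a k * x k) * u a i) + B / g i * x i) * x i = _
    simp only [add_mul, sum_add_distrib]
    congr 1
    · simp only [sum_mul]
      rw [sum_comm]
      refine sum_congr rfl fun a _ => ?_
      rw [pow_two, sum_mul_sum, sum_comm]
      exact sum_congr rfl fun i _ => sum_congr rfl fun k _ => by ring
    · exact sum_congr rfl fun i _ => by ring
  have hinj : Function.Injective G := by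
    rw [← LinearMap.ker_eq_bot, LinearMap.ker_eq_bot']
    intro x hx
    have h := hQ x
    simp only [hx, Pi.zero_apply, zero_mul, sum_const_zero] at h
    have hnn : ∀ i ∈ (univ : Finset m), 0 ≤ B / g i * x i ^ 2 := fun i _ => by
      have := hg i; positivity
    have hs0 : ∑ i, B / g i * x i ^ 2 = 0 :=
      le_antisymm (by linarith [sum_nonneg (s := free) fun a _ => sq_nonneg (∑ k, u a k * x k)])
        (sum_nonneg hnn)
    funext i
    have hi := (sum_eq_zero_iff_of_nonneg hnn).mp hs0 i (mem_univ i)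
    simpa [hB.ne', (hg i).ne'] using hi
  let e := LinearEquiv.ofInjectiveEndo G hinj
  refine ⟨e.symm.toLinearMap, fun dv => ?_⟩
  set x := e.symm.toLinearMap dv
  have hx : G x = dv := e.apply_symm_apply dv
  have h1 : ∀ i, dv i - ∑ a ∈ free, (∑ k, u a k * x k) * u a i = B / g i * x i := fun i => by
    have := congrFun hx i
    simp only [G, LinearMap.coe_mk, AddHom.coe_mk] at this
    linarith
  have h2 : ∑ i, dv i * x i =
      ∑ a ∈ free, (∑ k, u a k * x k) ^ 2 + ∑ i, B / g i * x i ^ 2 := by rw [← hx]; exact hQ x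
  refine ⟨?_, h2⟩
  rw [h2]
  simp only [h1, mul_add, mul_sum]
  rw [add_comm]
  congr 1
  exact sum_congr rfl fun i _ => by
    have := (hg i).ne'
    field_simp

/-- The dual bound for a coercive ridge solution. -/
theorem pairing_le {m : Type*} [Fintype m] {dv x A : m → ℝ} (hA : ∀ i, 0 < A i) {c : ℝ}
    (hc : 0 < c) (h : c * ∑ i, A i * x i ^ 2 ≤ ∑ i, dv i * x i) :
    ∑ i, dv i * x i ≤ (∑ i, dv i ^ 2 / A i) / c := by
  have h1 : ∑ i, dv i * x i ≤ ∑ i, (dv i ^ 2 / A i / (2*c) + c/2 * (A i * x i ^ 2)) := by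
    refine sum_le_sum fun i _ => ?_
    have := (hA i).ne'
    have e : dv i ^ 2 / A i / (2*c) + c/2 * (A i * x i ^ 2) - dv i * x i =
        (dv i - c * A i * x i) ^ 2 / (2 * c * A i) := by field_simp; ring
    have := div_nonneg (sq_nonneg (dv i - c * A i * x i))
      (mul_pos (by linarith : 0 < 2*c) (hA i)).le
    linarith
  rw [sum_add_distrib, ← sum_div, ← mul_sum] at h1
  have e2 : (∑ i, dv i ^ 2 / A i) / (2*c) = (∑ i, dv i ^ 2 / A i) / c / 2 := by ring
  linarith

/-- The second moments of a small shift. -/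
theorem shift_frob {α m : Type*} [Fintype m] [DecidableEq m] (V : Finset α) (c : α → m → ℝ)
    (D : m → ℝ) {β : ℝ} (hβnn : 0 ≤ β) (hβ : ∀ a ∈ V, ∑ i, D i * c a i ^ 2 ≤ β)
    (δ : α → ℝ) {a₀ : ℝ} (hδ : ∀ a ∈ V, |δ a| ≤ a₀) :
    ∑ i, ∑ k, (∑ a ∈ V, δ a * c a i * c a k) ^ 2 ≤
      8 * a₀ ^ 2 * (∑ i, ∑ k, ((∑ a ∈ V, c a i * c a k) - if i = k then D i else 0) ^ 2) +
      6 * β * ∑ a ∈ V, δ a ^ 2 := by
  classical
  set Mx : m → m → ℝ := fun i k => (∑ a ∈ V, c a i * c a k) - if i = k then D i else 0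
  set Z := ∑ i, ∑ k, Mx i k ^ 2
  have hfro : ∀ (T : Finset α) (f : α → ℝ), ∑ i, ∑ k, (∑ a ∈ T, f a * c a i * c a k) ^ 2 =
      ∑ a ∈ T, ∑ b ∈ T, f a * f b * (∑ i, c a i * c b i) ^ 2 := by
    intro T f
    have e : ∀ i k, (∑ a ∈ T, f a * c a i * c a k) ^ 2 =
        ∑ a ∈ T, ∑ b ∈ T, f a * f b * ((c a i * c b i) * (c a k * c b k)) := fun i k => by
      rw [pow_two, sum_mul_sum]
      exact sum_congr rfl fun a _ => sum_congr rfl fun b _ => by ring
    simp only [e]
    rw [sum_congr rfl (fun i _ => sum_comm (s := (univ : Finset m)) (t := T)), sum_comm]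
    refine sum_congr rfl fun a _ => ?_
    rw [sum_congr rfl (fun i _ => sum_comm (s := (univ : Finset m)) (t := T)), sum_comm]
    refine sum_congr rfl fun b _ => ?_
    rw [pow_two, sum_mul_sum, mul_sum]
    exact sum_congr rfl fun i _ => (mul_sum _ _ _).symm
  set Kk : α → α → ℝ := fun a b => (∑ i, c a i * c b i) ^ 2
  set hd : α → ℝ := fun a => ∑ i, D i * c a i ^ 2
  set hm : α → ℝ := fun a => ∑ i, ∑ k, c a i * Mx i k * c a k
  have hrow : ∀ a, ∑ b ∈ V, Kk a b = hd a + hm a := by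
    intro a
    have e : ∀ b, Kk a b = ∑ i, ∑ k, c a i * (c b i * c b k) * c a k := fun b => by
      simp only [Kk, pow_two, sum_mul_sum]
      exact sum_congr rfl fun i _ => sum_congr rfl fun k _ => by ring
    simp only [e, hd, hm, Mx, mul_sub, sub_mul, sum_sub_distrib, mul_sum, sum_mul, mul_ite,
      ite_mul, mul_zero, zero_mul, sum_ite_eq, mem_univ, if_true]
    rw [sum_comm (s := V)]
    simp only [sum_comm (s := V) (t := (univ : Finset m))]
    rw [show ∑ i, c a i * D i * c a i = ∑ i, D i * c a i ^ 2 from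
      sum_congr rfl fun i _ => by ring]
    ring
  have hβ0 : ∀ a ∈ V, hd a ≤ β := hβ
  have hK0 : ∀ a b, 0 ≤ Kk a b := fun a b => sq_nonneg _
  set S := V.filter fun a => 2 * β < hm a
  set T := V.filter fun a => ¬ 2 * β < hm a
  have hSV : S ⊆ V := filter_subset _ _
  have hTV : T ⊆ V := filter_subset _ _
  have hsplit : ∀ i k, ∑ a ∈ V, δ a * c a i * c a k =
      ∑ a ∈ S, δ a * c a i * c a k + ∑ a ∈ T, δ a * c a i * c a k := fun i k =>
    (sum_filter_add_sum_filter_not V _ _).symm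
  have hS : ∑ i, ∑ k, (∑ a ∈ S, δ a * c a i * c a k) ^ 2 ≤ 4 * a₀ ^ 2 * Z := by
    set KS := ∑ a ∈ S, ∑ b ∈ S, Kk a b
    have h1 : ∑ i, ∑ k, (∑ a ∈ S, δ a * c a i * c a k) ^ 2 ≤ a₀ ^ 2 * KS := by
      rw [hfro, mul_sum]
      refine sum_le_sum fun a ha => ?_
      rw [mul_sum]
      refine sum_le_sum fun b hb => mul_le_mul_of_nonneg_right ?_ (hK0 a b)
      rw [pow_two]
      refine (le_abs_self _).trans ?_
      rw [abs_mul]
      exact mul_le_mul (hδ a (hSV ha)) (hδ b (hSV hb)) (abs_nonneg _)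
        ((abs_nonneg _).trans (hδ a (hSV ha)))
    have h2 : KS ≤ 2 * ∑ a ∈ S, hm a := by
      rw [mul_sum]
      refine sum_le_sum fun a ha => ?_
      refine (sum_le_sum_of_subset_of_nonneg hSV fun b _ _ => hK0 a b).trans ?_
      rw [hrow]
      have h3 := (mem_filter.mp ha).2
      have h4 := hβ0 a (hSV ha)
      by_cases hneg : hm a < 0
      · have : 0 ≤ hd a + hm a := hrow a ▸ sum_nonneg fun b _ => hK0 a b
        linarith
      · linarith [not_lt.mp hneg]
    have h3 : (∑ a ∈ S, hm a) ^ 2 ≤ KS * Z := by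
      have e : ∑ a ∈ S, hm a = ∑ x : m × m, (∑ a ∈ S, 1 * c a x.1 * c a x.2) * Mx x.1 x.2 := by
        rw [Fintype.sum_prod_type]
        simp only [hm, sum_mul, one_mul]
        rw [sum_comm]
        refine sum_congr rfl fun i _ => ?_
        rw [sum_comm]
        exact sum_congr rfl fun k _ => sum_congr rfl fun a _ => by ring
      rw [e]
      refine (sum_mul_sq_le_sq_mul_sq _ _ _).trans (le_of_eq ?_)
      rw [Fintype.sum_prod_type, Fintype.sum_prod_type, hfro]
      simp [KS, Kk, Z]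
    have hK : 0 ≤ KS := sum_nonneg fun a _ => sum_nonneg fun b _ => hK0 a b
    have hZ : 0 ≤ Z := sum_nonneg fun i _ => sum_nonneg fun k _ => sq_nonneg _
    have h4 : KS ≤ 4 * Z := by
      rcases hK.eq_or_lt with h | h
      · linarith
      · have h5 : KS ^ 2 ≤ (2 * ∑ a ∈ S, hm a) ^ 2 := pow_le_pow_left₀ hK h2 2
        refine le_of_mul_le_mul_left ?_ h
        rw [mul_pow, pow_two KS] at h5
        linarith
    calc _ ≤ a₀ ^ 2 * KS := h1
      _ ≤ a₀ ^ 2 * (4 * Z) := mul_le_mul_of_nonneg_left h4 (sq_nonneg _)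
      _ = _ := by ring
  have hT : ∑ i, ∑ k, (∑ a ∈ T, δ a * c a i * c a k) ^ 2 ≤ 3 * β * ∑ a ∈ V, δ a ^ 2 := by
    rw [hfro]
    calc ∑ a ∈ T, ∑ b ∈ T, δ a * δ b * Kk a b
        ≤ ∑ a ∈ T, ∑ b ∈ T, (δ a ^ 2 / 2 * Kk a b + δ b ^ 2 / 2 * Kk b a) := by
          refine sum_le_sum fun a _ => sum_le_sum fun b _ => ?_
          have e : Kk b a = Kk a b := by
            simp only [Kk]; congr 1; exact sum_congr rfl fun i _ => mul_comm _ _
          rw [e, ← add_mul]
          exact mul_le_mul_of_nonneg_right (by nlinarith [sq_nonneg (δ a - δ b)]) (hK0 a b)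
      _ = ∑ a ∈ T, δ a ^ 2 * ∑ b ∈ T, Kk a b := by
          simp only [sum_add_distrib]
          rw [sum_comm (f := fun a b => δ b ^ 2 / 2 * Kk b a), ← sum_add_distrib]
          refine sum_congr rfl fun a _ => ?_
          rw [mul_sum, ← sum_add_distrib]
          exact sum_congr rfl fun b _ => by ring
      _ ≤ ∑ a ∈ T, δ a ^ 2 * (3 * β) := by
          refine sum_le_sum fun a ha => mul_le_mul_of_nonneg_left ?_ (sq_nonneg _)
          refine (sum_le_sum_of_subset_of_nonneg hTV fun b _ _ => hK0 a b).trans ?_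
          rw [hrow]
          linarith [not_lt.mp (mem_filter.mp ha).2, hβ0 a (hTV ha)]
      _ ≤ ∑ a ∈ V, δ a ^ 2 * (3 * β) := by
          exact sum_le_sum_of_subset_of_nonneg hTV fun a _ _ =>
            mul_nonneg (sq_nonneg _) (by linarith)
      _ = _ := by rw [← sum_mul]; ring
  calc ∑ i, ∑ k, (∑ a ∈ V, δ a * c a i * c a k) ^ 2
      ≤ ∑ i, ∑ k, (2 * (∑ a ∈ S, δ a * c a i * c a k) ^ 2 +
          2 * (∑ a ∈ T, δ a * c a i * c a k) ^ 2) := by
        refine sum_le_sum fun i _ => sum_le_sum fun k _ => ?_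
        rw [hsplit]
        nlinarith [sq_nonneg ((∑ a ∈ S, δ a * c a i * c a k) - ∑ a ∈ T, δ a * c a i * c a k)]
    _ ≤ _ := by
        simp only [sum_add_distrib, ← mul_sum]
        linarith

end Vale.Agent.P262.Full
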