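import Vale.Agent.P262.Full.Param
import Vale.Agent.P262.Full.Linalg

/-!
The free part of a piece is coercive away from few directions.
-/

open Finset

namespace Vale.Agent.P262.Full

variable {ι : Type*} {d : ℕ} (Lam : Fin d → ℝ)

/-- A vector scaled on the high coordinates and cut on the low ones. -/
noncomputable def cvec (u : ι → Fin d → ℝ) (l : ℕ) (a : ι) (i : Fin d) : ℝ :=
  if l < cross Lam i then Real.sqrt (sw Lam l i) * u a i else 0

/-- The scaled nominal second moments. -/
noncomputable def Dv (l : ℕ) (i : Fin d) : ℝ :=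
  if l < cross Lam i then sw Lam l i * lam Lam l i else 0

/-- The scaled second moment deviation of a weighted family. -/
noncomputable def devW (u : ι → Fin d → ℝ) (l : ℕ) (V : Finset ι) (q : ι → ℝ) (nom : ℝ)
    (i k : Fin d) : ℝ :=
  (∑ a ∈ V, q a * cvec Lam u l a i * cvec Lam u l a k) - if i = k then nom * Dv Lam l i else 0

/-- The squared size of the deviation. -/
noncomputable def ZW (u : ι → Fin d → ℝ) (l : ℕ) (V : Finset ι) (q : ι → ℝ) (nom : ℝ) : ℝ :=
  ∑ i, ∑ k, devW Lam u l V q nom i k ^ 2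

/-- The weighted low mass of one vector. -/
noncomputable def nuLo (u : ι → Fin d → ℝ) (l : ℕ) (a : ι) : ℝ :=
  ∑ i ∈ loSet Lam l, gw Lam l i * u a i ^ 2

theorem nuLo_nonneg (u : ι → Fin d → ℝ) (l : ℕ) (a : ι) : 0 ≤ nuLo Lam u l a :=
  sum_nonneg fun i _ => mul_nonneg (gw_pos Lam l i).le (sq_nonneg _)

theorem devW_symm (u : ι → Fin d → ℝ) (l : ℕ) (V : Finset ι) (q : ι → ℝ) (nom : ℝ) (i k : Fin d) :
    devW Lam u l V q nom i k = devW Lam u l V q nom k i := by
  rcases eq_or_ne i k with rfl | h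
  · rfl
  · simp only [devW, if_neg h, if_neg h.symm]
    exact congrArg (· - 0) (sum_congr rfl fun a _ => by ring)

theorem ZW_nonneg (u : ι → Fin d → ℝ) (l : ℕ) (V : Finset ι) (q : ι → ℝ) (nom : ℝ) :
    0 ≤ ZW Lam u l V q nom := sum_nonneg fun i _ => sum_nonneg fun k _ => sq_nonneg _

variable [DecidableEq ι]

/-- Outside few directions, ridge regression on `free` is as good as the nominal masses. -/
theorem free_coercive (hLam : ∀ i, 0 ≤ Lam i) (u : ι → Fin d → ℝ) (hu : ∀ a, ∑ i, u a i ^ 2 ≤ 1)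
    (l : ℕ) {V free : Finset ι} (hfV : free ⊆ V) (q : ι → ℝ) (hq0 : ∀ a ∈ V, 0 ≤ q a)
    (hq1 : ∀ a ∈ V, q a ≤ 1) (hfree : ∀ a ∈ free, q a = 1) {nom : ℝ} (hnom : 1/4 ≤ nom) :
    ∃ L : List (Fin d → ℝ),
      (L.length : ℝ) ≤ 4096 * ZW Lam u l V q nom +
        64 / Bc * (((V.filter fun a => 0 < q a ∧ a ∉ free).card : ℝ) +
          ∑ a ∈ V, nuLo Lam u l a) ∧
      ∀ θ : Fin d → ℝ, (∀ r ∈ L, ∑ i, r i * θ i = 0) →
        (∑ i, Am Lam l i * θ i ^ 2) / 32 ≤
          ∑ a ∈ free, (∑ i, u a i * θ i) ^ 2 + ∑ i, Bc / gw Lam l i * θ i ^ 2 := by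
  have hB := Bc_pos
  have hA : ∀ i, 0 < Am Lam l i := Am_pos Lam hLam l
  have hsA : ∀ i, 0 < Real.sqrt (Am Lam l i) := fun i => Real.sqrt_pos.mpr (hA i)
  set rA : Fin d → ℝ := fun i => Real.sqrt (Am Lam l i) with hrA
  -- whitening factor of the scaled coordinates
  set ω : Fin d → ℝ := fun i =>
    if l < cross Lam i then 1 / (rA i * Real.sqrt (sw Lam l i)) else 0 with hω
  have hω1 : ∀ i, ω i ^ 2 ≤ 1 := by
    intro i
    simp only [hω]
    split_ifs with h
    · rw [hrA, div_pow, one_pow, mul_pow, Real.sq_sqrt (hA i).le, Real.sq_sqrt (sw_pos Lam l i).le,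
        div_le_one (mul_pos (hA i) (sw_pos Lam l i))]
      have := hi_inv_Am Lam h
      rw [div_le_iff₀ (hA i)] at this
      linarith [mul_comm (sw Lam l i) (Am Lam l i)]
    · simp
  set M : Fin d → Fin d → ℝ := fun i k => ω i * devW Lam u l V q nom i k * ω k with hM
  obtain ⟨L₁, hL₁, hη₁⟩ := exists_big_dirs_sq M
    (fun i k => by simp only [hM]; rw [devW_symm]; ring) (τ := 1/64) (by norm_num)
  set rest := V.filter fun a => 0 < q a ∧ a ∉ free
  set bh : ι → Fin d → ℝ := fun a i => if l < cross Lam i then u a i / rA i else 0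
  obtain ⟨L₂, hL₂, hη₂⟩ := exists_big_dirs_psd rest bh (1/64)
  set bl : ι → Fin d → ℝ := fun a i => if l < cross Lam i then 0 else u a i / rA i
  obtain ⟨L₃, hL₃, hη₃⟩ := exists_big_dirs_psd free bl (1/64)
  refine ⟨(L₁ ++ L₂ ++ L₃).map (fun r i => r i * rA i), ?_, fun θ hθ => ?_⟩
  · have h1 : (L₁.length : ℝ) ≤ 4096 * ZW Lam u l V q nom := by
      have : ∑ i, ∑ k, M i k ^ 2 ≤ ZW Lam u l V q nom := by
        refine sum_le_sum fun i _ => sum_le_sum fun k _ => ?_
        simp only [hM, mul_pow]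
        calc ω i ^ 2 * devW Lam u l V q nom i k ^ 2 * ω k ^ 2
            ≤ 1 * devW Lam u l V q nom i k ^ 2 * 1 :=
              mul_le_mul (mul_le_mul_of_nonneg_right (hω1 i) (sq_nonneg _)) (hω1 k) (sq_nonneg _)
                (mul_nonneg zero_le_one (sq_nonneg _))
          _ = _ := by ring
      linarith
    have h2 : (L₂.length : ℝ) ≤ 64 / Bc * (rest.card : ℝ) := by
      have : ∑ a ∈ rest, ∑ i, bh a i ^ 2 ≤ (rest.card : ℝ) * (1 / Bc) := by
        refine (sum_le_card_nsmul _ _ (1 / Bc) fun a _ => ?_).trans (le_of_eq (nsmul_eq_mul _ _))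
        calc ∑ i, bh a i ^ 2 ≤ ∑ i, u a i ^ 2 / Bc := sum_le_sum fun i _ => by
              simp only [bh]
              split_ifs with h
              · rw [div_pow, hrA, Real.sq_sqrt (hA i).le]
                exact div_le_div_of_nonneg_left (sq_nonneg _) hB (hi_Am Lam h).2.2
              · simp; positivity
          _ ≤ 1 / Bc := by rw [← sum_div]; exact div_le_div_of_nonneg_right (hu a) hB.le
      calc (L₂.length : ℝ) = 64 * ((L₂.length : ℝ) * (1/64)) := by ring
        _ ≤ 64 * ((rest.card : ℝ) * (1 / Bc)) := by linarith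
        _ = _ := by ring
    have h3 : (L₃.length : ℝ) ≤ 64 / Bc * ∑ a ∈ V, nuLo Lam u l a := by
      have : ∑ a ∈ free, ∑ i, bl a i ^ 2 ≤ (∑ a ∈ V, nuLo Lam u l a) / Bc := by
        rw [sum_div]
        refine (sum_le_sum fun a _ => ?_).trans (sum_le_sum_of_subset_of_nonneg hfV fun a _ _ =>
          div_nonneg (nuLo_nonneg Lam u l a) hB.le)
        rw [nuLo, sum_div, loSet, sum_filter]
        refine sum_le_sum fun i _ => ?_
        simp only [bl]
        by_cases h : l < cross Lam i
        · rw [if_pos h, if_neg (by omega)]; simp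
        · rw [if_neg h, if_pos (by omega), div_pow, hrA, Real.sq_sqrt (hA i).le]
          calc u a i ^ 2 / Am Lam l i ≤ u a i ^ 2 / (Bc / gw Lam l i) :=
                div_le_div_of_nonneg_left (sq_nonneg _) (div_pos hB (gw_pos Lam l i))
                  (Bc_div_gw_le_Am Lam hLam l i)
            _ = _ := by field_simp
      calc (L₃.length : ℝ) = 64 * ((L₃.length : ℝ) * (1/64)) := by ring
        _ ≤ 64 * ((∑ a ∈ V, nuLo Lam u l a) / Bc) := by linarith
        _ = _ := by ring
    simp only [List.length_map, List.length_append, Nat.cast_add]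
    rw [mul_add]
    linarith
  · set η : Fin d → ℝ := fun i => rA i * θ i
    have hη0 : ∀ r ∈ L₁ ++ L₂ ++ L₃, ∑ i, r i * η i = 0 := fun r hr => by
      rw [← hθ _ (List.mem_map.mpr ⟨r, hr, rfl⟩)]
      exact sum_congr rfl fun i _ => by simp only [η]; ring
    set ηh : Fin d → ℝ := fun i => if l < cross Lam i then η i else 0
    set ηl : Fin d → ℝ := fun i => if l < cross Lam i then 0 else η i
    set hh : Fin d → ℝ := fun i => if l < cross Lam i then θ i else 0
    set ll : Fin d → ℝ := fun i => if l < cross Lam i then 0 else θ i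
    have hsq : ∑ i, η i ^ 2 = ∑ i, ηh i ^ 2 + ∑ i, ηl i ^ 2 := by
      rw [← sum_add_distrib]
      exact sum_congr rfl fun i _ => by simp only [ηh, ηl]; split_ifs <;> ring
    have hAη : ∑ i, Am Lam l i * θ i ^ 2 = ∑ i, η i ^ 2 :=
      sum_congr rfl fun i _ => by simp only [η, mul_pow, hrA, Real.sq_sqrt (hA i).le]
    have hM0 : |∑ i, ∑ k, η i * M i k * η k| ≤ 1/64 * ∑ i, η i ^ 2 :=
      hη₁ η fun r hr => hη0 r (by simp [hr])
    have hR0 : ∑ a ∈ rest, (∑ i, bh a i * η i) ^ 2 ≤ 1/64 * ∑ i, η i ^ 2 :=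
      hη₂ η fun r hr => hη0 r (by simp [hr])
    have hL0 : ∑ a ∈ free, (∑ i, bl a i * η i) ^ 2 ≤ 1/64 * ∑ i, η i ^ 2 :=
      hη₃ η fun r hr => hη0 r (by simp [hr])
    have eh : ∀ a, ∑ i, bh a i * η i = ∑ i, u a i * hh i := fun a => sum_congr rfl fun i _ => by
      simp only [bh, η, hh, hrA]
      split_ifs
      · have := (hsA i).ne'
        field_simp
      · ring
    have el : ∀ a, ∑ i, bl a i * η i = ∑ i, u a i * ll i := fun a => sum_congr rfl fun i _ => by
      simp only [bl, η, ll, hrA]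
      split_ifs
      · ring
      · have := (hsA i).ne'
        field_simp
    simp only [eh] at hR0
    simp only [el] at hL0
    set dd : Fin d → ℝ := fun i => if l < cross Lam i then nom * lam Lam l i * θ i ^ 2 else 0
    have eM : ∑ i, ∑ k, η i * M i k * η k =
        (∑ a ∈ V, q a * (∑ i, u a i * hh i) ^ 2) - ∑ i, dd i := by
      have hc : ∀ a i, η i * ω i * cvec Lam u l a i = u a i * hh i := fun a i => by
        simp only [η, hω, cvec, hh, hrA]
        split_ifs
        · have := (hsA i).ne'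
          have := (Real.sqrt_pos.mpr (sw_pos Lam l i)).ne'
          field_simp
        · ring
      have e : ∀ i k, η i * M i k * η k =
          (∑ a ∈ V, q a * ((u a i * hh i) * (u a k * hh k))) -
            if i = k then dd i else 0 := by
        intro i k
        simp only [hM, devW, mul_sub, sub_mul]
        congr 1
        · simp only [mul_sum, sum_mul]
          exact sum_congr rfl fun a _ => by rw [← hc a i, ← hc a k]; ring
        · by_cases hik : i = k
          · subst hik
            simp only [if_true, η, hω, Dv, dd, hrA]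
            split_ifs
            · have h1 := (hsA i).ne'
              have h2 := (Real.sqrt_pos.mpr (sw_pos Lam l i)).ne'
              have h3 := Real.mul_self_sqrt (sw_pos Lam l i).le
              field_simp
              rw [Real.sq_sqrt (sw_pos Lam l i).le]
            · ring
          · simp [if_neg hik]
      simp only [e, sum_sub_distrib, sum_ite_eq, mem_univ, if_true]
      congr 1
      rw [sum_congr rfl fun i _ => sum_comm (s := (univ : Finset (Fin d))) (t := V), sum_comm]
      refine sum_congr rfl fun a _ => ?_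
      rw [pow_two, sum_mul_sum, mul_sum]
      exact sum_congr rfl fun i _ => (mul_sum _ _ _).symm
    have hdd : ∑ i, ηh i ^ 2 / 8 ≤ ∑ i, dd i := sum_le_sum fun i _ => by
      simp only [ηh, dd]
      split_ifs with h
      · simp only [η, mul_pow, hrA, Real.sq_sqrt (hA i).le]
        have h2 := (hi_Am Lam h).2.1
        have h3 : Am Lam l i / 8 ≤ nom * lam Lam l i :=
          le_trans (by linarith) (mul_le_mul_of_nonneg_right hnom (lam_nonneg Lam hLam l i))
        calc Am Lam l i * θ i ^ 2 / 8 = Am Lam l i / 8 * θ i ^ 2 := by ring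
          _ ≤ _ := mul_le_mul_of_nonneg_right h3 (sq_nonneg _)
      · simp
    have hfree' : ∑ a ∈ V, q a * (∑ i, u a i * hh i) ^ 2 -
        ∑ a ∈ rest, (∑ i, u a i * hh i) ^ 2 ≤ ∑ a ∈ free, (∑ i, u a i * hh i) ^ 2 := by
      rw [← sum_sdiff hfV]
      have e1 : ∑ a ∈ free, q a * (∑ i, u a i * hh i) ^ 2 = ∑ a ∈ free, (∑ i, u a i * hh i) ^ 2 :=
        sum_congr rfl fun a ha => by rw [hfree a ha, one_mul]
      have e2 : ∑ a ∈ V \ free, q a * (∑ i, u a i * hh i) ^ 2 ≤
          ∑ a ∈ rest, (∑ i, u a i * hh i) ^ 2 := by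
        rw [← sum_filter_add_sum_filter_not (V \ free) (fun a => 0 < q a)]
        have : ∑ a ∈ (V \ free).filter (fun a => ¬ 0 < q a), q a * (∑ i, u a i * hh i) ^ 2 = 0 :=
          sum_eq_zero fun a ha => by
            obtain ⟨ha1, ha2⟩ := mem_filter.mp ha
            rw [le_antisymm (not_lt.mp ha2) (hq0 a (mem_sdiff.mp ha1).1), zero_mul]
        rw [this, add_zero]
        refine le_trans (le_of_eq ?_) (sum_le_sum fun a ha =>
          mul_le_of_le_one_left (sq_nonneg _) (hq1 a (mem_filter.mp ha).1))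
        refine sum_congr ?_ fun _ _ => rfl
        ext a
        simp [rest]
        tauto
      linarith
    have hmix := sq_add_ge free u hh ll
    have hsum : ∀ a, ∑ i, u a i * (hh i + ll i) = ∑ i, u a i * θ i := fun a =>
      sum_congr rfl fun i _ => by simp only [hh, ll]; split_ifs <;> ring
    simp only [hsum] at hmix
    have hlo : ∑ i, ηl i ^ 2 / 2 ≤ ∑ i, Bc / gw Lam l i * θ i ^ 2 := sum_le_sum fun i _ => by
      simp only [ηl]
      split_ifs with h
      · simp only [ne_eq, OfNat.ofNat_ne_zero, not_false_eq_true, zero_pow, zero_div]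
        exact mul_nonneg (div_pos hB (gw_pos Lam l i)).le (sq_nonneg _)
      · simp only [η, mul_pow, hrA, Real.sq_sqrt (hA i).le]
        have h2 : Am Lam l i / 2 ≤ Bc / gw Lam l i := by linarith [lo_Am Lam (not_lt.mp h)]
        calc Am Lam l i * θ i ^ 2 / 2 = Am Lam l i / 2 * θ i ^ 2 := by ring
          _ ≤ _ := mul_le_mul_of_nonneg_right h2 (sq_nonneg _)
    rw [← sum_div] at hdd hlo
    rw [hAη, hsq]
    rw [hsq] at hM0 hR0 hL0
    rw [eM] at hM0
    have := (abs_le.mp hM0).1
    have hh0 : 0 ≤ ∑ i, ηh i ^ 2 := sum_nonneg fun i _ => sq_nonneg _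
    have hl0 : 0 ≤ ∑ i, ηl i ^ 2 := sum_nonneg fun i _ => sq_nonneg _
    linarith

end Vale.Agent.P262.Full
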