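import Vale.Agent.P262.Full.Defs

/-!
Notions shared by the two rounding walks of one block.
-/

open Finset

namespace Vale.Agent.P262.Full

variable {ι : Type*} {d : ℕ} (Lam : Fin d → ℝ)

/-- The vectors of `V` which are not yet assigned to one piece. -/
noncomputable def fracV (V : Finset ι) (p : ι → Fin 3 → ℝ) : Finset ι :=
  V.filter fun a => ∀ X, p a X ≠ 1

/-- The concave energy of one assignment. -/
def phi (q : Fin 3 → ℝ) : ℝ := 1 - ∑ X, q X ^ 2

/-- The shifted targets. -/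
noncomputable def tgt (δA δC : ι → ℝ) (a : ι) : Fin 3 → ℝ :=
  ![1/4 + δA a, 1/2 - δA a - δC a, 1/4 + δC a]

/-- The deviation of a piece from its targets, in scaled second moments. -/
noncomputable def Rm (u : ι → Fin d → ℝ) (l : ℕ) (V : Finset ι) (δA δC : ι → ℝ)
    (p : ι → Fin 3 → ℝ) (X : Fin 3) (i k : Fin d) : ℝ :=
  ∑ a ∈ V, (p a X - tgt δA δC a X) * cvec Lam u l a i * cvec Lam u l a k

/-- The squared size of all three piece deviations. -/
noncomputable def Rsq (u : ι → Fin d → ℝ) (l : ℕ) (V : Finset ι) (δA δC : ι → ℝ)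
    (p : ι → Fin 3 → ℝ) : ℝ :=
  ∑ X, ∑ i, ∑ k, Rm Lam u l V δA δC p X i k ^ 2

/-- The squared scaled length. -/
noncomputable def qc (u : ι → Fin d → ℝ) (l : ℕ) (a : ι) : ℝ := ∑ i, cvec Lam u l a i ^ 2

/-- The piece entering each of the two new points. -/
def selX : Fin 2 → Fin 3 := ![0, 2]

/-- The sign with which it enters. -/
def selS : Fin 2 → ℝ := ![1, -1]

/-- The rounding error at the two new points. -/
noncomputable def ferr (u : ι → Fin d → ℝ) (V : Finset ι) (δA δC : ι → ℝ) (p : ι → Fin 3 → ℝ)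
    (j : Fin 2) (i : Fin d) : ℝ :=
  ∑ a ∈ V, selS j * (p a (selX j) - tgt δA δC a (selX j)) * u a i

theorem exists_dir {q : Fin 3 → ℝ} (h0 : ∀ X, 0 ≤ q X) (h1 : ∑ X, q X = 1) (hne : ∀ X, q X ≠ 1) :
    ∃ e : Fin 3 → ℝ, ∑ X, e X = 0 ∧ ∑ X, e X ^ 2 = 2 ∧ (∀ X, e X ^ 2 ≤ 1) ∧
      (∀ X, q X = 0 → e X = 0) := by
  obtain ⟨X, hX⟩ : ∃ X, 0 < q X := by
    by_contra h
    push Not at h
    have : ∑ X, q X ≤ 0 := sum_nonpos fun X _ => h X
    linarith
  obtain ⟨Y, hYX, hY⟩ : ∃ Y, Y ≠ X ∧ 0 < q Y := by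
    by_contra h
    push Not at h
    refine hne X ?_
    rw [← h1, Fintype.sum_eq_single X]
    exact fun Y hY => le_antisymm (h Y hY) (h0 Y)
  refine ⟨fun Z => (if Z = X then 1 else 0) - if Z = Y then 1 else 0, by simp [sum_sub_distrib], ?_,
    fun Z => ?_, fun Z hZ => ?_⟩
  · have e : ∀ Z : Fin 3, ((if Z = X then (1:ℝ) else 0) - if Z = Y then 1 else 0) ^ 2 =
        (if Z = X then 1 else 0) + if Z = Y then 1 else 0 := by
      intro Z
      split_ifs with a b <;> norm_num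
      exact absurd (b.symm.trans a) hYX
    simp only [e, sum_add_distrib, sum_ite_eq', mem_univ, if_true]
    norm_num
  · show ((if Z = X then (1:ℝ) else 0) - if Z = Y then 1 else 0) ^ 2 ≤ 1
    split_ifs <;> norm_num
  · have h2 : Z ≠ X := fun h => by rw [h] at hZ; linarith
    have h3 : Z ≠ Y := fun h => by rw [h] at hZ; linarith
    simp [h2, h3]

theorem phi_nonneg {q : Fin 3 → ℝ} (h0 : ∀ X, 0 ≤ q X) (h1 : ∑ X, q X = 1) : 0 ≤ phi q := by
  have h : ∑ X, q X ^ 2 ≤ ∑ X, q X := sum_le_sum fun X _ => by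
    have : q X ≤ 1 := h1 ▸ single_le_sum (fun Y _ => h0 Y) (mem_univ X)
    rw [pow_two]
    exact mul_le_of_le_one_right (h0 X) this
  rw [phi]
  linarith

theorem phi_le_one (q : Fin 3 → ℝ) : phi q ≤ 1 := by
  rw [phi]
  linarith [sum_nonneg (s := (univ : Finset (Fin 3))) fun X _ => sq_nonneg (q X)]

theorem eq_zero_of_eq_one {q : Fin 3 → ℝ} (h0 : ∀ X, 0 ≤ q X) (h1 : ∑ X, q X = 1) {X Y : Fin 3}
    (hX : q X = 1) (hY : Y ≠ X) : q Y = 0 := by
  have := sum_le_sum_of_subset_of_nonneg (f := q) (subset_univ {X, Y}) fun Z _ _ => h0 Z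
  rw [sum_pair hY.symm, h1, hX] at this
  linarith [h0 Y]

theorem phi_eq_zero {q : Fin 3 → ℝ} (h0 : ∀ X, 0 ≤ q X) (h1 : ∑ X, q X = 1) {X : Fin 3}
    (hX : q X = 1) : phi q = 0 := by
  rw [phi, Fintype.sum_eq_single X, hX]
  · norm_num
  · intro Y hY
    rw [eq_zero_of_eq_one h0 h1 hX hY]; norm_num

theorem phi_step (q e : Fin 3 → ℝ) (he : ∑ X, e X ^ 2 = 2) (s : ℝ) :
    phi (fun X => q X + s * e X) = phi q - 2 * s * (∑ X, q X * e X) - 2 * s ^ 2 := by
  simp only [phi, add_sq, sum_add_distrib, mul_pow, ← mul_sum, he]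
  rw [show ∑ X, 2 * q X * (s * e X) = 2 * s * ∑ X, q X * e X by
    rw [mul_sum]; exact sum_congr rfl fun X _ => by ring]
  ring

/-- A functional given by its coefficients. -/
noncomputable def rowL [Fintype ι] (r : ι → ℝ) : (ι → ℝ) →ₗ[ℝ] ℝ :=
  ∑ a, r a • LinearMap.proj a

theorem rowL_apply [Fintype ι] (r t : ι → ℝ) : rowL r t = ∑ a, r a * t a := by
  simp [rowL]

/-- A quadratic form is below four times its diagonal outside a quarter of the dimensions. -/
theorem exists_trace_dirs [Fintype ι] [DecidableEq ι] {κ : Type*} [Fintype κ] (F : Finset ι)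
    (r : κ → ι → ℝ) (D : ι → ℝ) (hD : ∀ a ∈ F, ∑ j, r j a ^ 2 ≤ D a) :
    ∃ L : List ((ι → ℝ) →ₗ[ℝ] ℝ), 4 * L.length ≤ F.card ∧
      ∀ t : ι → ℝ, (∀ a ∉ F, t a = 0) → (∀ φ ∈ L, φ t = 0) →
        ∑ j, (∑ a, r j a * t a) ^ 2 ≤ 4 * ∑ a ∈ F, D a * t a ^ 2 := by
  have hD0 : ∀ a ∈ F, 0 ≤ D a := fun a ha => (sum_nonneg fun j _ => sq_nonneg _).trans (hD a ha)
  set b : κ → ι → ℝ := fun j a => if a ∈ F then r j a / Real.sqrt (D a) else 0
  obtain ⟨L, hL, hη⟩ := exists_big_dirs_psd univ b 4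
  refine ⟨L.map fun v => rowL fun a => v a * Real.sqrt (D a), ?_, fun t ht hker => ?_⟩
  · have h : ∑ j, ∑ a, b j a ^ 2 ≤ (F.card : ℝ) := by
      rw [sum_comm, ← sum_subset (subset_univ F) fun a _ ha => by simp [b, ha]]
      refine (sum_le_card_nsmul _ _ (1:ℝ) fun a ha => ?_).trans (le_of_eq (by simp))
      simp only [b, if_pos ha, div_pow, Real.sq_sqrt (hD0 a ha), ← sum_div]
      exact div_le_one_of_le₀ (hD a ha) (hD0 a ha)
    rw [List.length_map]
    have h2 : ((4 * L.length : ℕ) : ℝ) ≤ (F.card : ℝ) := by push_cast; linarith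
    exact_mod_cast h2
  · have h := hη (fun a => Real.sqrt (D a) * t a) fun v hv => by
      have h0 := hker _ (List.mem_map.mpr ⟨v, hv, rfl⟩)
      rw [rowL_apply] at h0
      rw [← h0]
      exact sum_congr rfl fun a _ => by ring
    have e1 : ∀ j, ∑ a, b j a * (Real.sqrt (D a) * t a) = ∑ a, r j a * t a := fun j =>
      sum_congr rfl fun a _ => by
        by_cases ha : a ∈ F
        · simp only [b, if_pos ha]
          rcases (hD0 a ha).eq_or_lt with h0 | h0
          · have : r j a = 0 := by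
              have h1 : r j a ^ 2 ≤ 0 := by
                rw [h0]
                exact (single_le_sum (f := fun j => r j a ^ 2) (fun j _ => sq_nonneg _)
                  (mem_univ j)).trans (hD a ha)
              exact sq_eq_zero_iff.mp (le_antisymm h1 (sq_nonneg _))
            simp [this]
          · have := (Real.sqrt_pos.mpr h0).ne'
            field_simp
        · simp [ht a ha]
    have e2 : ∑ a, (Real.sqrt (D a) * t a) ^ 2 = ∑ a ∈ F, D a * t a ^ 2 := by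
      rw [← sum_subset (subset_univ F) fun a _ ha => by simp [ht a ha]]
      exact sum_congr rfl fun a ha => by rw [mul_pow, Real.sq_sqrt (hD0 a ha)]
    simp only [e1, e2] at h
    exact h

theorem qc_nonneg (u : ι → Fin d → ℝ) (l : ℕ) (a : ι) : 0 ≤ qc Lam u l a :=
  sum_nonneg fun i _ => sq_nonneg _

theorem cvec_sq (u : ι → Fin d → ℝ) (l : ℕ) (a : ι) (i : Fin d) :
    cvec Lam u l a i ^ 2 = if l < cross Lam i then sw Lam l i * u a i ^ 2 else 0 := by
  rw [cvec]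
  split_ifs
  · rw [mul_pow, Real.sq_sqrt (sw_pos Lam l i).le]
  · norm_num

theorem qc_sq_le (u : ι → Fin d → ℝ) (hu : ∀ a, ∑ i, u a i ^ 2 ≤ 1) (l : ℕ) (a : ι) :
    qc Lam u l a ^ 2 ≤ ∑ i ∈ hiSet Lam l, sw Lam l i ^ 2 * u a i ^ 2 := by
  have e : qc Lam u l a = ∑ i ∈ hiSet Lam l, (sw Lam l i * u a i) * u a i := by
    simp only [qc, cvec_sq, hiSet, sum_filter]
    exact sum_congr rfl fun i _ => by split_ifs <;> ring
  rw [e]
  refine (sum_mul_sq_le_sq_mul_sq _ _ _).trans ?_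
  calc _ ≤ (∑ i ∈ hiSet Lam l, (sw Lam l i * u a i) ^ 2) * 1 :=
        mul_le_mul_of_nonneg_left ((sum_le_sum_of_subset_of_nonneg (subset_univ _)
          fun i _ _ => sq_nonneg _).trans (hu a)) (sum_nonneg fun i _ => sq_nonneg _)
    _ = _ := by simp only [mul_one, mul_pow]

theorem qc_le (u : ι → Fin d → ℝ) (hu : ∀ a, ∑ i, u a i ^ 2 ≤ 1) (l : ℕ) (a : ι) :
    qc Lam u l a ≤ 1 / Bc := by
  calc qc Lam u l a ≤ ∑ i, (1 / Bc) * u a i ^ 2 := sum_le_sum fun i _ => by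
        rw [cvec_sq]
        split_ifs
        · exact mul_le_mul_of_nonneg_right (sw_le Lam l i) (sq_nonneg _)
        · exact mul_nonneg (one_div_pos.mpr Bc_pos).le (sq_nonneg _)
    _ ≤ 1 / Bc := by
        rw [← mul_sum]
        exact mul_le_of_le_one_right (one_div_pos.mpr Bc_pos).le (hu a)

theorem sum_qc_sq_le (u : ι → Fin d → ℝ) (hu : ∀ a, ∑ i, u a i ^ 2 ≤ 1) (l : ℕ) (V : Finset ι) :
    ∑ a ∈ V, qc Lam u l a ^ 2 ≤ 4 / Bc * xi Lam l + Zn Lam u l V / 2 ^ 25 := by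
  refine (sum_le_sum fun a _ => qc_sq_le Lam u hu l a).trans ?_
  rw [sum_comm]
  have key : ∀ i ∈ hiSet Lam l, ∑ a ∈ V, sw Lam l i ^ 2 * u a i ^ 2 ≤
      4 / Bc * xiOne Lam l i + devW Lam u l V (fun _ => 1) 1 i i ^ 2 / 2 ^ 25 := by
    intro i hi
    have h := (mem_hiSet Lam).mp hi
    have hM : devW Lam u l V (fun _ => 1) 1 i i =
        sw Lam l i * (∑ a ∈ V, u a i ^ 2) - sw Lam l i * lam Lam l i := by
      simp only [devW, Dv, if_pos h, if_true, one_mul, ← pow_two, cvec_sq, mul_sum]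
    set M := devW Lam u l V (fun _ => 1) 1 i i
    set s := sw Lam l i
    have e : ∑ a ∈ V, s ^ 2 * u a i ^ 2 = s ^ 2 * lam Lam l i + s * M := by
      rw [hM, ← mul_sum]; ring
    have h1 : s * M ≤ M ^ 2 / 2 ^ 25 + 2 ^ 23 * s ^ 2 := by
      nlinarith [sq_nonneg (M - 2 ^ 24 * s)]
    have h2 := hi_sw_sq_lam Lam h
    have h3 := hi_geom_le_xiOne Lam h (r := 18/25) (by norm_num) (by norm_num)
    have h4 := hi_geom_le_xiOne Lam h (r := 9/25) (by norm_num) (by norm_num)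
    have h5 : s ^ 2 = (9/25) ^ age Lam l i / Bc ^ 2 := sw_sq Lam l i
    have h6 := (xiOne_pos Lam l i).le
    have hs1 : s ^ 2 * lam Lam l i ≤ 8/3 / Bc * xiOne Lam l i := by
      refine h2.trans ((mul_le_mul_of_nonneg_left h3 (by rw [Bc_eq]; positivity)).trans
        (le_of_eq (by ring)))
    have hs2 : 2 ^ 23 * s ^ 2 ≤ 4/3 / Bc * xiOne Lam l i := by
      rw [h5, Bc_eq]
      calc (2:ℝ) ^ 23 * ((9/25) ^ age Lam l i / (2 ^ 50) ^ 2)
          = (9/25 : ℝ) ^ age Lam l i * (1 / 2 ^ 77) := by ring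
        _ ≤ (4/3 * xiOne Lam l i) * (1 / 2 ^ 50) :=
            mul_le_mul h4 (by norm_num) (by norm_num) (by positivity)
        _ = _ := by ring
    rw [e]
    calc s ^ 2 * lam Lam l i + s * M
        ≤ 8/3 / Bc * xiOne Lam l i + (M ^ 2 / 2 ^ 25 + 4/3 / Bc * xiOne Lam l i) := by linarith
      _ = _ := by ring
  refine (sum_le_sum key).trans ?_
  rw [sum_add_distrib, ← mul_sum, ← sum_div]
  have hB := Bc_pos
  refine add_le_add (mul_le_mul_of_nonneg_left (sum_le_sum_of_subset_of_nonneg (subset_univ _)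
    fun i _ _ => (xiOne_pos Lam l i).le) (by positivity))
    (div_le_div_of_nonneg_right ?_ (by norm_num))
  refine (sum_le_sum_of_subset_of_nonneg (subset_univ _) fun i _ _ => sq_nonneg _).trans ?_
  exact sum_le_sum fun i _ =>
    single_le_sum (f := fun k => devW Lam u l V (fun _ => 1) 1 i k ^ 2) (fun k _ => sq_nonneg _)
      (mem_univ i)

/-- The deviation of a piece, from the block, the shift and the walk. -/
theorem ZW_piece_le [DecidableEq ι] (u : ι → Fin d → ℝ) (hu : ∀ a, ∑ i, u a i ^ 2 ≤ 1)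
    (l : ℕ) (V : Finset ι) (δA δC : ι → ℝ) (hA : ∀ a ∈ V, |δA a| ≤ 2 * alpha)
    (hC : ∀ a ∈ V, |δC a| ≤ 2 * alpha) (p : ι → Fin 3 → ℝ) (X : Fin 3) :
    ZW Lam u l V (fun a => p a X) (nom X) ≤
      ((1 + 1/16) * nom X ^ 2 + 17 * 2 * (128 * alpha ^ 2)) * Zn Lam u l V +
        816 / Bc * (∑ a ∈ V, (δA a ^ 2 + δC a ^ 2)) + 34 * Rsq Lam u l V δA δC p := by
  set c := cvec Lam u l
  set δX : ι → ℝ := fun a => tgt δA δC a X - nom X
  have hδX : ∀ a ∈ V, |δX a| ≤ 4 * alpha ∧ δX a ^ 2 ≤ 2 * (δA a ^ 2 + δC a ^ 2) := by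
    intro a ha
    obtain ⟨a1, a2⟩ := abs_le.mp (hA a ha)
    obtain ⟨b1, b2⟩ := abs_le.mp (hC a ha)
    have h1 := sq_nonneg (δA a)
    have h2 := sq_nonneg (δC a)
    have hal : (0:ℝ) ≤ alpha := by rw [alpha]; norm_num
    rw [abs_le]
    fin_cases X <;> simp [δX, tgt, nom] <;>
      refine ⟨⟨by linarith, by linarith⟩, by nlinarith [sq_nonneg (δA a - δC a)]⟩
  have hβ : ∀ a ∈ V, ∑ i, Dv Lam l i * c a i ^ 2 ≤ 2 / Bc := by
    intro a _
    have hB := Bc_pos
    calc ∑ i, Dv Lam l i * c a i ^ 2 ≤ ∑ i, 2 / Bc * u a i ^ 2 := by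
          refine sum_le_sum fun i _ => ?_
          simp only [c, cvec_sq, Dv]
          split_ifs with h
          · have h1 := hi_sw_sq_lam Lam h
            have h2 : sw Lam l i ^ 2 * lam Lam l i ≤ 2 / Bc :=
              h1.trans (mul_le_of_le_one_right (by positivity)
                (pow_le_one₀ (by norm_num) (by norm_num)))
            calc _ = sw Lam l i ^ 2 * lam Lam l i * u a i ^ 2 := by ring
              _ ≤ _ := mul_le_mul_of_nonneg_right h2 (sq_nonneg _)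
          · simp; positivity
      _ ≤ 2 / Bc := by
          rw [← mul_sum]; exact mul_le_of_le_one_right (by positivity) (hu a)
  have hF := shift_frob V c (Dv Lam l) (div_pos two_pos Bc_pos).le hβ δX fun a ha => (hδX a ha).1
  have hZn : ∑ i, ∑ k, ((∑ a ∈ V, c a i * c a k) - if i = k then Dv Lam l i else 0) ^ 2 =
      Zn Lam u l V := by
    simp [Zn, ZW, devW, c]
  rw [hZn] at hF
  have hδsum : ∑ a ∈ V, δX a ^ 2 ≤ 2 * ∑ a ∈ V, (δA a ^ 2 + δC a ^ 2) := by
    rw [mul_sum]; exact sum_le_sum fun a ha => (hδX a ha).2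
  have hR : ∑ i, ∑ k, Rm Lam u l V δA δC p X i k ^ 2 ≤ Rsq Lam u l V δA δC p :=
    single_le_sum (f := fun X => ∑ i, ∑ k, Rm Lam u l V δA δC p X i k ^ 2)
      (fun Y _ => sum_nonneg fun i _ => sum_nonneg fun k _ => sq_nonneg _) (mem_univ X)
  have key : ∀ i k, devW Lam u l V (fun a => p a X) (nom X) i k ^ 2 ≤
      (1 + 1/16) * nom X ^ 2 * devW Lam u l V (fun _ => 1) 1 i k ^ 2 +
        34 * (∑ a ∈ V, δX a * c a i * c a k) ^ 2 + 34 * Rm Lam u l V δA δC p X i k ^ 2 := by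
    intro i k
    have e : devW Lam u l V (fun a => p a X) (nom X) i k =
        nom X * devW Lam u l V (fun _ => 1) 1 i k + (∑ a ∈ V, δX a * c a i * c a k) +
          Rm Lam u l V δA δC p X i k := by
      simp only [devW, Rm, δX, c, mul_sub, mul_sum, mul_ite, mul_zero, one_mul]
      rw [sub_add_eq_add_sub, sub_add_eq_add_sub, ← sum_add_distrib, ← sum_add_distrib]
      exact congrArg (· - _) (sum_congr rfl fun a _ => by ring)
    rw [e]
    set A := nom X * devW Lam u l V (fun _ => 1) 1 i k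
    set F := ∑ a ∈ V, δX a * c a i * c a k
    set R := Rm Lam u l V δA δC p X i k
    rw [show (1 + 1/16) * nom X ^ 2 * devW Lam u l V (fun _ => 1) 1 i k ^ 2 = (1 + 1/16) * A ^ 2 by
      simp only [A]; ring]
    nlinarith [sq_nonneg (A / 4 - 4 * (F + R)), sq_nonneg (F - R)]
  have h1 : ZW Lam u l V (fun a => p a X) (nom X) ≤
      (1 + 1/16) * nom X ^ 2 * Zn Lam u l V +
        34 * (∑ i, ∑ k, (∑ a ∈ V, δX a * c a i * c a k) ^ 2) +
        34 * ∑ i, ∑ k, Rm Lam u l V δA δC p X i k ^ 2 := by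
    refine (sum_le_sum fun i _ => sum_le_sum fun k _ => key i k).trans (le_of_eq ?_)
    simp only [sum_add_distrib, ← mul_sum]
    rfl
  refine h1.trans ?_
  have h2 : 6 * (2 / Bc) * ∑ a ∈ V, δX a ^ 2 ≤ 24 / Bc * ∑ a ∈ V, (δA a ^ 2 + δC a ^ 2) := by
    calc _ ≤ 6 * (2 / Bc) * (2 * ∑ a ∈ V, (δA a ^ 2 + δC a ^ 2)) :=
          mul_le_mul_of_nonneg_left hδsum (by have := Bc_pos; positivity)
      _ = _ := by ring
  have h3 : 8 * (4 * alpha) ^ 2 = 128 * alpha ^ 2 := by ring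
  rw [h3] at hF
  calc _ ≤ (1 + 1/16) * nom X ^ 2 * Zn Lam u l V +
        34 * (128 * alpha ^ 2 * Zn Lam u l V +
          24 / Bc * ∑ a ∈ V, (δA a ^ 2 + δC a ^ 2)) +
        34 * Rsq Lam u l V δA δC p := by linarith
    _ = _ := by ring

end Vale.Agent.P262.Full
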