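import Vale.Agent.P262.Full.Coercive

/-!
What one split of a block delivers to the assembly.
-/

open Finset

namespace Vale.Agent.P262.Full

variable {ι : Type*} [DecidableEq ι] {d : ℕ} (Lam : Fin d → ℝ)

/-- The bound on a witness inside the walk; a delivered witness is bounded by twice this. -/
noncomputable def alpha : ℝ := 1 / 1024

/-- The weighted low mass of a block. -/
noncomputable def Tm (u : ι → Fin d → ℝ) (l : ℕ) (V : Finset ι) : ℝ :=
  ∑ a ∈ V, nuLo Lam u l a

/-- The squared second moment deviation of a block. -/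
noncomputable def Zn (u : ι → Fin d → ℝ) (l : ℕ) (V : Finset ι) : ℝ :=
  ZW Lam u l V (fun _ => 1) 1

/-- The nominal share of a piece. -/
noncomputable def nom (X : Fin 3) : ℝ := if X = 1 then 1/2 else 1/4

/-- The piece adjacent to each of the four sides (left and right of the two new points). -/
def cls : Fin 4 → Fin 3 := ![0, 1, 1, 2]

/-- The new point of each of the four sides. -/
def pnt : Fin 4 → Fin 2 := ![0, 0, 1, 1]

/-- The share of the left endpoint in each new point. -/
noncomputable def shareL : Fin 2 → ℝ := ![3/4, 1/4]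

/-- The part of a split that is not paid by the deviation of the block. -/
noncomputable def Rest (u : ι → Fin d → ℝ) (l : ℕ) (V : Finset ι) (δA δC : ι → ℝ) : ℝ :=
  xi Lam l + Tm Lam u l V + (∑ a ∈ V, (δA a ^ 2 + δC a ^ 2)) / Bc

/-- The weight of a vector in a piece, coordinate by coordinate: fractional on the low coordinates
of the unsplit vectors, integral elsewhere. -/
noncomputable def fullW (l : ℕ) (piece : ι → Fin 3) (w : ι → Fin 3 → ℝ) (a : ι) (i : Fin d)
    (X : Fin 3) : ℝ :=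
  if cross Lam i ≤ l then w a X else if piece a = X then 1 else 0

/-- The rounding error at each of the two new points, for shifted targets. -/
noncomputable def splitErr (u : ι → Fin d → ℝ) (l : ℕ) (V : Finset ι) (δA δC : ι → ℝ)
    (piece : ι → Fin 3) (w : ι → Fin 3 → ℝ) (j : Fin 2) (i : Fin d) : ℝ :=
  ![∑ a ∈ V, (fullW Lam l piece w a i 0 - (1/4 + δA a)) * u a i,
    -∑ a ∈ V, (fullW Lam l piece w a i 2 - (1/4 + δC a)) * u a i] j

/-- The outcome of one split of the block `V` with shifts `δA`, `δC` and raw end parts `eL`, `eR`. -/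
structure SplitSpec (u : ι → Fin d → ℝ) (l : ℕ) (V : Finset ι) (δA δC : ι → ℝ)
    (eL eR : Fin d → ℝ) (piece : ι → Fin 3) (left : Finset ι) (w : ι → Fin 3 → ℝ)
    (x : Fin 4 → ι → ℝ) (e : Fin 2 → Fin d → ℝ) : Prop where
  left_sub : left ⊆ V
  left_card : left.card ≤ 16
  w_nonneg : ∀ a ∈ V, ∀ X, 0 ≤ w a X
  w_sum : ∀ a ∈ V, ∑ X, w a X = 1
  w_int : ∀ a ∈ V, a ∉ left → ∀ X, w a X = if piece a = X then 1 else 0
  x_box : ∀ σ a, |x σ a| ≤ 2 * alpha
  x_supp : ∀ σ a, x σ a ≠ 0 → a ∈ V ∧ a ∉ left ∧ piece a = cls σ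
  residual : ∀ σ,
    ∑ i, gw Lam l i * (splitErr Lam u l V δA δC piece w (pnt σ) i - e (pnt σ) i -
        ∑ a ∈ V, x σ a * u a i) ^ 2 + Bc * ∑ a ∈ V, x σ a ^ 2 ≤
      2 ^ 30 * Rest Lam u l V δA δC + Zn Lam u l V / 64
  raw : ∀ j, ∑ i, (shareL j * eL i + (1 - shareL j) * eR i + e j i) ^ 2 ≤
      shareL j * (∑ i, eL i ^ 2) + (1 - shareL j) * (∑ i, eR i ^ 2) +
        2 ^ 120 * (Rest Lam u l V δA δC + Zn Lam u l V)
  low : ∀ X, ∑ a ∈ (V.filter fun a => piece a = X ∧ a ∉ left), nuLo Lam u l a ≤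
      (nom X + 4 * alpha) * Tm Lam u l V
  card : ∀ X, ((V.filter fun a => piece a = X).card : ℝ) ≤ (nom X + 4 * alpha) * V.card + 16
  moment : ∀ X, ZW Lam u l V (fun a => if piece a = X then 1 else 0) (nom X) ≤
      (if X = 1 then 29/100 else 75/1000) * Zn Lam u l V + 2 ^ 30 * Rest Lam u l V δA δC

end Vale.Agent.P262.Full
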