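import Vale.Agent.P262.Full.Raw

/-!
One split of a block.
-/

set_option linter.unusedSectionVars false

open Finset

namespace Vale.Agent.P262.Full

variable {ι : Type*} [Fintype ι] [DecidableEq ι] {d : ℕ} (Lam : Fin d → ℝ)
variable (u : ι → Fin d → ℝ) (l : ℕ) (V : Finset ι) (δA δC : ι → ℝ)

/-- The piece chosen for a vector: its own one if assigned, otherwise `ch`. -/
noncomputable def pieceOf (p : ι → Fin 3 → ℝ) (ch : ι → Fin 3) (a : ι) : Fin 3 :=
  if p a 0 = 1 then 0 else if p a 1 = 1 then 1 else if p a 2 = 1 then 2 else ch a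

/-- The high part of the final rounding. -/
noncomputable def rd (p : ι → Fin 3 → ℝ) (ch : ι → Fin 3) (j : Fin 2) (i : Fin d) : ℝ :=
  if l < cross Lam i then
    ∑ a ∈ fracV V p, selS j * ((if ch a = selX j then 1 else 0) - p a (selX j)) * u a i
  else 0

theorem pieceOf_frac {p : ι → Fin 3 → ℝ} (ch : ι → Fin 3) {a : ι} (ha : a ∈ fracV V p) :
    pieceOf p ch a = ch a := by
  obtain ⟨-, h⟩ := mem_filter.mp ha
  simp [pieceOf, h 0, h 1, h 2]

theorem p_eq_pieceOf {p : ι → Fin 3 → ℝ} (h0 : ∀ a X, 0 ≤ p a X) (h1 : ∀ a, ∑ X, p a X = 1)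
    (ch : ι → Fin 3) {a : ι} (ha : a ∈ V) (hna : a ∉ fracV V p) (X : Fin 3) :
    p a X = if pieceOf p ch a = X then 1 else 0 := by
  obtain ⟨Y, hY⟩ : ∃ Y, p a Y = 1 := by
    by_contra h
    push Not at h
    exact hna (mem_filter.mpr ⟨ha, h⟩)
  have hz : ∀ Z, Z ≠ Y → p a Z = 0 := fun Z hZ => eq_zero_of_eq_one (h0 a) (h1 a) hY hZ
  have hpo : pieceOf p ch a = Y := by
    unfold pieceOf
    fin_cases Y <;> simp_all
  rw [hpo]
  split_ifs with h
  · exact h ▸ hY
  · exact hz X (Ne.symm h)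

theorem all_eq {p : ι → Fin 3 → ℝ} (h1 : ∀ a, ∑ X, p a X = 1) (f : ι → ℝ)
    (h : ∀ j, ∑ a ∈ V, p a (selX j) * f a = ∑ a ∈ V, tgt δA δC a (selX j) * f a) (X : Fin 3) :
    ∑ a ∈ V, p a X * f a = ∑ a ∈ V, tgt δA δC a X * f a := by
  have hA : ∑ a ∈ V, p a 0 * f a = ∑ a ∈ V, tgt δA δC a 0 * f a := h 0
  have hC : ∑ a ∈ V, p a 2 * f a = ∑ a ∈ V, tgt δA δC a 2 * f a := h 1
  fin_cases X
  · exact hA
  · show ∑ a ∈ V, p a 1 * f a = ∑ a ∈ V, tgt δA δC a 1 * f a
    have e : ∀ a, p a 1 * f a = f a - p a 0 * f a - p a 2 * f a := fun a => by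
      have := h1 a
      rw [Fin.sum_univ_three] at this
      rw [show p a 1 = 1 - p a 0 - p a 2 by linarith]; ring
    have e' : ∀ a, tgt δA δC a 1 * f a = f a - tgt δA δC a 0 * f a - tgt δA δC a 2 * f a :=
      fun a => by
        simp [tgt]; ring
    simp only [e, e', sum_sub_distrib, hA, hC]
  · exact hC

theorem tgt_le {a : ι} (hA : |δA a| ≤ 2 * alpha) (hC : |δC a| ≤ 2 * alpha) (X : Fin 3) :
    tgt δA δC a X ≤ nom X + 4 * alpha := by
  obtain ⟨a1, a2⟩ := abs_le.mp hA
  obtain ⟨b1, b2⟩ := abs_le.mp hC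
  have hal : (0:ℝ) ≤ alpha := by rw [alpha]; norm_num
  fin_cases X <;> simp [tgt, nom] <;> linarith

/-- The contribution of the unassigned vectors to one rounding error. -/
theorem splitErr_eq {p : ι → Fin 3 → ℝ} (h0 : ∀ a X, 0 ≤ p a X) (h1 : ∀ a, ∑ X, p a X = 1)
    (ch : ι → Fin 3) (j : Fin 2) (i : Fin d) :
    splitErr Lam u l V δA δC (pieceOf p ch) p j i =
      ferr u V δA δC p j i + rd Lam u l V p ch j i := by
  have e : splitErr Lam u l V δA δC (pieceOf p ch) p j i =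
      ∑ a ∈ V, selS j * (fullW Lam l (pieceOf p ch) p a i (selX j) - tgt δA δC a (selX j)) *
        u a i := by
    fin_cases j
    · simp [splitErr, selS, selX, tgt]
    · simp [splitErr, selS, selX, tgt]
      rw [← sum_neg_distrib]
      exact sum_congr rfl fun a _ => by ring
  rw [e, ferr, rd]
  by_cases hi : l < cross Lam i
  · have hsub : ∑ a ∈ fracV V p,
        selS j * ((if ch a = selX j then 1 else 0) - p a (selX j)) * u a i =
        ∑ a ∈ V, selS j * ((if pieceOf p ch a = selX j then 1 else 0) - p a (selX j)) * u a i := by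
      rw [← sum_subset (show fracV V p ⊆ V from filter_subset _ _) fun a ha hna => by
        rw [p_eq_pieceOf V h0 h1 ch ha hna]; ring]
      exact sum_congr rfl fun a ha => by rw [pieceOf_frac V ch ha]
    rw [if_pos hi, hsub, ← sum_add_distrib]
    refine sum_congr rfl fun a _ => ?_
    rw [fullW, if_neg (not_le.mpr hi)]
    ring
  · rw [if_neg hi, add_zero]
    refine sum_congr rfl fun a _ => ?_
    rw [fullW, if_pos (not_lt.mp hi)]

variable (hLam : ∀ i, 0 ≤ Lam i) (hu : ∀ a, ∑ i, u a i ^ 2 ≤ 1)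
  (hA : ∀ a ∈ V, |δA a| ≤ 2 * alpha) (hC : ∀ a ∈ V, |δC a| ≤ 2 * alpha)
variable {p : ι → Fin 3 → ℝ} (h0 : ∀ a X, 0 ≤ p a X) (h1 : ∀ a, ∑ X, p a X = 1)

include h0 h1 in
theorem coef_sq_le (a : ι) (X Y : Fin 3) : ((if Y = X then (1:ℝ) else 0) - p a X) ^ 2 ≤ 1 := by
  have a1 : p a X ≤ 1 := h1 a ▸ single_le_sum (fun Z _ => h0 a Z) (mem_univ X)
  have a0 := h0 a X
  rw [sq_le_one_iff_abs_le_one, abs_le]
  split_ifs <;> constructor <;> linarith

include h0 h1 in
theorem rd_sq_le (ch : ι → Fin 3) (j : Fin 2) (i : Fin d) :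
    rd Lam u l V p ch j i ^ 2 ≤ if l < cross Lam i then
      ((fracV V p).card : ℝ) * ∑ a ∈ fracV V p, u a i ^ 2 else 0 := by
  rw [rd]
  split_ifs with hi
  · refine sq_sum_le_card_mul_sum_sq.trans
      (mul_le_mul_of_nonneg_left (sum_le_sum fun a _ => ?_) (Nat.cast_nonneg _))
    rw [mul_pow]
    refine mul_le_of_le_one_left (sq_nonneg _) ?_
    have hS : selS j ^ 2 = 1 := by fin_cases j <;> simp [selS]
    rw [mul_pow, hS, one_mul]
    exact coef_sq_le h0 h1 a _ _
  · simp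

include hu h0 h1 in
theorem rd_norm_le {n : ℕ} (hn : (fracV V p).card ≤ n) (ch : ι → Fin 3) (j : Fin 2) :
    ∑ i, rd Lam u l V p ch j i ^ 2 ≤ (n : ℝ) ^ 2 ∧
      ∑ i, Ww Lam l i * rd Lam u l V p ch j i ^ 2 ≤ 4/3 * (n : ℝ) ^ 2 * xi Lam l ∧
      ∑ i, Ww Lam l i * rd Lam u l V p ch j i ^ 2 ≤ (n : ℝ) ^ 2 := by
  have hn' : ((fracV V p).card : ℝ) ≤ (n : ℝ) := Nat.cast_le.mpr hn
  have hcol : ∀ i, ∑ a ∈ fracV V p, u a i ^ 2 ≤ (n : ℝ) := fun i =>
    (sum_le_card_nsmul _ _ (1:ℝ) fun a _ =>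
      (single_le_sum (f := fun k => u a k ^ 2) (fun k _ => sq_nonneg _) (mem_univ i)).trans
        (hu a)).trans (le_trans (le_of_eq (by simp)) hn')
  have htot : ((fracV V p).card : ℝ) * ∑ i, ∑ a ∈ fracV V p, u a i ^ 2 ≤ (n : ℝ) ^ 2 := by
    rw [pow_two (n : ℝ), sum_comm]
    refine mul_le_mul hn' ((sum_le_card_nsmul _ _ (1:ℝ) fun a _ => hu a).trans
      (le_trans (le_of_eq (by simp)) hn')) (sum_nonneg fun a _ => sum_nonneg fun i _ => sq_nonneg _)
      (Nat.cast_nonneg _)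
  have hrd : ∀ i, rd Lam u l V p ch j i ^ 2 ≤
      ((fracV V p).card : ℝ) * ∑ a ∈ fracV V p, u a i ^ 2 := fun i => by
    refine (rd_sq_le Lam u l V h0 h1 ch j i).trans ?_
    split_ifs
    · exact le_rfl
    · exact mul_nonneg (Nat.cast_nonneg _) (sum_nonneg fun a _ => sq_nonneg _)
  refine ⟨(sum_le_sum fun i _ => hrd i).trans (by rw [← mul_sum]; exact htot), ?_, ?_⟩
  · rw [xi, mul_sum]
    refine sum_le_sum fun i _ => ?_
    by_cases hi : l < cross Lam i
    · have hW : Ww Lam l i ≤ 4/3 * xiOne Lam l i := by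
        refine (hi_Ww Lam hi).trans ?_
        rw [← one_div_pow]
        exact hi_geom_le_xiOne Lam hi (by norm_num) (by norm_num)
      calc Ww Lam l i * rd Lam u l V p ch j i ^ 2 ≤ (4/3 * xiOne Lam l i) * ((n : ℝ) * (n : ℝ)) :=
            mul_le_mul hW ((hrd i).trans (mul_le_mul hn' (hcol i)
              (sum_nonneg fun a _ => sq_nonneg _) (Nat.cast_nonneg _))) (sq_nonneg _)
              (mul_nonneg (by norm_num) (xiOne_pos Lam l i).le)
        _ = _ := by ring
    · have : rd Lam u l V p ch j i = 0 := by simp [rd, hi]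
      rw [this]
      simp
      have := (xiOne_pos Lam l i).le
      positivity
  · refine le_trans (sum_le_sum fun i _ => ?_) (by rw [← mul_sum]; exact htot)
    by_cases hi : l < cross Lam i
    · refine le_trans (mul_le_of_le_one_left (sq_nonneg _) ((hi_Ww Lam hi).trans ?_)) (hrd i)
      exact (div_le_one (by positivity)).mpr (one_le_pow₀ one_le_two)
    · have : rd Lam u l V p ch j i = 0 := by simp [rd, hi]
      rw [this]
      simp
      exact mul_nonneg (Nat.cast_nonneg _) (sum_nonneg fun a _ => sq_nonneg _)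

include hu h0 h1 in
theorem moment_round {n : ℕ} (hn : (fracV V p).card ≤ n) (ch : ι → Fin 3) (X : Fin 3) :
    ZW Lam u l V (fun a => if pieceOf p ch a = X then 1 else 0) (nom X) ≤
      65/64 * ZW Lam u l V (fun a => p a X) (nom X) + 260/3 * (n : ℝ) ^ 2 * xi Lam l := by
  set c := cvec Lam u l
  set q : ι → ℝ := fun a => (if ch a = X then 1 else 0) - p a X
  have e : ∀ i k, devW Lam u l V (fun a => if pieceOf p ch a = X then 1 else 0) (nom X) i k =
      devW Lam u l V (fun a => p a X) (nom X) i k + ∑ a ∈ fracV V p, q a * c a i * c a k := by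
    intro i k
    have hsub : ∑ a ∈ fracV V p, q a * c a i * c a k =
        ∑ a ∈ V, ((if pieceOf p ch a = X then 1 else 0) - p a X) * c a i * c a k := by
      rw [← sum_subset (show fracV V p ⊆ V from filter_subset _ _) fun a ha hna => by
        rw [p_eq_pieceOf V h0 h1 ch ha hna]; ring]
      exact sum_congr rfl fun a ha => by simp only [q, pieceOf_frac V ch ha]
    rw [hsub]
    simp only [devW, c, sub_mul, sum_sub_distrib]
    ring
  have h2 : ∑ i, ∑ k, (∑ a ∈ fracV V p, q a * c a i * c a k) ^ 2 ≤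
      4/3 * (n : ℝ) ^ 2 * xi Lam l := by
    have hq : ∑ i, ∑ k, (∑ a ∈ fracV V p, q a * c a i * c a k) ^ 2 ≤
        ((fracV V p).card : ℝ) * ∑ a ∈ fracV V p, qc Lam u l a ^ 2 := by
      calc _ ≤ ∑ i, ∑ k, ((fracV V p).card : ℝ) * ∑ a ∈ fracV V p, (c a i * c a k) ^ 2 := by
            refine sum_le_sum fun i _ => sum_le_sum fun k _ => sq_sum_le_card_mul_sum_sq.trans
              (mul_le_mul_of_nonneg_left (sum_le_sum fun a _ => ?_) (Nat.cast_nonneg _))
            rw [mul_assoc, mul_pow]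
            exact mul_le_of_le_one_left (sq_nonneg _) (coef_sq_le h0 h1 a _ _)
        _ = _ := by
            simp only [← mul_sum]
            congr 1
            rw [sum_congr rfl fun i _ => sum_comm (s := (univ : Finset (Fin d)))
              (t := fracV V p), sum_comm]
            refine sum_congr rfl fun a _ => ?_
            rw [qc, pow_two, sum_mul_sum]
            exact sum_congr rfl fun i _ => sum_congr rfl fun k _ => by simp only [c]; ring
    refine hq.trans ?_
    have hn' : ((fracV V p).card : ℝ) ≤ (n : ℝ) := Nat.cast_le.mpr hn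
    have hs : ∑ a ∈ fracV V p, qc Lam u l a ^ 2 ≤ 4/3 * (n : ℝ) * xi Lam l := by
      refine (sum_le_sum fun a _ => qc_sq_le Lam u hu l a).trans ?_
      rw [sum_comm, xi, mul_sum]
      refine (sum_le_sum fun i hi => ?_).trans (sum_le_sum_of_subset_of_nonneg (subset_univ _)
        fun i _ _ => mul_nonneg (by positivity) (xiOne_pos Lam l i).le)
      have hi' := (mem_hiSet Lam).mp hi
      have hs1 : sw Lam l i ^ 2 ≤ 4/3 * xiOne Lam l i := by
        rw [sw_sq]
        refine (div_le_self (by positivity) (one_le_pow₀ one_le_Bc)).trans ?_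
        exact hi_geom_le_xiOne Lam hi' (by norm_num) (by norm_num)
      have hcol : ∑ a ∈ fracV V p, u a i ^ 2 ≤ (n : ℝ) :=
        (sum_le_card_nsmul _ _ (1:ℝ) fun a _ =>
          (single_le_sum (f := fun k => u a k ^ 2) (fun k _ => sq_nonneg _) (mem_univ i)).trans
            (hu a)).trans (le_trans (le_of_eq (by simp)) hn')
      calc ∑ a ∈ fracV V p, sw Lam l i ^ 2 * u a i ^ 2
          = sw Lam l i ^ 2 * ∑ a ∈ fracV V p, u a i ^ 2 := (mul_sum _ _ _).symm
        _ ≤ (4/3 * xiOne Lam l i) * (n : ℝ) :=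
            mul_le_mul hs1 hcol (sum_nonneg fun a _ => sq_nonneg _)
              (mul_nonneg (by norm_num) (xiOne_pos Lam l i).le)
        _ = _ := by ring
    calc _ ≤ (n : ℝ) * (4/3 * (n : ℝ) * xi Lam l) :=
          mul_le_mul hn' hs (sum_nonneg fun a _ => sq_nonneg _) (Nat.cast_nonneg _)
      _ = _ := by ring
  have h3 : ZW Lam u l V (fun a => if pieceOf p ch a = X then 1 else 0) (nom X) ≤
      65/64 * ZW Lam u l V (fun a => p a X) (nom X) +
        65 * ∑ i, ∑ k, (∑ a ∈ fracV V p, q a * c a i * c a k) ^ 2 := by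
    simp only [ZW, e, mul_sum, ← sum_add_distrib]
    refine sum_le_sum fun i _ => sum_le_sum fun k _ => ?_
    nlinarith [sq_nonneg (devW Lam u l V (fun a => p a X) (nom X) i k / 8 -
      8 * ∑ a ∈ fracV V p, q a * c a i * c a k)]
  linarith

include hA hC h0 h1 in
/-- The low mass and the size of a piece. -/
theorem piece_bounds
    (hcard : ∀ j, ∑ a ∈ V, p a (selX j) = ∑ a ∈ V, tgt δA δC a (selX j))
    (hlow : ∀ j, ∑ a ∈ V, p a (selX j) * nuLo Lam u l a =
      ∑ a ∈ V, tgt δA δC a (selX j) * nuLo Lam u l a)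
    (hn : (fracV V p).card ≤ 16) (ch : ι → Fin 3) (X : Fin 3) :
    (∑ a ∈ (V.filter fun a => pieceOf p ch a = X ∧ a ∉ fracV V p), nuLo Lam u l a ≤
      (nom X + 4 * alpha) * Tm Lam u l V) ∧
    ((V.filter fun a => pieceOf p ch a = X).card : ℝ) ≤ (nom X + 4 * alpha) * V.card + 16 := by
  set S := V.filter fun a => pieceOf p ch a = X ∧ a ∉ fracV V p
  have hp1 : ∀ a ∈ S, p a X = 1 := fun a ha => by
    obtain ⟨haV, hX, hna⟩ := mem_filter.mp ha
    rw [p_eq_pieceOf V h0 h1 ch haV hna, if_pos hX]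
  have key : ∀ f : ι → ℝ, (∀ a, 0 ≤ f a) →
      (∀ j, ∑ a ∈ V, p a (selX j) * f a = ∑ a ∈ V, tgt δA δC a (selX j) * f a) →
      ∑ a ∈ S, f a ≤ (nom X + 4 * alpha) * ∑ a ∈ V, f a := by
    intro f hf h
    calc ∑ a ∈ S, f a = ∑ a ∈ S, p a X * f a :=
          sum_congr rfl fun a ha => by rw [hp1 a ha, one_mul]
      _ ≤ ∑ a ∈ V, p a X * f a := sum_le_sum_of_subset_of_nonneg (filter_subset _ _)
          fun a _ _ => mul_nonneg (h0 a X) (hf a)
      _ = ∑ a ∈ V, tgt δA δC a X * f a := all_eq V δA δC h1 f h X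
      _ ≤ _ := by
          rw [mul_sum]
          exact sum_le_sum fun a ha =>
            mul_le_mul_of_nonneg_right (tgt_le δA δC (hA a ha) (hC a ha) X) (hf a)
  refine ⟨key _ (nuLo_nonneg Lam u l) hlow, ?_⟩
  have h := key (fun _ => 1) (fun _ => zero_le_one) (fun j => by simpa using hcard j)
  have hs : (V.filter fun a => pieceOf p ch a = X) ⊆ S ∪ fracV V p := by
    intro a ha
    obtain ⟨haV, hX⟩ := mem_filter.mp ha
    by_cases hf : a ∈ fracV V p
    · exact mem_union_right _ hf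
    · exact mem_union_left _ (mem_filter.mpr ⟨haV, hX, hf⟩)
  have hc : ((V.filter fun a => pieceOf p ch a = X).card : ℝ) ≤
      (S.card : ℝ) + (fracV V p).card := by
    exact_mod_cast (card_le_card hs).trans (card_union_le _ _)
  have hn' : ((fracV V p).card : ℝ) ≤ 16 := by exact_mod_cast hn
  simp only [sum_const, nsmul_eq_mul, mul_one] at h
  linarith

theorem combine_sq (j : Fin 2) (a b : ℝ) :
    (shareL j * a + (1 - shareL j) * b) ^ 2 =
      shareL j * a ^ 2 + (1 - shareL j) * b ^ 2 - 3/16 * (a - b) ^ 2 := by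
  fin_cases j <;> simp [shareL] <;> ring

include hu in
/-- Rounding by signs costs at most the slack of the two endpoints. -/
theorem exists_signs (eL eR : Fin d → ℝ) :
    ∃ ch : ι → Fin 3, ∀ (q : Fin 3 → ℝ), (∀ X, 0 ≤ q X) → ∑ X, q X = 1 → ∀ (a : ι) (j : Fin 2),
      2 * (selS j * ((if ch a = selX j then 1 else 0) - q (selX j)) *
        ∑ i ∈ hiSet Lam l, (shareL j * eL i + (1 - shareL j) * eR i) * u a i) ≤
      3/160 * (∑ i, (eL i - eR i) ^ 2) + 40/3 := by
  let g : ι → Fin 2 → ℝ := fun a j =>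
    ∑ i ∈ hiSet Lam l, (shareL j * eL i + (1 - shareL j) * eR i) * u a i
  refine ⟨fun a => if g a 0 ≤ 0 ∧ g a 1 ≤ 0 then 0 else if 0 ≤ g a 0 ∧ 0 ≤ g a 1 then 2 else 1,
    fun q hq hq1 a j => ?_⟩
  have hd : g a 0 - g a 1 = (∑ i ∈ hiSet Lam l, (eL i - eR i) * u a i) / 2 := by
    simp only [g, ← sum_sub_distrib, sum_div]
    exact sum_congr rfl fun i _ => by simp [shareL]; ring
  have habs : 2 * |g a 0 - g a 1| ≤ 3/160 * (∑ i, (eL i - eR i) ^ 2) + 40/3 := by
    rw [hd, abs_div, abs_two, mul_div_cancel₀ _ two_ne_zero]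
    refine (abs_sum_le_sum_abs _ _).trans ?_
    refine (sum_le_sum (g := fun i => 3/160 * (eL i - eR i) ^ 2 + 40/3 * u a i ^ 2) fun i _ => ?_).trans ?_
    · rw [abs_mul]
      nlinarith [sq_nonneg (3/80 * |eL i - eR i| - |u a i|), sq_abs (eL i - eR i), sq_abs (u a i)]
    · rw [sum_add_distrib, ← mul_sum, ← mul_sum]
      refine add_le_add (mul_le_mul_of_nonneg_left (sum_le_sum_of_subset_of_nonneg (subset_univ _)
        fun i _ _ => sq_nonneg _) (by norm_num)) ?_
      exact mul_le_of_le_one_right (by norm_num) ((sum_le_sum_of_subset_of_nonneg (subset_univ _)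
        fun i _ _ => sq_nonneg _).trans (hu a))
  have hb := abs_le.mp (le_refl |g a 0 - g a 1|)
  rw [Fin.sum_univ_three] at hq1
  have q0 := hq 0
  have q1 := hq 1
  have q2 := hq 2
  refine le_trans (mul_le_mul_of_nonneg_left ?_ zero_le_two) habs
  have hnn := abs_nonneg (g a 0 - g a 1)
  show selS j * ((if (if g a 0 ≤ 0 ∧ g a 1 ≤ 0 then (0 : Fin 3)
      else if 0 ≤ g a 0 ∧ 0 ≤ g a 1 then 2 else 1) = selX j then (1:ℝ) else 0) - q (selX j)) *
    g a j ≤ |g a 0 - g a 1|
  have hl := le_abs_self (g a 0 - g a 1)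
  have hl' := neg_le_abs (g a 0 - g a 1)
  fin_cases j <;> simp only [selS, selX]
  · by_cases hgA : g a 0 ≤ 0 ∧ g a 1 ≤ 0
    · rw [if_pos hgA]
      simp
      nlinarith [mul_nonpos_of_nonneg_of_nonpos (by linarith : (0:ℝ) ≤ 1 - q 0) hgA.1]
    · rw [if_neg hgA]
      rcases le_or_gt 0 (g a 0) with h | h
      · by_cases hgC : 0 ≤ g a 0 ∧ 0 ≤ g a 1
        · rw [if_pos hgC]
          simp
          nlinarith [mul_nonneg q0 h]
        · rw [if_neg hgC]
          simp
          nlinarith [mul_nonneg q0 h]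
      · have h1 : 0 < g a 1 := not_le.mp fun h1 => hgA ⟨h.le, h1⟩
        rw [if_neg (fun hh => absurd hh.1 (not_le.mpr h))]
        simp
        nlinarith [mul_nonneg (by linarith : (0:ℝ) ≤ 1 - q 0) (neg_nonneg.mpr h.le)]
  · by_cases hgA : g a 0 ≤ 0 ∧ g a 1 ≤ 0
    · rw [if_pos hgA]
      simp
      nlinarith [mul_nonpos_of_nonneg_of_nonpos q2 hgA.2]
    · rw [if_neg hgA]
      by_cases hgC : 0 ≤ g a 0 ∧ 0 ≤ g a 1
      · rw [if_pos hgC]
        simp
        nlinarith [mul_nonneg (by linarith : (0:ℝ) ≤ 1 - q 2) hgC.2]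
      · rw [if_neg hgC]
        simp
        rcases le_or_gt (g a 1) 0 with h | h
        · nlinarith [mul_nonpos_of_nonneg_of_nonpos q2 h]
        · have h1 : g a 0 < 0 := not_le.mp fun h1 => hgC ⟨h1, h.le⟩
          nlinarith [mul_nonneg (by linarith : (0:ℝ) ≤ 1 - q 2) h.le]

include hLam hu hA hC in
/-- One split of a block. -/
theorem exists_split (eL eR : Fin d → ℝ) :
    ∃ piece left w x e, SplitSpec Lam u l V δA δC eL eR piece left w x e := by
  classical
  have hB := Bc_pos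
  obtain ⟨p₁, x₁, hs, hn₁⟩ := walk_one Lam u l V δA δC hLam hu hA hC
  obtain ⟨hG, hR⟩ := pot_parts Lam u l V δA δC hLam hs
  have hZ : 0 ≤ Zn Lam u l V := ZW_nonneg Lam u l V _ _
  have hx0 := xi_nonneg Lam l
  have hT0 := Tm_nonneg Lam u l V
  have hd0 : 0 ≤ (∑ a ∈ V, (δA a ^ 2 + δC a ^ 2)) / Bc :=
    div_nonneg (sum_nonneg fun a _ => add_nonneg (sq_nonneg _) (sq_nonneg _)) hB.le
  set R := Rest Lam u l V δA δC with hRdef
  have hRe : R = xi Lam l + Tm Lam u l V + (∑ a ∈ V, (δA a ^ 2 + δC a ^ 2)) / Bc := rfl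
  have hR0 : 0 ≤ R := by rw [hRe]; positivity
  have hPb : Pb Lam u l V ≤ 4000 * R + Zn Lam u l V / 2 ^ 16 := by rw [Pb, hRe]; linarith
  have hKb : Kb Lam u l V δA δC ≤ 2 ^ 30 * R + 2100 * Zn Lam u l V := by
    have e1 : 816 / Bc * (∑ a ∈ V, (δA a ^ 2 + δC a ^ 2)) =
        816 * ((∑ a ∈ V, (δA a ^ 2 + δC a ^ 2)) / Bc) := by ring
    have hP0 := Pb_nonneg Lam u l V
    have e2 : 64 / Bc * (2 ^ 20 / Bc * Pb Lam u l V + Tm Lam u l V) ≤
        Pb Lam u l V + Tm Lam u l V := by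
      refine le_trans (mul_le_of_le_one_left (add_nonneg (mul_nonneg (by positivity) hP0) hT0)
        (by rw [Bc_eq]; norm_num)) (add_le_add ?_ le_rfl)
      exact mul_le_of_le_one_left hP0 (by rw [Bc_eq]; norm_num)
    rw [Kb, e1]
    linarith
  have hsupp : ∀ σ a, x₁ σ a ≠ 0 → a ∈ V ∧ p₁ a (cls σ) = 1 := fun σ a hne =>
    (hs.supp σ a).resolve_left hne
  -- the fields that only depend on the assignment
  have core : ∀ (p : ι → Fin 3 → ℝ) (ch : ι → Fin 3) (n : ℕ), (∀ a X, 0 ≤ p a X) →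
      (∀ a, ∑ X, p a X = 1) →
      (∀ j, ∑ a ∈ V, p a (selX j) = ∑ a ∈ V, tgt δA δC a (selX j)) →
      (∀ j, ∑ a ∈ V, p a (selX j) * nuLo Lam u l a =
        ∑ a ∈ V, tgt δA δC a (selX j) * nuLo Lam u l a) →
      (fracV V p).card ≤ n → n ≤ 16 →
      Rsq Lam u l V δA δC p ≤ 2 ^ 20 * R + Zn Lam u l V / 2 ^ 15 → ∀ X,
      ZW Lam u l V (fun a => if pieceOf p ch a = X then 1 else 0) (nom X) ≤
        (if X = 1 then 29/100 else 75/1000) * Zn Lam u l V + 2 ^ 30 * R := by
    intro p ch n h0 h1 _ _ hn hn16 hRsq X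
    have h2 := moment_round Lam u l V hu h0 h1 hn ch X
    have h3 := ZW_piece_le Lam u hu l V δA δC hA hC p X
    have e1 : 816 / Bc * (∑ a ∈ V, (δA a ^ 2 + δC a ^ 2)) =
        816 * ((∑ a ∈ V, (δA a ^ 2 + δC a ^ 2)) / Bc) := by ring
    have hn2 : (n : ℝ) ^ 2 * xi Lam l ≤ 256 * xi Lam l := by
      refine mul_le_mul_of_nonneg_right ?_ hx0
      have : (n : ℝ) ≤ 16 := by exact_mod_cast hn16
      nlinarith [(Nat.cast_nonneg n : (0:ℝ) ≤ (n : ℝ))]
    have hcoef : 65/64 * (((1 + 1/16) * nom X ^ 2 + 17 * 2 * (128 * alpha ^ 2)) + 34 / 2 ^ 15) ≤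
        (if X = 1 then 29/100 else 75/1000 : ℝ) := by
      simp only [nom, alpha]
      split_ifs <;> norm_num
    have h4 := mul_le_mul_of_nonneg_right hcoef hZ
    rw [e1] at h3
    linarith
  by_cases hsmall : 4 * Kb Lam u l V δA δC < 1/2
  · -- no bad direction: regression absorbs the rounding
    have hn12 : (fracV V p₁).card ≤ 12 := by
      have h : ((fracV V p₁).card : ℝ) < (13 : ℕ) := by push_cast; linarith
      have := Nat.cast_lt.mp h
      omega
    set ch : ι → Fin 3 := fun _ => 1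
    choose θ hθ using fun σ => exists_ridge (free1 V p₁ x₁ σ) u (gw Lam l) (gw_pos Lam l) hB
    let rdv : Fin 4 → Fin d → ℝ := fun σ i => rd Lam u l V p₁ ch (pnt σ) i
    let z : Fin 4 → ι → ℝ := fun σ a =>
      if a ∈ free1 V p₁ x₁ σ then ∑ k, u a k * θ σ (rdv σ) k else 0
    have hq : ∀ σ, ∑ i, gw Lam l i * (rdv σ i - ∑ a ∈ V, z σ a * u a i) ^ 2 +
        Bc * ∑ a ∈ V, z σ a ^ 2 ≤ 32 * ∑ i, Ww Lam l i * rdv σ i ^ 2 := by
      intro σ
      obtain ⟨L, hL, hco⟩ := side_dirs Lam u l V δA δC hLam hu hA hC hs σ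
      have hL0 : L = [] := by
        refine List.eq_nil_of_length_eq_zero (Nat.lt_one_iff.mp ?_)
        have h64 : 64 / Bc * ((fracV V p₁).card : ℝ) ≤ 1/10 := by
          have : ((fracV V p₁).card : ℝ) ≤ 12 := by exact_mod_cast hn12
          refine (mul_le_mul_of_nonneg_left this (by positivity)).trans ?_
          rw [Bc_eq]; norm_num
        have : ((L.length : ℕ) : ℝ) < ((1 : ℕ) : ℝ) := by push_cast; linarith
        exact_mod_cast this
      obtain ⟨hid, hen⟩ := hθ σ (rdv σ)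
      have hc := hco (θ σ (rdv σ)) (by simp [hL0])
      rw [← hen] at hc
      have hp := pairing_le (Am_pos Lam hLam l) (show (0:ℝ) < 1/32 by norm_num)
        (le_trans (le_of_eq (by ring)) hc)
      have hfV : free1 V p₁ x₁ σ ⊆ V := filter_subset _ _
      have e1 : ∀ f : ι → ℝ, ∑ a ∈ V, z σ a * f a =
          ∑ a ∈ free1 V p₁ x₁ σ, (∑ k, u a k * θ σ (rdv σ) k) * f a := fun f => by
        simp only [z, ite_mul, zero_mul]
        rw [sum_ite_mem, inter_eq_right.mpr hfV]
      have e2 : ∑ a ∈ V, z σ a ^ 2 =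
          ∑ a ∈ free1 V p₁ x₁ σ, (∑ k, u a k * θ σ (rdv σ) k) ^ 2 := by
        simp only [pow_two]
        rw [e1]
        exact sum_congr rfl fun a ha => by simp [z, ha]
      simp only [e1, e2, hid]
      calc Bc * ∑ i, rdv σ i * θ σ (rdv σ) i
          ≤ Bc * ((∑ i, rdv σ i ^ 2 / Am Lam l i) / (1/32)) := mul_le_mul_of_nonneg_left hp hB.le
        _ = _ := by
            simp only [Ww, mul_sum, sum_div]
            exact sum_congr rfl fun i _ => by ring
    have hz : ∀ σ a, |z σ a| ≤ alpha := by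
      intro σ a
      have hal : (0:ℝ) ≤ alpha := by rw [alpha]; norm_num
      by_cases ha : a ∈ free1 V p₁ x₁ σ
      · have haV : a ∈ V := (mem_filter.mp ha).1
        obtain ⟨-, -, habs⟩ := rd_norm_le Lam u l V hu hs.simp0 hs.simp1 hn12 ch (pnt σ)
        have h1 : z σ a ^ 2 ≤ ∑ b ∈ V, z σ b ^ 2 :=
          single_le_sum (f := fun b => z σ b ^ 2) (fun b _ => sq_nonneg _) haV
        have h2 : Bc * ∑ b ∈ V, z σ b ^ 2 ≤ 32 * ((12 : ℕ) : ℝ) ^ 2 :=
          le_trans (le_trans (le_add_of_nonneg_left (sum_nonneg fun i _ =>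
            mul_nonneg (gw_pos Lam l i).le (sq_nonneg _))) (hq σ))
            (mul_le_mul_of_nonneg_left habs (by norm_num))
        rw [Bc_eq] at h2
        push_cast at h2
        refine abs_le_of_sq_le_sq ?_ hal
        rw [alpha]
        norm_num
        linarith
      · simp [z, ha, hal]
    refine ⟨pieceOf p₁ ch, fracV V p₁, p₁, fun σ a => x₁ σ a + z σ a, fun _ _ => 0,
      filter_subset _ _, hn12.trans (by norm_num), fun a _ X => hs.simp0 a X,
      fun a _ => hs.simp1 a, fun a ha hna X => p_eq_pieceOf V hs.simp0 hs.simp1 ch ha hna X,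
      fun σ a => ?_, fun σ a hne => ?_, fun σ => ?_, fun j => ?_, fun X => ?_, fun X => ?_,
      fun X => ?_⟩
    · calc |x₁ σ a + z σ a| ≤ |x₁ σ a| + |z σ a| := abs_add_le _ _
        _ ≤ 2 * alpha := by linarith [hs.box σ a, hz σ a]
    · have hh : a ∈ V ∧ p₁ a (cls σ) = 1 := by
        by_cases hf : a ∈ free1 V p₁ x₁ σ
        · exact ⟨(mem_filter.mp hf).1, (mem_filter.mp hf).2.1⟩
        · simp only [z, if_neg hf, add_zero] at hne
          exact hsupp σ a hne
      have hna : a ∉ fracV V p₁ := fun h => (mem_filter.mp h).2 _ hh.2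
      refine ⟨hh.1, hna, ?_⟩
      by_contra hc
      have := p_eq_pieceOf V hs.simp0 hs.simp1 ch hh.1 hna (cls σ)
      rw [if_neg hc, hh.2] at this
      exact one_ne_zero this
    · obtain ⟨-, hW, -⟩ := rd_norm_le Lam u l V hu hs.simp0 hs.simp1 hn12 ch (pnt σ)
      have hWq : ∑ i, Ww Lam l i * rdv σ i ^ 2 ≤ 4/3 * ((12 : ℕ) : ℝ) ^ 2 * xi Lam l := hW
      push_cast at hWq
      have e : ∀ i, splitErr Lam u l V δA δC (pieceOf p₁ ch) p₁ (pnt σ) i - 0 -
          ∑ a ∈ V, (x₁ σ a + z σ a) * u a i =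
          resid u V δA δC p₁ x₁ σ i + (rdv σ i - ∑ a ∈ V, z σ a * u a i) := by
        intro i
        rw [splitErr_eq Lam u l V δA δC hs.simp0 hs.simp1 ch]
        simp only [resid, rdv, add_mul, sum_add_distrib]
        ring
      have hG' := hG σ
      rw [Gside] at hG'
      have h1 : ∑ i, gw Lam l i * (resid u V δA δC p₁ x₁ σ i +
            (rdv σ i - ∑ a ∈ V, z σ a * u a i)) ^ 2 +
          Bc * ∑ a ∈ V, (x₁ σ a + z σ a) ^ 2 ≤
          2 * (∑ i, gw Lam l i * resid u V δA δC p₁ x₁ σ i ^ 2 + Bc * ∑ a ∈ V, x₁ σ a ^ 2) +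
          2 * (∑ i, gw Lam l i * (rdv σ i - ∑ a ∈ V, z σ a * u a i) ^ 2 +
            Bc * ∑ a ∈ V, z σ a ^ 2) := by
        have k1 : ∀ x y : ℝ, (x + y) ^ 2 ≤ 2 * x ^ 2 + 2 * y ^ 2 := fun x y => by
          nlinarith [sq_nonneg (x - y)]
        have s1 := sum_le_sum (s := (univ : Finset (Fin d))) fun i _ =>
          mul_le_mul_of_nonneg_left (k1 (resid u V δA δC p₁ x₁ σ i)
            (rdv σ i - ∑ a ∈ V, z σ a * u a i)) (gw_pos Lam l i).le
        have s2 := mul_le_mul_of_nonneg_left (sum_le_sum (s := V) fun a _ =>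
          k1 (x₁ σ a) (z σ a)) hB.le
        simp only [mul_add, sum_add_distrib, mul_left_comm _ (2:ℝ), ← mul_sum] at s1 s2
        linarith
      simp only [e]
      linarith [hq σ]
    · simp only [add_zero, combine_sq, sum_sub_distrib, sum_add_distrib, ← mul_sum]
      have := sum_nonneg (s := (univ : Finset (Fin d))) fun i _ => sq_nonneg (eL i - eR i)
      linarith
    · exact (piece_bounds Lam u l V δA δC hA hC hs.simp0 hs.simp1 hs.card_eq hs.low_eq
        (hn12.trans (by norm_num)) ch X).1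
    · exact (piece_bounds Lam u l V δA δC hA hC hs.simp0 hs.simp1 hs.card_eq hs.low_eq
        (hn12.trans (by norm_num)) ch X).2
    · exact core p₁ ch 12 hs.simp0 hs.simp1 hs.card_eq hs.low_eq hn12 (by norm_num)
        (hR.trans (by linarith)) X
  · -- bad directions: the raw walk, and rounding by signs
    set eb : Fin 2 → Fin d → ℝ := fun j i => shareL j * eL i + (1 - shareL j) * eR i with heb
    obtain ⟨p, hs₂, hn10⟩ := walk_two Lam u l V δA δC eb p₁ hLam hu hs
    obtain ⟨ch, hch⟩ := exists_signs Lam u l hu eL eR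
    have hn₁' : ((fracV V p₁).card : ℝ) ≤ 100 * Kb Lam u l V δA δC := by linarith
    have hP2 := hs₂.pot
    rw [Pot2] at hP2
    have hphi : 0 ≤ ∑ a ∈ V, phi (p a) * rawW Lam u l a := sum_nonneg fun a _ =>
      mul_nonneg (phi_nonneg (hs₂.simp0 a) (hs₂.simp1 a))
        (add_nonneg (div_nonneg (sum_nonneg fun i _ => sq_nonneg _) hB.le) (sq_nonneg _))
    have hRsq0 : 0 ≤ Rsq Lam u l V δA δC p :=
      sum_nonneg fun X _ => sum_nonneg fun i _ => sum_nonneg fun k _ => sq_nonneg _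
    have hinc0 : 0 ≤ (∑ j, ∑ i, incr u V δA δC p₁ p j i ^ 2) / Bc :=
      div_nonneg (sum_nonneg fun j _ => sum_nonneg fun i _ => sq_nonneg _) hB.le
    have hPb2 : Pb2 Lam u l V p₁ ≤ Pb Lam u l V + 30000 / Bc * Kb Lam u l V δA δC := by
      have := mul_le_mul_of_nonneg_left hn₁' (show (0:ℝ) ≤ 300 / Bc by positivity)
      rw [Pb2]
      linarith [show 300 / Bc * (100 * Kb Lam u l V δA δC) = 30000 / Bc * Kb Lam u l V δA δC by ring]
    have hstay : ∀ σ a, x₁ σ a ≠ 0 → a ∈ V ∧ p a (cls σ) = 1 := fun σ a hne => by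
      obtain ⟨haV, h⟩ := hsupp σ a hne
      rw [hs₂.fix a fun hf => (mem_filter.mp hf).2 _ h]
      exact ⟨haV, h⟩
    refine ⟨pieceOf p ch, fracV V p, p, x₁,
      fun j i => incr u V δA δC p₁ p j i + rd Lam u l V p ch j i,
      filter_subset _ _, hn10.trans (by norm_num), fun a _ X => hs₂.simp0 a X,
      fun a _ => hs₂.simp1 a, fun a ha hna X => p_eq_pieceOf V hs₂.simp0 hs₂.simp1 ch ha hna X,
      fun σ a => ?_, fun σ a hne => ?_, fun σ => ?_, fun j => ?_, fun X => ?_, fun X => ?_,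
      fun X => ?_⟩
    · have hal : (0:ℝ) ≤ alpha := by rw [alpha]; norm_num
      linarith [hs.box σ a]
    · obtain ⟨haV, h⟩ := hstay σ a hne
      have hna : a ∉ fracV V p := fun hf => (mem_filter.mp hf).2 _ h
      refine ⟨haV, hna, ?_⟩
      by_contra hc
      have := p_eq_pieceOf V hs₂.simp0 hs₂.simp1 ch haV hna (cls σ)
      rw [if_neg hc, h] at this
      exact one_ne_zero this
    · have e : ∀ i, splitErr Lam u l V δA δC (pieceOf p ch) p (pnt σ) i -
          (incr u V δA δC p₁ p (pnt σ) i + rd Lam u l V p ch (pnt σ) i) -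
          ∑ a ∈ V, x₁ σ a * u a i = resid u V δA δC p₁ x₁ σ i := by
        intro i
        rw [splitErr_eq Lam u l V δA δC hs₂.simp0 hs₂.simp1 ch]
        simp only [resid, incr]
        ring
      simp only [e]
      have := hG σ
      rw [Gside] at this
      linarith
    · -- the raw part
      have hlin : 2 * ∑ i, eb j i * rd Lam u l V p ch j i ≤
          3/16 * ∑ i, (eL i - eR i) ^ 2 + 400/3 := by
        have e : ∑ i, eb j i * rd Lam u l V p ch j i = ∑ a ∈ fracV V p,
            selS j * ((if ch a = selX j then 1 else 0) - p a (selX j)) *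
              ∑ i ∈ hiSet Lam l, eb j i * u a i := by
          simp only [rd, hiSet, sum_filter, mul_sum, mul_ite, mul_zero]
          rw [sum_comm]
          refine sum_congr rfl fun i _ => ?_
          split_ifs
          · exact sum_congr rfl fun a _ => by ring
          · simp
        rw [e, mul_sum]
        refine (sum_le_sum fun a _ => hch (p a) (hs₂.simp0 a) (hs₂.simp1 a) a j).trans ?_
        rw [sum_const, nsmul_eq_mul]
        have hc : ((fracV V p).card : ℝ) ≤ 10 := by exact_mod_cast hn10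
        have h0 : 0 ≤ 3/160 * (∑ i, (eL i - eR i) ^ 2) + 40/3 :=
          add_nonneg (mul_nonneg (by norm_num) (sum_nonneg fun i _ => sq_nonneg _)) (by norm_num)
        linarith [mul_le_mul_of_nonneg_right hc h0]
      obtain ⟨hrd, -, -⟩ := rd_norm_le Lam u l V hu hs₂.simp0 hs₂.simp1 hn10 ch j
      push_cast at hrd
      have hinc : ∑ i, incr u V δA δC p₁ p j i ^ 2 ≤ Bc * Pb2 Lam u l V p₁ := by
        rw [mul_comm, ← div_le_iff₀ hB]
        refine le_trans (div_le_div_of_nonneg_right (single_le_sum (f := fun j =>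
          ∑ i, incr u V δA δC p₁ p j i ^ 2) (fun j _ => sum_nonneg fun i _ => sq_nonneg _)
          (mem_univ j)) hB.le) ?_
        linarith
      have hBP : Bc * Pb2 Lam u l V p₁ ≤ Bc * Pb Lam u l V + 30000 * Kb Lam u l V δA δC := by
        refine (mul_le_mul_of_nonneg_left hPb2 hB.le).trans (le_of_eq ?_)
        field_simp
      have e2 : ∀ i, (shareL j * eL i + (1 - shareL j) * eR i +
          (incr u V δA δC p₁ p j i + rd Lam u l V p ch j i)) ^ 2 ≤
          (shareL j * eL i ^ 2 + (1 - shareL j) * eR i ^ 2 - 3/16 * (eL i - eR i) ^ 2) +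
          2 * (eb j i * incr u V δA δC p₁ p j i) + 2 * (eb j i * rd Lam u l V p ch j i) +
          (2 * incr u V δA δC p₁ p j i ^ 2 + 2 * rd Lam u l V p ch j i ^ 2) := by
        intro i
        rw [← combine_sq]
        simp only [heb]
        nlinarith [sq_nonneg (incr u V δA δC p₁ p j i - rd Lam u l V p ch j i)]
      refine (sum_le_sum fun i _ => e2 i).trans ?_
      simp only [sum_add_distrib, sum_sub_distrib, ← mul_sum, hs₂.orth j]
      have hb : Bc * Pb Lam u l V ≤ 2 ^ 50 * (4000 * R + Zn Lam u l V / 2 ^ 16) := by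
        rw [Bc_eq]; exact mul_le_mul_of_nonneg_left hPb (by positivity)
      linarith
    · exact (piece_bounds Lam u l V δA δC hA hC hs₂.simp0 hs₂.simp1 hs₂.card_eq hs₂.low_eq
        (hn10.trans (by norm_num)) ch X).1
    · exact (piece_bounds Lam u l V δA δC hA hC hs₂.simp0 hs₂.simp1 hs₂.card_eq hs₂.low_eq
        (hn10.trans (by norm_num)) ch X).2
    · refine core p ch 10 hs₂.simp0 hs₂.simp1 hs₂.card_eq hs₂.low_eq hn10 (by norm_num) ?_ X
      have h30 : 30000 / Bc * Kb Lam u l V δA δC ≤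
          30000 / Bc * (2 ^ 30 * R + 2100 * Zn Lam u l V) :=
        mul_le_mul_of_nonneg_left hKb (by positivity)
      have e30 : 30000 / Bc * (2 ^ 30 * R + 2100 * Zn Lam u l V) =
          30000 * 2 ^ 30 / 2 ^ 50 * R + 30000 * 2100 / 2 ^ 50 * Zn Lam u l V := by
        rw [Bc_eq]; ring
      linarith

end Vale.Agent.P262.Full
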