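import Vale.Agent.P262.Full.Level
import Vale.Agent.P262.Full.Split
import Mathlib.Analysis.InnerProductSpace.Spectrum

/-!
From the last level to an ordering, and from coordinates to the Euclidean norm.
-/

open Finset
open scoped RealInnerProductSpace

namespace Vale.Agent.P262.Full

variable {ι : Type*} [Fintype ι] [DecidableEq ι] {d : ℕ} (Lam : Fin d → ℝ)

theorem splits_of_nonneg (hLam : ∀ i, 0 ≤ Lam i) : Splits ι Lam :=
  fun l u hu V δA δC hA hC eL eR => exists_split Lam u l V δA δC hLam hu hA hC eL eR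

variable (v : ι → Fin d → ℝ)

/-- The state before any halving. -/
theorem lvl_zero (hzero : ∀ i, ∑ a, v a i = 0) (horth : ∀ i k, i ≠ k → ∑ a, v a i * v a k = 0)
    (hLam : ∀ i, Lam i = ∑ a, v a i ^ 2) :
    Lvl Lam v 0 (fun _ => 0) ∅ (fun _ _ _ => 0) (fun _ _ => ∅) (fun _ _ => 0) := by
  have hB := Bc_pos
  have hnn : ∀ i, 0 ≤ Lam i := fun i => hLam i ▸ sum_nonneg fun a _ => sq_nonneg _
  have hb : budget Lam 0 = 0 := by simp [budget]
  have hc : cut v (∅ : Finset (ι × Fin d)) = v := by funext a i; simp [cut]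
  have hf : fib (fun _ : ι => 0) 0 = univ := by ext a; simp [fib]
  have hΦ := PhiSeq_nonneg Lam 0
  refine ⟨fun a => by simp, by simp, fun a i _ q => rfl, fun a i q => le_rfl, by simp, by simp,
    by simp, fun q hq i => ?_, fun j hj s => ⟨0, 0, 0, fun i => by simp, by simp [Hn, hb],
      by simp [hb], fun a => by simp [alpha], fun a ha => absurd rfl ha, by simpa using hΦ⟩,
    fun q hq => ?_, fun q hq => ?_, fun q hq => ?_⟩
  · obtain rfl : q = 0 := by simpa using hq
    simp [hc, hf, hzero]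
  · simp [Hn, near, hb]
  · obtain rfl : q = 0 := by simpa using hq
    rw [hc, hf]
    have hz : Zn Lam v 0 (univ : Finset ι) = 0 := by
      rw [Zn, ZW]
      refine sum_eq_zero fun i _ => sum_eq_zero fun k _ => ?_
      have : devW Lam v 0 (univ : Finset ι) (fun _ => 1) 1 i k = 0 := by
        simp only [devW, cvec, Dv, one_mul, lam, pow_zero, div_one]
        by_cases hi : 0 < cross Lam i <;> by_cases hk : 0 < cross Lam k
        · simp only [hi, hk, if_true]
          rw [sum_congr rfl fun a _ => mul_mul_mul_comm _ (v a i) _ (v a k), ← mul_sum]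
          split_ifs with hik
          · subst hik
            rw [Real.mul_self_sqrt (sw_pos Lam 0 i).le, hLam]
            simp [sq]
          · rw [horth i k hik]; ring
        all_goals
          by_cases hik : i = k
          · subst hik; simp_all
          · simp [hi, hk, hik]
      rw [this]; ring
    have ht : Tm Lam v 0 (univ : Finset ι) ≤ Bc * d := by
      rw [Tm]
      simp only [nuLo]
      rw [sum_comm]
      refine (sum_le_card_nsmul _ _ Bc fun i hi => ?_).trans ?_
      · have hc0 : cross Lam i = 0 := by have := (mem_loSet Lam).mp hi; omega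
        have he : age Lam 0 i = 0 := by simp [age, hc0]
        have := lo_lam_lt Lam (le_of_eq hc0)
        simp [lam, he, hLam] at this
        simp [gw, he]
        linarith
      · rw [nsmul_eq_mul, mul_comm]
        exact mul_le_mul_of_nonneg_left (by exact_mod_cast (card_le_univ _).trans (by simp)) hB.le
    rw [hz, add_zero, PhiSeq, mul_assoc]
    exact mul_le_mul_of_nonneg_left ht (by norm_num)
  · obtain rfl : q = 0 := by simpa using hq
    simp [hf]

theorem exists_lvl (hv : ∀ a, ∑ i, v a i ^ 2 ≤ 1) (hzero : ∀ i, ∑ a, v a i = 0)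
    (horth : ∀ i k, i ≠ k → ∑ a, v a i * v a k = 0) (hLam : ∀ i, Lam i = ∑ a, v a i ^ 2) (l : ℕ) :
    ∃ pos Zed w Win P, Lvl Lam v l pos Zed w Win P := by
  have hnn : ∀ i, 0 ≤ Lam i := fun i => hLam i ▸ sum_nonneg fun a _ => sq_nonneg _
  induction l with
  | zero => exact ⟨_, _, _, _, _, lvl_zero Lam v hzero horth hLam⟩
  | succ l ih =>
    obtain ⟨pos, Zed, w, Win, P, h⟩ := ih
    exact exists_next Lam v hv (splits_of_nonneg Lam hnn) h

omit [Fintype ι] [DecidableEq ι] in
/-- A bounded combination of few short vectors is short. -/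
theorem comb_sq_le (u : ι → Fin d → ℝ) (hu : ∀ a, ∑ i, u a i ^ 2 ≤ 1) (T : Finset ι) (c : ι → ℝ)
    (hc : ∀ a, |c a| ≤ 1) (hT : (T.card : ℝ) ≤ 300) :
    ∑ i, (∑ a ∈ T, c a * u a i) ^ 2 ≤ 90000 := by
  calc ∑ i, (∑ a ∈ T, c a * u a i) ^ 2 ≤ ∑ i, (T.card : ℝ) * ∑ a ∈ T, (c a * u a i) ^ 2 :=
        sum_le_sum fun i _ => sq_sum_le_card_mul_sum_sq
    _ = (T.card : ℝ) * ∑ a ∈ T, c a ^ 2 * ∑ i, u a i ^ 2 := by
        rw [← mul_sum, sum_comm]
        simp only [mul_sum, mul_pow]
    _ ≤ (T.card : ℝ) * T.card := by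
        refine mul_le_mul_of_nonneg_left ?_ (Nat.cast_nonneg _)
        refine (sum_le_card_nsmul _ _ (1 : ℝ) fun a _ => ?_).trans (by simp)
        exact mul_le_one₀ ((sq_le_one_iff_abs_le_one _).mpr (hc a))
          (sum_nonneg fun i _ => sq_nonneg _) (hu a)
    _ ≤ 90000 := by nlinarith [(Nat.cast_nonneg T.card : (0 : ℝ) ≤ T.card)]

theorem sq_add_le_two (a b : ℝ) : (a + b) ^ 2 ≤ 2 * a ^ 2 + 2 * b ^ 2 := by
  nlinarith [sq_nonneg (a - b)]

/-- The vectors placed before a point of the last level. -/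
theorem point_le (hv : ∀ a, ∑ i, v a i ^ 2 ≤ 1) (hd : 1 ≤ d) {l : ℕ} {pos : ι → ℕ}
    {Zed : Finset (ι × Fin d)} {w : ι → Fin d → ℕ → ℝ} {Win : ι → Fin d → Finset ℕ}
    {P : ℕ → Fin d → ℝ} (h : Lvl Lam v l pos Zed w Win P)
    (hcard : ∀ q < 2 ^ l, ((fib pos q).card : ℝ) ≤ 300) {q : ℕ} (hq : q < 2 ^ l) {S : Finset ι}
    (hS : S ⊆ fib pos q) :
    ∑ i, (∑ a ∈ univ.filter (fun a => pos a < q) ∪ S, v a i) ^ 2 ≤ 2 ^ 330 * d := by
  classical
  set u := cut v Zed with hu
  have hu1 : ∀ a, ∑ i, u a i ^ 2 ≤ 1 := fun a => le_trans (sum_le_sum fun i _ => by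
    simp only [hu, cut]; split_ifs <;> simp [sq_nonneg]) (hv a)
  have h0 : 0 < 2 ^ l := Nat.two_pow_pos l
  obtain ⟨rq, eq, xq, pq, hrq, heq, bxq, sxq, -⟩ := h.reps q hq 0
  obtain ⟨rz, ez, xz, pz, hrz, hez, bxz, sxz, -⟩ := h.reps 0 h0 0
  simp only [endp, if_true, ← hu] at pq pz
  have hex : ∀ i, ∑ a ∈ univ.filter (fun a => pos a < q), u a i +
      ∑ a, (∑ y ∈ range q, w a i y) * v a i = P q i - P 0 i := by
    intro i
    rw [← sum_range_sub (fun y => P y i) q]
    have e : ∀ y ∈ range q, P (y + 1) i - P y i =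
        ∑ a, ((if pos a = y then u a i else 0) + w a i y * v a i) := by
      intro y hy
      have hy' := mem_range.mp hy
      have := h.diff y (by omega) i
      rw [Nat.mod_eq_of_lt (by omega)] at this
      rw [this, sum_add_distrib, fib, sum_filter]
    rw [sum_congr rfl e, sum_comm, sum_filter, ← sum_add_distrib]
    refine sum_congr rfl fun a _ => ?_
    rw [sum_add_distrib, sum_mul, sum_ite_eq]
    simp only [mem_range]
  have hoff : ∀ i, |∑ a ∈ univ.filter (fun a => pos a < q) ∪ S, v a i -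
      (∑ a ∈ univ.filter (fun a => pos a < q), u a i + ∑ a ∈ S, u a i +
        ∑ a, (∑ y ∈ range q, w a i y) * v a i)| ≤
      near v Zed Win 0 i + near v Zed Win q i := by
    intro i
    have hdis : Disjoint (univ.filter fun a => pos a < q) S := by
      refine disjoint_left.mpr fun a ha hb => ?_
      have := (mem_filter.mp (hS hb)).2
      have := (mem_filter.mp ha).2
      omega
    rw [sum_union hdis]
    simp only [near, sum_filter]
    have hext : ∀ f : ι → ℝ, ∑ a ∈ S, f a = ∑ a, if a ∈ S then f a else 0 := fun f => by simp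
    rw [hext (fun a => v a i), hext (fun a => u a i), ← sum_add_distrib, ← sum_add_distrib, ← sum_add_distrib, ← sum_sub_distrib, ← sum_add_distrib]
    refine (abs_sum_le_sum_abs _ _).trans (sum_le_sum fun a _ => ?_)
    by_cases hz : (a, i) ∈ Zed
    · have hpa := h.pos_lt a
      obtain ⟨hpW, -⟩ := h.inner a i hz (pos a) hpa (Or.inl rfl)
      have hsum0 : 0 ≤ ∑ y ∈ range q, w a i y := sum_nonneg fun y _ => h.w_nonneg a i y
      have hsum1 : ∑ y ∈ range q, w a i y ≤ 1 := by
        rw [← h.w_sum a i hz]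
        exact sum_le_sum_of_subset_of_nonneg (range_subset_range.mpr hq.le)
          fun y _ _ => h.w_nonneg a i y
      set σ := ∑ y ∈ range q, w a i y with hσ
      have hua : u a i = 0 := by simp [hu, cut, hz]
      have hS' : a ∈ S → pos a = q := fun ha => (mem_filter.mp (hS ha)).2
      simp only [hua, hz, true_and, ite_self, zero_add]
      by_cases hW : 0 ∈ Win a i ∨ q ∈ Win a i
      · refine le_trans (b := |v a i|) ?_ ?_
        · by_cases h1 : pos a < q
          · rw [if_pos h1, if_neg (fun ha => by have := hS' ha; omega)]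
            rw [show v a i + 0 - σ * v a i = (1 - σ) * v a i by ring, abs_mul]
            exact mul_le_of_le_one_left (abs_nonneg _) (abs_le.mpr ⟨by linarith, by linarith⟩)
          · rw [if_neg h1]
            by_cases h2 : a ∈ S
            · rw [if_pos h2, show 0 + v a i - σ * v a i = (1 - σ) * v a i by ring, abs_mul]
              exact mul_le_of_le_one_left (abs_nonneg _) (abs_le.mpr ⟨by linarith, by linarith⟩)
            · rw [if_neg h2, show (0 : ℝ) + 0 - σ * v a i = -(σ * v a i) by ring, abs_neg, abs_mul]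
              exact mul_le_of_le_one_left (abs_nonneg _) (abs_le.mpr ⟨by linarith, by linarith⟩)
        · rcases hW with hW | hW
          · rw [if_pos hW]
            exact le_add_of_nonneg_right (by split_ifs <;> simp)
          · rw [if_pos hW]
            exact le_add_of_nonneg_left (by split_ifs <;> simp)
      · rw [not_or] at hW
        have hne : pos a ≠ q := fun hh => hW.2 (hh ▸ hpW)
        rw [if_neg (fun ha => hne (hS' ha)), if_neg hW.1, if_neg hW.2]
        have hsep : ∀ y < 2 ^ l, w a i y ≠ 0 → (y < q ↔ pos a < q) := fun y hy hy' =>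
          h.sep a i hz hW.1 q hq hW.2 y hy (Or.inr hy')
        by_cases h1 : pos a < q
        · have : σ = 1 := by
            rw [hσ, ← h.w_sum a i hz]
            refine sum_subset (range_subset_range.mpr hq.le) fun y hy hy' => ?_
            by_contra hne'
            exact hy' (mem_range.mpr ((hsep y (mem_range.mp hy) hne').mpr h1))
          rw [if_pos h1, this]; simp
        · have : σ = 0 := by
            refine sum_eq_zero fun y hy => ?_
            by_contra hne'
            exact h1 ((hsep y ((mem_range.mp hy).trans hq) hne').mp (mem_range.mp hy))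
          rw [if_neg h1, this]; simp
    · have hua : u a i = v a i := by simp [hu, cut, hz]
      simp [hua, hz, h.w_zero a i hz]
  set U : Finset ι → (ι → ℝ) → Fin d → ℝ := fun T c i => ∑ a ∈ T, c a * u a i with hU
  have hxs : ∀ (j : ℕ) (x : ι → ℝ), (∀ a, x a ≠ 0 → pos a = j) → ∀ i,
      ∑ a, x a * u a i = U (fib pos j) x i := fun j x hx i =>
    (sum_subset (subset_univ _) fun a _ ha => by
      rw [not_not.mp fun h1 => ha (mem_filter.mpr ⟨mem_univ a, hx a h1⟩), zero_mul]).symm
  have hpt : ∀ i, (∑ a ∈ univ.filter (fun a => pos a < q) ∪ S, v a i) ^ 2 ≤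
      8 * (rq i ^ 2 + eq i ^ 2 + U (fib pos q) xq i ^ 2 + rz i ^ 2 + ez i ^ 2 +
        U (fib pos 0) xz i ^ 2 + U S (fun _ => 1) i ^ 2 +
        (2 * near v Zed Win 0 i ^ 2 + 2 * near v Zed Win q i ^ 2)) := by
    intro i
    set X := ∑ a ∈ univ.filter (fun a => pos a < q) ∪ S, v a i
    set off := X - (∑ a ∈ univ.filter (fun a => pos a < q), u a i + ∑ a ∈ S, u a i +
        ∑ a, (∑ y ∈ range q, w a i y) * v a i) with hoffdef
    have e : X = ((rq i + eq i) + (U (fib pos q) xq i + -rz i)) +
        ((-ez i + -U (fib pos 0) xz i) + (U S (fun _ => 1) i + off)) := by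
      have h1 := hex i
      have h2 := pq i
      have h3 := pz i
      rw [hxs q xq sxq i] at h2
      rw [hxs 0 xz sxz i] at h3
      have h4 : U S (fun _ => 1) i = ∑ a ∈ S, u a i := by simp [hU]
      rw [hoffdef, h4]
      linarith
    have ho : off ^ 2 ≤ 2 * near v Zed Win 0 i ^ 2 + 2 * near v Zed Win q i ^ 2 := by
      refine le_trans ?_ (sq_add_le_two _ _)
      exact sq_le_sq' (abs_le.mp (hoff i)).1 (abs_le.mp (hoff i)).2
    rw [e]
    generalize off = o at ho ⊢
    have t1 := sq_add_le_two ((rq i + eq i) + (U (fib pos q) xq i + -rz i))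
      ((-ez i + -U (fib pos 0) xz i) + (U S (fun _ => 1) i + o))
    have t2 := sq_add_le_two (rq i + eq i) (U (fib pos q) xq i + -rz i)
    have t3 := sq_add_le_two (-ez i + -U (fib pos 0) xz i) (U S (fun _ => 1) i + o)
    have t4 := sq_add_le_two (rq i) (eq i)
    have t5 := sq_add_le_two (U (fib pos q) xq i) (-rz i)
    have t6 := sq_add_le_two (-ez i) (-U (fib pos 0) xz i)
    have t7 := sq_add_le_two (U S (fun _ => 1) i) o
    simp only [neg_sq] at t5 t6
    linarith
  refine (sum_le_sum fun i _ => hpt i).trans ?_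
  simp only [← mul_sum, sum_add_distrib]
  have hx1 : ∀ {x : ι → ℝ}, (∀ a, |x a| ≤ 2 * alpha) → ∀ a, |x a| ≤ 1 := fun hx a =>
    (hx a).trans (by simp [alpha]; norm_num)
  have a1 := (sum_sq_le_Hn Lam l rq).trans (mul_le_mul_of_nonneg_left hrq (by norm_num))
  have a2 := (sum_sq_le_Hn Lam l rz).trans (mul_le_mul_of_nonneg_left hrz (by norm_num))
  have a3 := (sum_sq_le_Hn Lam l _).trans (mul_le_mul_of_nonneg_left (h.offset q hq) (by norm_num))
  have a4 := (sum_sq_le_Hn Lam l _).trans (mul_le_mul_of_nonneg_left (h.offset 0 h0) (by norm_num))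
  have a5 := comb_sq_le u hu1 (fib pos q) xq (hx1 bxq) (hcard q hq)
  have a6 := comb_sq_le u hu1 (fib pos 0) xz (hx1 bxz) (hcard 0 h0)
  have a7 := comb_sq_le u hu1 S (fun _ => 1) (fun _ => by simp)
    ((Nat.cast_le.mpr (card_le_card hS)).trans (hcard q hq))
  have hb := budget_le Lam l
  have hd' : (1 : ℝ) ≤ d := by exact_mod_cast hd
  simp only [hU]
  rw [show (2 : ℝ) ^ 330 = 2 ^ 130 * 2 ^ 200 by rw [← pow_add]]
  norm_num at a1 a2 a3 a4 a5 a6 a7 hb heq hez ⊢
  linarith

theorem card_bound (N : ℕ) : (4 / 5 : ℝ) ^ N * N + 200 ≤ 300 := by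
  have h : 1 + (N : ℝ) * (1 / 4) ≤ (5 / 4 : ℝ) ^ N := by
    have := one_add_mul_le_pow (show (-2 : ℝ) ≤ 1 / 4 by norm_num) N
    norm_num at this ⊢
    exact this
  have e : (4 / 5 : ℝ) ^ N * (5 / 4 : ℝ) ^ N = 1 := by rw [← mul_pow]; norm_num
  have := mul_le_mul_of_nonneg_left h (show (0 : ℝ) ≤ (4 / 5 : ℝ) ^ N by positivity)
  have := show (0 : ℝ) ≤ (4 / 5 : ℝ) ^ N by positivity
  nlinarith

/-- A zero-sum family with orthogonal coordinates has a balanced order. -/
theorem exists_order {N d : ℕ} (v : Fin N → Fin d → ℝ) (hv : ∀ a, ∑ i, v a i ^ 2 ≤ 1)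
    (hzero : ∀ i, ∑ a, v a i = 0) (horth : ∀ i k, i ≠ k → ∑ a, v a i * v a k = 0) :
    ∃ π : Equiv.Perm (Fin N), ∀ k : ℕ,
      ∑ i, (∑ j ∈ univ.filter (fun j : Fin N => (j : ℕ) < k), v (π j) i) ^ 2 ≤ 2 ^ 330 * d := by
  obtain ⟨pos, Zed, w, Win, P, h⟩ :=
    exists_lvl (fun i => ∑ a, v a i ^ 2) v hv hzero horth (fun i => rfl) N
  refine ⟨Tuple.sort pos, fun k => ?_⟩
  have hmono : Monotone (pos ∘ Tuple.sort pos) := Tuple.monotone_sort pos
  set π := Tuple.sort pos
  have hnn : (0 : ℝ) ≤ 2 ^ 330 * d := by positivity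
  by_cases hk : k < N
  · rcases Nat.eq_zero_or_pos d with rfl | hd
    · simp
    set q := pos (π ⟨k, hk⟩) with hq
    set A := (univ.filter (fun j : Fin N => (j : ℕ) < k)).map π.toEmbedding with hA
    have hmem : ∀ a, a ∈ A ↔ ((π.symm a : Fin N) : ℕ) < k := fun a => by simp [hA]
    have hle : ∀ a, ((π.symm a : Fin N) : ℕ) ≤ k → pos a ≤ q := fun a ha => by
      have := hmono (show π.symm a ≤ ⟨k, hk⟩ from ha)
      simpa [hq] using this
    have hge : ∀ a, k ≤ ((π.symm a : Fin N) : ℕ) → q ≤ pos a := fun a ha => by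
      have := hmono (show (⟨k, hk⟩ : Fin N) ≤ π.symm a from ha)
      simpa [hq] using this
    have hsplit : A = univ.filter (fun a => pos a < q) ∪ (A ∩ fib pos q) := by
      ext a
      simp only [mem_union, mem_filter, mem_univ, true_and, mem_inter, hmem, fib]
      constructor
      · intro ha
        rcases (hle a ha.le).lt_or_eq with h1 | h1
        · exact Or.inl h1
        · exact Or.inr ⟨ha, h1⟩
      · rintro (h1 | ⟨h1, -⟩)
        · by_contra hc
          have := hge a (by omega)
          omega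
        · exact h1
    have := point_le (fun i => ∑ a, v a i ^ 2) v hv hd h
      (fun y hy => (h.card_le y hy).trans (by simpa using card_bound N)) (q := q)
      (by rw [hq]; exact h.pos_lt _) (S := A ∩ fib pos q) inter_subset_right
    rw [← hsplit] at this
    simpa [hA, sum_map] using this
  · refine le_trans (le_of_eq (sum_eq_zero fun i _ => ?_)) hnn
    rw [filter_true_of_mem fun j _ => lt_of_lt_of_le j.isLt (not_lt.mp hk),
      Equiv.sum_comp π (fun a => v a i), hzero i]
    ring

/-- Every zero-sum family in the Euclidean unit ball has an order with all partial sums of norm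
`O(√d)`. -/
theorem exists_perm {d N : ℕ} (v : Fin N → EuclideanSpace ℝ (Fin d)) (hv : ∀ a, ‖v a‖ ≤ 1)
    (hzero : ∑ a, v a = 0) :
    ∃ π : Equiv.Perm (Fin N), ∀ k : ℕ,
      ‖∑ i ∈ univ.filter (fun i : Fin N => (i : ℕ) < k), v (π i)‖ ≤
        2 ^ 165 * Real.sqrt d := by
  let T : EuclideanSpace ℝ (Fin d) →ₗ[ℝ] EuclideanSpace ℝ (Fin d) :=
    ∑ a, ((innerSL ℝ (v a)).toLinearMap).smulRight (v a)
  have hTapp : ∀ x, T x = ∑ a, ⟪v a, x⟫ • v a := fun x => by simp [T]
  have hT : T.IsSymmetric := fun x y => by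
    simp only [hTapp, sum_inner, inner_sum, real_inner_smul_left, real_inner_smul_right]
    exact sum_congr rfl fun a _ => by rw [real_inner_comm x (v a)]; ring
  set b := hT.eigenvectorBasis finrank_euclideanSpace_fin with hb
  let w : Fin N → Fin d → ℝ := fun a i => ⟪b i, v a⟫
  have hw : ∀ a, ∑ i, w a i ^ 2 ≤ 1 := fun a => by
    have h := b.sum_sq_norm_inner_right (v a)
    simp only [Real.norm_eq_abs, sq_abs] at h
    simp only [w, h]
    exact pow_le_one₀ (norm_nonneg _) (hv a)
  have hw0 : ∀ i, ∑ a, w a i = 0 := fun i => by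
    simp only [w, ← inner_sum, hzero, inner_zero_right]
  have horth : ∀ i k, i ≠ k → ∑ a, w a i * w a k = 0 := fun i k hik => by
    have h1 : ⟪b i, T (b k)⟫ = 0 := by
      rw [hb, hT.apply_eigenvectorBasis, real_inner_smul_right,
        OrthonormalBasis.inner_eq_zero _ hik, mul_zero]
    rw [hTapp, inner_sum] at h1
    refine Eq.trans (sum_congr rfl fun a _ => ?_) h1
    simp only [w, real_inner_smul_right]
    rw [real_inner_comm (b k) (v a)]
    ring
  obtain ⟨π, hπ⟩ := exists_order w hw hw0 horth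
  refine ⟨π, fun k => ?_⟩
  set x := ∑ i ∈ univ.filter (fun i : Fin N => (i : ℕ) < k), v (π i) with hx
  refine le_of_pow_le_pow_left₀ two_ne_zero (by positivity) ?_
  rw [← b.sum_sq_norm_inner_right x, mul_pow, Real.sq_sqrt (Nat.cast_nonneg d), ← pow_mul]
  refine le_trans (le_of_eq (sum_congr rfl fun i _ => ?_)) (hπ k)
  rw [Real.norm_eq_abs, sq_abs, hx, inner_sum]

end Vale.Agent.P262.Full
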