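import Vale.Agent.P262.Full.Track

/-!
One round of cyclic halving.
-/

open Finset

namespace Vale.Agent.P262.Full

variable {ι : Type*} [Fintype ι] [DecidableEq ι] {d : ℕ} (Lam : Fin d → ℝ)

omit [DecidableEq ι] in
/-- The vectors of a new block are those of the pieces sent to it. -/
theorem fib_sum {n : ℕ} {pos : ι → ℕ} (hpos : ∀ a, pos a < n) (piece : ℕ → ι → Fin 3)
    (f : ι → ℝ) (c : ℕ) :
    ∑ a ∈ fib (fun a => child n (pos a) (piece (pos a) a)) c, f a =
      push n (fun x X => ∑ a ∈ (fib pos x).filter (fun a => piece x a = X), f a) c := by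
  simp only [push, fib, sum_filter]
  have e : ∀ a, (if child n (pos a) (piece (pos a) a) = c then f a else 0) =
      ∑ x ∈ range n, ∑ X, if child n x X = c then
        (if pos a = x then (if piece x a = X then f a else 0) else 0) else 0 := by
    intro a
    rw [sum_eq_single_of_mem _ (mem_range.mpr (hpos a)) fun x _ hx => by simp [Ne.symm hx],
      sum_eq_single_of_mem _ (mem_univ (piece (pos a) a)) fun X _ hX => by simp [Ne.symm hX]]
    simp
  simp only [e]
  rw [sum_comm]
  refine sum_congr rfl fun x _ => ?_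
  rw [sum_comm]
  exact sum_congr rfl fun X _ => by split_ifs <;> simp

variable (v : ι → Fin d → ℝ)

omit [Fintype ι] [DecidableEq ι] in
/-- The mass of the crossing coordinates is paid by the deviation and the budget. -/
theorem cross_mass_le {l : ℕ} {u : ι → Fin d → ℝ}
    (hu : ∀ a i, l < cross Lam i → u a i = v a i) (V : Finset ι) :
    ∑ a ∈ V, ∑ i ∈ univ.filter (fun i => cross Lam i = l + 1), v a i ^ 2 ≤
      Zn Lam u l V / 2 ^ 48 + 2 ^ 148 * xi Lam l := by
  have hB := Bc_pos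
  rw [sum_comm]
  set C := univ.filter (fun i => cross Lam i = l + 1) with hC
  have hone : ∀ i ∈ C, ∑ a ∈ V, v a i ^ 2 ≤
      devW Lam u l V (fun _ => 1) 1 i i ^ 2 / 2 ^ 48 + 2 ^ 148 * xiOne Lam l i := by
    intro i hi
    have hci : cross Lam i = l + 1 := (mem_filter.mp hi).2
    have hlt : l < cross Lam i := by omega
    have he := (age_cross Lam hci).1
    have hlam := (hi_lam_bounds Lam hlt).2
    rw [he, pow_zero, mul_one] at hlam
    have hsw : sw Lam l i = 1 / Bc := by rw [sw, he, pow_zero]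
    set D := devW Lam u l V (fun _ => 1) 1 i i with hD
    have hDeq : Bc * D = ∑ a ∈ V, v a i ^ 2 - lam Lam l i := by
      simp only [hD, devW, cvec, Dv, if_pos hlt, if_true, one_mul, hsw]
      rw [sum_congr rfl fun a _ => (show Real.sqrt (1 / Bc) * u a i *
        (Real.sqrt (1 / Bc) * u a i) = 1 / Bc * v a i ^ 2 by
          rw [hu a i hlt]
          linear_combination (v a i ^ 2) * Real.mul_self_sqrt (one_div_pos.mpr hB).le),
        ← mul_sum]
      field_simp
    rw [xiOne_cross Lam hci]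
    have h2 : Bc * D ≤ D ^ 2 / 2 ^ 48 + 2 ^ 46 * Bc ^ 2 := by
      nlinarith [sq_nonneg (D / 2 ^ 24 - 2 ^ 23 * Bc)]
    rw [Bc_eq] at hlam hDeq h2
    norm_num at hlam hDeq h2 ⊢
    linarith
  refine (sum_le_sum hone).trans ?_
  rw [sum_add_distrib, ← sum_div, ← mul_sum]
  gcongr
  · exact le_trans (sum_le_sum fun i _ => single_le_sum
      (f := fun k => devW Lam u l V (fun _ => 1) 1 i k ^ 2)
      (fun k _ => sq_nonneg _) (mem_univ i))
      (sum_le_sum_of_subset_of_nonneg (subset_univ _)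
        fun i _ _ => sum_nonneg fun k _ => sq_nonneg _)
  · exact sum_le_sum_of_subset_of_nonneg (subset_univ _) fun i _ _ => (xiOne_pos Lam l i).le

omit [DecidableEq ι] in
/-- The shifts caused by the two witnesses are negligible. -/
theorem rest_le {l : ℕ} (u : ι → Fin d → ℝ) (V : Finset ι) (x₀ x₁ : ι → ℝ) {Φ : ℝ}
    (h0 : Bc * ∑ a, x₀ a ^ 2 ≤ Φ) (h1 : Bc * ∑ a, x₁ a ^ 2 ≤ Φ) :
    Rest Lam u l V (fun a => -(3 / 4 * x₀ a + 1 / 4 * x₁ a))
        (fun a => 1 / 4 * x₀ a + 3 / 4 * x₁ a) ≤ xi Lam l + Tm Lam u l V + Φ / 2 ^ 98 := by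
  have h : ∑ a ∈ V, ((-(3 / 4 * x₀ a + 1 / 4 * x₁ a)) ^ 2 + (1 / 4 * x₀ a + 3 / 4 * x₁ a) ^ 2) ≤
      ∑ a, x₀ a ^ 2 + ∑ a, x₁ a ^ 2 := by
    rw [← sum_add_distrib]
    refine le_trans (sum_le_sum fun a _ => ?_)
      (sum_le_sum_of_subset_of_nonneg (subset_univ _) fun a _ _ => by positivity)
    nlinarith [sq_nonneg (x₀ a - x₁ a)]
  rw [Rest, add_le_add_iff_left, div_le_iff₀ Bc_pos]
  refine h.trans ?_
  have := sum_nonneg (s := univ) fun a _ => sq_nonneg (x₀ a)
  rw [Bc_eq] at h0 h1 ⊢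
  norm_num at h0 h1 ⊢
  linarith

omit [Fintype ι] in
variable {Lam} in
/-- The three pieces of a block stay inside the potential of the next level. -/
theorem pieces_le {l : ℕ} {u u' : ι → Fin d → ℝ} {V : Finset ι} {δA δC : ι → ℝ}
    {eL eR : Fin d → ℝ} {piece : ι → Fin 3} {left : Finset ι} {wf : ι → Fin 3 → ℝ}
    {xs : Fin 4 → ι → ℝ} {es : Fin 2 → Fin d → ℝ}
    (hs : SplitSpec Lam u l V δA δC eL eR piece left wf xs es)
    (hhi : ∀ a i, l < cross Lam i → u' a i = v a i ∧ u a i = v a i)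
    (hlo : ∀ a ∈ V, ∀ i, cross Lam i ≤ l → u' a i = if a ∈ left then 0 else u a i)
    {Φ : ℝ} (hp : 2 ^ 40 * Tm Lam u l V + Zn Lam u l V ≤ Φ)
    (hR : Rest Lam u l V δA δC ≤ xi Lam l + Tm Lam u l V + Φ / 2 ^ 98) (X : Fin 3) :
    2 ^ 40 * ∑ a ∈ V.filter (fun a => piece a = X), nuLo Lam u' (l + 1) a +
        25 / 9 * ((if X = 1 then 1 else 2) *
          ZW Lam u l V (fun a => if piece a = X then 1 else 0) (nom X)) ≤
      (if X = 1 then 1 else 1 / 2) * (9 / 10 * Φ + 2 ^ 190 * xi Lam l) := by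
  have hT : 0 ≤ Tm Lam u l V := sum_nonneg fun a _ => nuLo_nonneg Lam u l a
  have hZ : 0 ≤ Zn Lam u l V := ZW_nonneg Lam u l _ _ _
  have hξ := xi_nonneg Lam l
  have hpt : ∀ a ∈ V, nuLo Lam u' (l + 1) a ≤
      (if a ∉ left then 3 / 2 * nuLo Lam u l a else 0) +
        ∑ i ∈ univ.filter (fun i => cross Lam i = l + 1), v a i ^ 2 := by
    intro a ha
    simp only [nuLo, loSet, sum_filter]
    rw [show (if a ∉ left then
        3 / 2 * ∑ i, (if cross Lam i ≤ l then gw Lam l i * u a i ^ 2 else 0) else 0) =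
        ∑ i, (if a ∉ left ∧ cross Lam i ≤ l then
          3 / 2 * (gw Lam l i * u a i ^ 2) else 0) by
      by_cases hL : a ∈ left <;> simp [hL, mul_sum], ← sum_add_distrib]
    refine sum_le_sum fun i _ => ?_
    by_cases hc : cross Lam i ≤ l
    · rw [if_pos (by omega : cross Lam i ≤ l + 1), if_neg (by omega : ¬ cross Lam i = l + 1),
        add_zero, gw_succ Lam hc, hlo a ha i hc]
      by_cases hL : a ∈ left
      · simp [hL]
      · rw [if_neg hL, if_pos (show a ∉ left ∧ cross Lam i ≤ l from ⟨hL, hc⟩), mul_assoc]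
    · rw [if_neg (show ¬(a ∉ left ∧ cross Lam i ≤ l) from fun hh => hc hh.2)]
      by_cases hc' : cross Lam i = l + 1
      · rw [if_pos (by omega : cross Lam i ≤ l + 1), if_pos hc', gw, (age_cross Lam hc').2,
          pow_zero, one_mul, (hhi a i (by omega)).1, zero_add]
      · rw [if_neg (by omega : ¬ cross Lam i ≤ l + 1), if_neg hc', add_zero]
  have ht : ∑ a ∈ V.filter (fun a => piece a = X), nuLo Lam u' (l + 1) a ≤
      3 / 2 * ((nom X + 4 * alpha) * Tm Lam u l V) +
        (Zn Lam u l V / 2 ^ 48 + 2 ^ 148 * xi Lam l) := by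
    refine (sum_le_sum fun a ha => hpt a (mem_filter.mp ha).1).trans ?_
    rw [sum_add_distrib, ← sum_filter, filter_filter, ← mul_sum]
    refine add_le_add (mul_le_mul_of_nonneg_left (hs.low X) (by norm_num)) (le_trans ?_
      (cross_mass_le Lam v (fun a i hi => (hhi a i hi).2) V))
    exact sum_le_sum_of_subset_of_nonneg (filter_subset _ _)
      fun a _ _ => sum_nonneg fun i _ => sq_nonneg _
  have hz := hs.moment X
  have hX : X = 0 ∨ X = 1 ∨ X = 2 := by omega
  rcases hX with rfl | rfl | rfl <;>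
    simp only [nom, alpha, Fin.reduceEq, if_true, if_false] at ht hz ⊢ <;>
    norm_num at hp hR ht hz ⊢ <;> linarith

variable {Lam} in
/-- A side of a split gives a representation of its new point. -/
theorem side_rep {l : ℕ} {u u' : ι → Fin d → ℝ} {V : Finset ι} {δA δC : ι → ℝ}
    {eL eR : Fin d → ℝ} {piece : ι → Fin 3} {left : Finset ι} {wf : ι → Fin 3 → ℝ}
    {xs : Fin 4 → ι → ℝ} {es : Fin 2 → Fin d → ℝ}
    (hs : SplitSpec Lam u l V δA δC eL eR piece left wf xs es)
    (hu' : ∀ a ∈ V, a ∉ left → ∀ i, u' a i = u a i)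
    (hp : 2 ^ 40 * Tm Lam u l V + Zn Lam u l V ≤ PhiSeq Lam l)
    (hR : Rest Lam u l V δA δC ≤ xi Lam l + Tm Lam u l V + PhiSeq Lam l / 2 ^ 98)
    {rL rR : Fin d → ℝ} (r0 : Hn Lam l rL ≤ 2 ^ 40 * budget Lam l)
    (r1 : Hn Lam l rR ≤ 2 ^ 40 * budget Lam l)
    (e0 : ∑ i, eL i ^ 2 ≤ 2 ^ 122 * budget Lam l) (e1 : ∑ i, eR i ^ 2 ≤ 2 ^ 122 * budget Lam l)
    (σ : Fin 4) {M : Fin d → ℝ}
    (hM : ∀ i, M i = (shareL (pnt σ) * rL i + (1 - shareL (pnt σ)) * rR i) +
      (shareL (pnt σ) * eL i + (1 - shareL (pnt σ)) * eR i) +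
      splitErr Lam u l V δA δC piece wf (pnt σ) i) :
    ∃ (r' e' : Fin d → ℝ) (x' : ι → ℝ),
      (∀ i, M i = r' i + e' i + ∑ a, x' a * u' a i) ∧
      Hn Lam (l + 1) r' ≤ 2 ^ 40 * budget Lam (l + 1) ∧
      ∑ i, e' i ^ 2 ≤ 2 ^ 122 * budget Lam (l + 1) ∧ (∀ a, |x' a| ≤ 2 * alpha) ∧
      (∀ a, x' a ≠ 0 → a ∈ V ∧ piece a = cls σ) ∧
      Bc * ∑ a, x' a ^ 2 ≤ PhiSeq Lam (l + 1) := by
  have hB := Bc_pos
  have hT : 0 ≤ Tm Lam u l V := sum_nonneg fun a _ => nuLo_nonneg Lam u l a
  have hZ : 0 ≤ Zn Lam u l V := ZW_nonneg Lam u l _ _ _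
  have hξ := xi_nonneg Lam l
  have hΦ := PhiSeq_nonneg Lam l
  set J := pnt σ with hJ
  have hoff : ∀ a ∉ V, xs σ a = 0 := fun a ha =>
    not_not.mp fun h0 => ha (hs.x_supp σ a h0).1
  have hxu : ∀ i, ∑ a, xs σ a * u' a i = ∑ a ∈ V, xs σ a * u a i := by
    intro i
    rw [← sum_subset (subset_univ V) fun a _ ha => by rw [hoff a ha, zero_mul]]
    refine sum_congr rfl fun a ha => ?_
    by_cases h0 : xs σ a = 0
    · simp [h0]
    · rw [hu' a ha (hs.x_supp σ a h0).2.1]
  set ρ : Fin d → ℝ := fun i =>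
    splitErr Lam u l V δA δC piece wf J i - es J i - ∑ a ∈ V, xs σ a * u a i with hρ
  have hres : ∑ i, gw Lam l i * ρ i ^ 2 + Bc * ∑ a ∈ V, xs σ a ^ 2 ≤ _ := hs.residual σ
  have hρ0 : 0 ≤ ∑ i, gw Lam l i * ρ i ^ 2 :=
    sum_nonneg fun i _ => mul_nonneg (gw_pos Lam l i).le (sq_nonneg _)
  have hx0 : 0 ≤ Bc * ∑ a ∈ V, xs σ a ^ 2 :=
    mul_nonneg hB.le (sum_nonneg fun _ _ => sq_nonneg _)
  have hsh : 0 ≤ shareL J ∧ shareL J ≤ 1 := by
    have hJ2 : J = 0 ∨ J = 1 := by omega
    rcases hJ2 with h' | h' <;> rw [h'] <;> simp [shareL] <;> norm_num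
  refine ⟨fun i => (shareL J * rL i + (1 - shareL J) * rR i) + ρ i,
    fun i => shareL J * eL i + (1 - shareL J) * eR i + es J i, xs σ,
    fun i => ?_, ?_, ?_, hs.x_box σ, fun a ha => ⟨(hs.x_supp σ a ha).1, (hs.x_supp σ a ha).2.2⟩, ?_⟩
  · simp only [hM i, hxu i, hρ]; ring
  · refine (Hn_step Lam l _ ρ).trans ?_
    have := Hn_convex Lam l rL rR hsh.1 hsh.2 r0 r1
    rw [budget_succ]
    norm_num at hp hR hres this ⊢
    linarith
  · refine (hs.raw J).trans ?_
    rw [budget_succ]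
    have q0 := mul_le_mul_of_nonneg_left e0 hsh.1
    have q1 := mul_le_mul_of_nonneg_left e1 (sub_nonneg.mpr hsh.2)
    norm_num at hp hR q0 q1 ⊢
    linarith
  · rw [← sum_subset (subset_univ V) fun a _ ha => by rw [hoff a ha]; simp]
    have e' : PhiSeq Lam (l + 1) = 9 / 10 * PhiSeq Lam l + 2 ^ 190 * xi Lam l := by rw [PhiSeq]
    rw [e']
    norm_num at hp hR hres ⊢
    linarith

omit [DecidableEq ι] in
variable {Lam} in
/-- The deviation of a new block is the transported deviation of its pieces. -/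
theorem zn_next_le {l : ℕ} {u u' : ι → Fin d → ℝ} {n : ℕ} {pos : ι → ℕ}
    (hpos : ∀ a, pos a < n) (piece : ℕ → ι → Fin 3)
    (hhi : ∀ a i, l < cross Lam i → u' a i = v a i ∧ u a i = v a i) {c : ℕ} (hc : c < 2 * n) :
    Zn Lam u' (l + 1) (fib (fun a => child n (pos a) (piece (pos a) a)) c) ≤
      25 / 9 * push n (fun j X => (if X = 1 then 1 else 2) *
        ZW Lam u l (fib pos j) (fun a => if piece j a = X then 1 else 0) (nom X)) c := by
  have hdev : ∀ i k, ∃ χ : ℝ, |χ| ≤ 1 ∧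
      devW Lam u' (l + 1) (fib (fun a => child n (pos a) (piece (pos a) a)) c) (fun _ => 1) 1 i k =
        χ * (5 / 3 * push n (fun j X =>
          devW Lam u l (fib pos j) (fun a => if piece j a = X then 1 else 0) (nom X) i k) c) := by
    intro i k
    by_cases hik : l + 1 < cross Lam i ∧ l + 1 < cross Lam k
    · refine ⟨1, by simp, ?_⟩
      obtain ⟨hi, hk⟩ := hik
      have hsq : Real.sqrt (sw Lam (l + 1) i) * Real.sqrt (sw Lam (l + 1) k) =
          5 / 3 * (Real.sqrt (sw Lam l i) * Real.sqrt (sw Lam l k)) := by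
        rw [sw_succ Lam hi, sw_succ Lam hk, Real.sqrt_mul (by norm_num), Real.sqrt_mul (by norm_num)]
        linear_combination (Real.sqrt (sw Lam l i) * Real.sqrt (sw Lam l k)) *
          Real.mul_self_sqrt (show (0 : ℝ) ≤ 5 / 3 by norm_num)
      have hDv : Dv Lam (l + 1) i = 5 / 3 * (1 / 2 * Dv Lam l i) := by
        rw [Dv, Dv, if_pos hi, if_pos (by omega), sw_succ Lam hi, lam_succ]; ring
      have hcc : ∀ a, cvec Lam u' (l + 1) a i * cvec Lam u' (l + 1) a k =
          5 / 3 * (cvec Lam u l a i * cvec Lam u l a k) := by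
        intro a
        simp only [cvec, if_pos hi, if_pos hk, if_pos (show l < cross Lam i by omega),
          if_pos (show l < cross Lam k by omega), (hhi a i (by omega)).1, (hhi a i (by omega)).2,
          (hhi a k (by omega)).1, (hhi a k (by omega)).2]
        linear_combination (v a i * v a k) * hsq
      simp only [devW, one_mul, hcc, ← mul_sum, fib_sum hpos piece,
        ite_mul, zero_mul, ← sum_filter, hDv]
      rcases push_cases hc with ⟨j, -, -, hF⟩ | ⟨j, -, j', -, -, -, -, hF⟩ <;>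
        simp only [hF, nom, Fin.reduceEq, if_true, if_false] <;>
        split_ifs <;> ring
    · refine ⟨0, by simp, ?_⟩
      rw [not_and_or] at hik
      simp only [devW, cvec, Dv, zero_mul]
      rcases hik with hh | hh
      · simp [hh]
      · by_cases hik' : i = k
        · subst hik'; simp [hh]
        · simp [hh, hik']
  rcases push_cases hc with ⟨j, -, -, hF⟩ | ⟨j, -, j', -, -, -, -, hF⟩
  · rw [hF, if_pos rfl, one_mul]
    simp only [Zn, ZW, mul_sum]
    refine sum_le_sum fun i _ => sum_le_sum fun k _ => ?_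
    obtain ⟨χ, hχ, he⟩ := hdev i k
    rw [he, hF, mul_pow, mul_pow]
    refine (mul_le_of_le_one_left (by positivity)
      ((sq_le_one_iff_abs_le_one χ).mpr hχ)).trans (le_of_eq ?_)
    norm_num
  · rw [hF, if_neg (by decide), if_neg (by decide), mul_add]
    simp only [Zn, ZW, mul_sum, ← sum_add_distrib]
    refine sum_le_sum fun i _ => sum_le_sum fun k _ => ?_
    obtain ⟨χ, hχ, he⟩ := hdev i k
    rw [he, hF, mul_pow, mul_pow]
    refine (mul_le_of_le_one_left (by positivity)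
      ((sq_le_one_iff_abs_le_one χ).mpr hχ)).trans ?_
    nlinarith [sq_nonneg (devW Lam u l (fib pos j) (fun a => if piece j a = 0 then 1 else 0)
      (nom 0) i k - devW Lam u l (fib pos j') (fun a => if piece j' a = 2 then 1 else 0)
      (nom 2) i k)]

omit [Fintype ι] [DecidableEq ι] in
variable {Lam} in
/-- The offsets created by one round are paid by the low masses. -/
theorem fresh_sq_le {l : ℕ} (u : ι → Fin d → ℝ) (ρ : Fin d → ℝ) {S S' V V' : Finset ι}
    (hS : S ⊆ V) (hS' : S' ⊆ V') (hc : S.card ≤ 16) (hc' : S'.card ≤ 16)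
    (hρ : ∀ i, 0 ≤ ρ i ∧ ρ i ≤ (∑ a ∈ S, if cross Lam i ≤ l then |u a i| else 0) +
      ∑ a ∈ S', if cross Lam i ≤ l then |u a i| else 0) :
    ∑ i, gw Lam l i * ρ i ^ 2 ≤ 32 * Tm Lam u l V + 32 * Tm Lam u l V' := by
  have hone : ∀ {T W : Finset ι}, T ⊆ W → T.card ≤ 16 →
      ∑ i, gw Lam l i * (2 * (∑ a ∈ T, if cross Lam i ≤ l then |u a i| else 0) ^ 2) ≤
        32 * Tm Lam u l W := by
    intro T W hT hcard
    calc _ ≤ ∑ i, gw Lam l i * (2 * (16 * ∑ a ∈ T,
            (if cross Lam i ≤ l then |u a i| else 0) ^ 2)) := by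
          refine sum_le_sum fun i _ => mul_le_mul_of_nonneg_left ?_ (gw_pos Lam l i).le
          refine mul_le_mul_of_nonneg_left (sq_sum_le_card_mul_sum_sq.trans ?_) (by norm_num)
          gcongr
          exact_mod_cast hcard
      _ = 32 * ∑ a ∈ T, nuLo Lam u l a := by
          simp only [nuLo, loSet, sum_filter, mul_sum]
          rw [sum_comm]
          refine sum_congr rfl fun a _ => sum_congr rfl fun i _ => ?_
          split_ifs <;> simp [sq_abs]; ring
      _ ≤ _ := mul_le_mul_of_nonneg_left (sum_le_sum_of_subset_of_nonneg hT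
          fun a _ _ => nuLo_nonneg Lam u l a) (by norm_num)
  refine le_trans ?_ (add_le_add (hone hS hc) (hone hS' hc'))
  rw [← sum_add_distrib]
  refine sum_le_sum fun i _ => ?_
  obtain ⟨h1, h2⟩ := hρ i
  rw [← mul_add]
  refine mul_le_mul_of_nonneg_left ?_ (gw_pos Lam l i).le
  nlinarith [sq_nonneg ((∑ a ∈ S, if cross Lam i ≤ l then |u a i| else 0) -
    ∑ a ∈ S', if cross Lam i ≤ l then |u a i| else 0)]

/-- The next level of the cyclic halving. -/
theorem exists_next (hv : ∀ a, ∑ i, v a i ^ 2 ≤ 1) (hsplit : Splits ι Lam) {l : ℕ}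
    {pos : ι → ℕ} {Zed : Finset (ι × Fin d)} {w : ι → Fin d → ℕ → ℝ}
    {Win : ι → Fin d → Finset ℕ} {P : ℕ → Fin d → ℝ} (h : Lvl Lam v l pos Zed w Win P) :
    ∃ pos' Zed' w' Win' P', Lvl Lam v (l + 1) pos' Zed' w' Win' P' := by
  classical
  set n := 2 ^ l with hn
  have hn0 : 0 < n := Nat.two_pow_pos l
  have hn2 : 2 ^ (l + 1) = 2 * n := by rw [hn, pow_succ']
  have hB := Bc_pos
  set u := cut v Zed with hu
  have hu1 : ∀ a, ∑ i, u a i ^ 2 ≤ 1 := fun a => le_trans (sum_le_sum fun i _ => by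
    simp only [hu, cut]; split_ifs <;> simp [sq_nonneg]) (hv a)
  have hfib : ∀ {j a}, a ∈ fib pos j ↔ pos a = j := fun {j a} => by simp [fib]
  -- representations of the endpoints and the splits
  have hreps : ∀ j s, ∃ r e x, j < n → Rep Lam v l pos Zed P j s r e x := by
    intro j s
    by_cases hj : j < n
    · obtain ⟨r, e, x, hx⟩ := h.reps j hj s
      exact ⟨r, e, x, fun _ => hx⟩
    · exact ⟨0, 0, 0, fun hc => absurd hc hj⟩
  choose r e x hrep using hreps
  set δA : ℕ → ι → ℝ := fun j a => -(3 / 4 * x j 0 a + 1 / 4 * x j 1 a) with hδA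
  set δC : ℕ → ι → ℝ := fun j a => 1 / 4 * x j 0 a + 3 / 4 * x j 1 a with hδC
  have hspl : ∀ j, ∃ piece left wf xs es,
      SplitSpec Lam u l (fib pos j) (δA j) (δC j) (e j 0) (e j 1) piece left wf xs es := by
    intro j
    refine hsplit l u hu1 (fib pos j) (δA j) (δC j) ?_ ?_ (e j 0) (e j 1)
    all_goals
      intro a ha
      have hj : j < n := hfib.mp ha ▸ h.pos_lt a
      obtain ⟨-, -, -, b0, -⟩ := hrep j 0 hj
      obtain ⟨-, -, -, b1, -⟩ := hrep j 1 hj
      have := abs_le.mp (b0 a)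
      have := abs_le.mp (b1 a)
      simp only [hδA, hδC, abs_le]
      constructor <;> linarith
  choose piece left wf xs es hs using hspl
  set pos' : ι → ℕ := fun a => child n (pos a) (piece (pos a) a) with hpos'
  set Zed' : Finset (ι × Fin d) :=
    Zed ∪ univ.filter (fun p => p.1 ∈ left (pos p.1) ∧ cross Lam p.2 ≤ l) with hZed'
  have hZ' : ∀ a i, (a, i) ∈ Zed' ↔ (a, i) ∈ Zed ∨ (a ∈ left (pos a) ∧ cross Lam i ≤ l) :=
    fun a i => by simp [hZed']
  set u' := cut v Zed' with hu'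
  have hu'v : ∀ a i, l < cross Lam i → u' a i = v a i ∧ u a i = v a i := by
    intro a i hi
    have h1 : (a, i) ∉ Zed := fun hc => by have := h.zed_lo a i hc; omega
    have h2 : (a, i) ∉ Zed' := fun hc => ((hZ' a i).mp hc).elim h1 fun hc => by omega
    simp [hu', hu, cut, h1, h2]
  set Fw : ι → Fin d → ℕ → Fin 3 → ℝ := fun a i j X =>
    if (a, i) ∈ Zed then w a i j * nom X
    else if (a, i) ∈ Zed' ∧ j = pos a then wf (pos a) a X else 0 with hFw
  set Wb : ι → Fin d → Finset ℕ := fun a i =>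
    if (a, i) ∈ Zed then Win a i else {pos a, (pos a + 1) % n} with hWb
  set Win' : ι → Fin d → Finset ℕ := fun a i =>
    (range (2 * n)).filter fun q => q / 2 ∈ Wb a i with hWin'
  set W : ℕ → Fin d → ℝ := fun j i => ∑ a, w a i j * v a i with hW
  set Mp : ℕ → Fin 2 → Fin d → ℝ := fun j jj i =>
    ![P j i + W j i / 4 + ∑ a ∈ fib pos j, fullW Lam l (piece j) (wf j) a i 0 * u a i,
      P ((j + 1) % n) i - W j i / 4 -
        ∑ a ∈ fib pos j, fullW Lam l (piece j) (wf j) a i 2 * u a i] jj with hMp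
  set P' : ℕ → Fin d → ℝ := fun c =>
    if c % 2 = 1 then Mp (c / 2) 0 else Mp ((c / 2 + n - 1) % n) 1 with hP'
  have hP'odd : ∀ j, P' (2 * j + 1) = Mp j 0 := fun j => by
    simp only [hP']
    rw [if_pos (by omega), show (2 * j + 1) / 2 = j by omega]
  have hP'even : ∀ j < n, P' (2 * ((j + 1) % n)) = Mp j 1 := fun j hj => by
    simp only [hP']
    rw [if_neg (by omega), Nat.mul_div_cancel_left _ two_pos,
      ← (pred_mod (Nat.mod_lt (j + 1) hn0)).2.2 j hj rfl]
  -- exact increments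
  have hdiff : ∀ j < n, ∀ i, P ((j + 1) % n) i - P j i = ∑ a ∈ fib pos j, u a i + W j i :=
    fun j hj i => h.diff j hj i
  have hfsum : ∀ j, ∀ a ∈ fib pos j, ∀ i, fullW Lam l (piece j) (wf j) a i 0 +
      fullW Lam l (piece j) (wf j) a i 1 + fullW Lam l (piece j) (wf j) a i 2 = 1 := by
    intro j a ha i
    rw [← Fin.sum_univ_three (fun X => fullW Lam l (piece j) (wf j) a i X)]
    simp only [fullW]
    split_ifs
    · exact (hs j).w_sum a ha
    · simp
  set G : ℕ → Fin 3 → Fin d → ℝ := fun j X i =>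
    ∑ a ∈ (fib pos j).filter (fun a => piece j a = X), u' a i + ∑ a, Fw a i j X * v a i with hG
  have hGeq : ∀ j < n, ∀ X i, G j X i =
      nom X * W j i + ∑ a ∈ fib pos j, fullW Lam l (piece j) (wf j) a i X * u a i := by
    intro j _ X i
    simp only [hG, hW, fib, sum_filter, mul_sum]
    rw [← sum_add_distrib, ← sum_add_distrib]
    refine sum_congr rfl fun a _ => ?_
    by_cases ha : pos a = j
    · subst ha
      simp only [hFw, hu', hu, cut, hZ', fullW]
      by_cases h1 : (a, i) ∈ Zed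
      · simp [h1]; ring
      · simp only [h1, if_false, false_or, h.w_zero a i h1, zero_mul, mul_zero, zero_add,
          and_true]
        by_cases h2 : a ∈ left (pos a) ∧ cross Lam i ≤ l
        · simp [h2.1, h2.2]
        · simp only [if_neg h2, zero_mul, add_zero]
          by_cases h3 : cross Lam i ≤ l
          · rw [if_pos h3, (hs _).w_int a (hfib.mpr rfl) (fun hc => h2 ⟨hc, h3⟩) X]
            split_ifs <;> simp
          · rw [if_neg h3]
            split_ifs <;> simp
    · simp only [if_neg ha, hFw, zero_add, add_zero, Ne.symm ha, and_false, if_false]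
      by_cases h1 : (a, i) ∈ Zed
      · simp [h1]; ring
      · simp [h1, h.w_zero a i h1]
  have hMG : ∀ j < n, ∀ i, Mp j 0 i - P j i = G j 0 i ∧ Mp j 1 i - Mp j 0 i = G j 1 i ∧
      P ((j + 1) % n) i - Mp j 1 i = G j 2 i := by
    intro j hj i
    have e1 : ∑ a ∈ fib pos j, fullW Lam l (piece j) (wf j) a i 0 * u a i +
        ∑ a ∈ fib pos j, fullW Lam l (piece j) (wf j) a i 1 * u a i +
        ∑ a ∈ fib pos j, fullW Lam l (piece j) (wf j) a i 2 * u a i = ∑ a ∈ fib pos j, u a i := by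
      rw [← sum_add_distrib, ← sum_add_distrib]
      exact sum_congr rfl fun a ha => by rw [← add_mul, ← add_mul, hfsum j a ha i, one_mul]
    have := hdiff j hj i
    simp only [hGeq j hj, hMp, nom, Matrix.cons_val_zero, Matrix.cons_val_one, Fin.reduceEq,
      if_true, if_false]
    refine ⟨?_, ?_, ?_⟩ <;> linarith
  -- bounds of one block
  have hT0 : ∀ j, 0 ≤ Tm Lam u l (fib pos j) := fun j => sum_nonneg fun a _ => nuLo_nonneg Lam u l a
  have hZ0 : ∀ j, 0 ≤ Zn Lam u l (fib pos j) := fun j => ZW_nonneg Lam u l _ _ _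
  have hpot : ∀ j < n, 2 ^ 40 * Tm Lam u l (fib pos j) + Zn Lam u l (fib pos j) ≤ PhiSeq Lam l :=
    fun j hj => h.potential j hj
  have hRest : ∀ j < n, Rest Lam u l (fib pos j) (δA j) (δC j) ≤
      xi Lam l + Tm Lam u l (fib pos j) + PhiSeq Lam l / 2 ^ 98 := fun j hj =>
    rest_le Lam u _ _ _ (hrep j 0 hj).2.2.2.2.2 (hrep j 1 hj).2.2.2.2.2
  have hlo : ∀ j, ∀ a ∈ fib pos j, ∀ i, cross Lam i ≤ l →
      u' a i = if a ∈ left j then 0 else u a i := by
    intro j a ha i hi
    obtain rfl := hfib.mp ha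
    by_cases hL : a ∈ left (pos a)
    · simp [hu', cut, hZ', hL, hi]
    · simp [hu', hu, cut, hZ', hL]
  -- the new representations
  have hside : ∀ j < n, ∀ σ : Fin 4, ∃ (r' e' : Fin d → ℝ) (x' : ι → ℝ),
      (∀ i, Mp j (pnt σ) i = r' i + e' i + ∑ a, x' a * u' a i) ∧
      Hn Lam (l + 1) r' ≤ 2 ^ 40 * budget Lam (l + 1) ∧
      ∑ i, e' i ^ 2 ≤ 2 ^ 122 * budget Lam (l + 1) ∧ (∀ a, |x' a| ≤ 2 * alpha) ∧
      (∀ a, x' a ≠ 0 → pos' a = child n j (cls σ)) ∧
      Bc * ∑ a, x' a ^ 2 ≤ PhiSeq Lam (l + 1) := by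
    intro j hj σ
    obtain ⟨p0, r0, e0, -, s0, -⟩ := hrep j 0 hj
    obtain ⟨p1, r1, e1, -, s1, -⟩ := hrep j 1 hj
    have hM : ∀ i, Mp j (pnt σ) i = (shareL (pnt σ) * r j 0 i + (1 - shareL (pnt σ)) * r j 1 i) +
        (shareL (pnt σ) * e j 0 i + (1 - shareL (pnt σ)) * e j 1 i) +
        splitErr Lam u l (fib pos j) (δA j) (δC j) (piece j) (wf j) (pnt σ) i := by
      intro i
      have d0 := hdiff j hj i
      have a0 := p0 i
      have a1 := p1 i
      simp only [endp, if_true, Fin.reduceEq, if_false, ← hn, ← hu] at a0 a1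
      rw [← sum_subset (subset_univ (fib pos j)) fun a _ ha => by
        rw [not_not.mp fun hne => ha (hfib.mpr (s0 a hne)), zero_mul]] at a0
      rw [← sum_subset (subset_univ (fib pos j)) fun a _ ha => by
        rw [not_not.mp fun hne => ha (hfib.mpr (s1 a hne)), zero_mul]] at a1
      have hJ2 : pnt σ = 0 ∨ pnt σ = 1 := by omega
      rcases hJ2 with h' | h' <;> rw [h'] <;>
        simp only [hMp, splitErr, shareL, Matrix.cons_val_zero, Matrix.cons_val_one, hδA, hδC,
          sub_mul, add_mul, neg_mul, sum_sub_distrib, sum_add_distrib, sum_neg_distrib, mul_assoc,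
          ← mul_sum] <;>
        linarith
    obtain ⟨r', e', x', q1, q2, q3, q4, q5, q6⟩ := side_rep (u' := u') (hs j)
      (fun a ha hL i => by
        obtain rfl := hfib.mp ha
        simp [hu', hu, cut, hZ', hL])
      (hpot j hj) (hRest j hj) r0 r1 e0 e1 σ hM
    refine ⟨r', e', x', q1, q2, q3, q4, fun a ha => ?_, q6⟩
    obtain ⟨h1, h3⟩ := q5 a ha
    simp only [hpos', hfib.mp h1, h3]
  -- the frozen entries
  have hWbI : ∀ a i, (a, i) ∈ Zed' → ∀ y < n,
      (y = pos a ∨ (a, i) ∈ Zed ∧ w a i y ≠ 0) → y ∈ Wb a i ∧ (y + 1) % n ∈ Wb a i ∧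
        (0 ∉ Wb a i → ∀ k < n, k ∉ Wb a i → (y < k ↔ pos a < k)) := by
    intro a i _ y hy hor
    by_cases h1 : (a, i) ∈ Zed
    · have h2 : y = pos a ∨ w a i y ≠ 0 := hor.imp_right And.right
      simp only [hWb, if_pos h1]
      exact ⟨(h.inner a i h1 y hy h2).1, (h.inner a i h1 y hy h2).2,
        fun h0 k hk hkW => h.sep a i h1 h0 k hk hkW y hy h2⟩
    · obtain rfl : y = pos a := hor.elim id fun hc => absurd hc.1 h1
      simp [hWb, h1]
  have hsrc : ∀ a i, (a, i) ∈ Zed' → ∀ c, (c = pos' a ∨ push n (Fw a i) c ≠ 0) →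
      ∃ y < n, ∃ X, child n y X = c ∧ (y = pos a ∨ (a, i) ∈ Zed ∧ w a i y ≠ 0) := by
    intro a i _ c hc
    rcases hc with rfl | hc
    · exact ⟨pos a, h.pos_lt a, _, rfl, Or.inl rfl⟩
    · obtain ⟨y, hy, X, hX, hF⟩ := push_ne_zero hc
      refine ⟨y, hy, X, hX, ?_⟩
      simp only [hFw] at hF
      split_ifs at hF with h1 h2
      · exact Or.inr ⟨h1, left_ne_zero_of_mul hF⟩
      · exact Or.inl h2.2
      · exact absurd rfl hF
  have hWin : ∀ a i q, q ∈ Win' a i ↔ q < 2 * n ∧ q / 2 ∈ Wb a i := fun a i q => by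
    simp [hWin']
  refine ⟨pos', Zed', fun a i => push n (Fw a i), Win', P', ⟨fun a => ?_, fun a i ha => ?_,
    fun a i ha c => ?_, fun a i c => ?_, fun a i ha => ?_, fun a i ha c hc hor => ?_,
    fun a i ha h0 k hk hkW c hc hor => ?_, fun c hc i => ?_, fun c hc s => ?_, fun c hc => ?_,
    fun c hc => ?_, fun c hc => ?_⟩⟩
  · rw [hn2]; exact child_lt hn0 _ _
  · rcases (hZ' a i).mp ha with h1 | h1
    · have := h.zed_lo a i h1; omega
    · omega
  · have h1 : (a, i) ∉ Zed := fun hh => ha ((hZ' a i).mpr (Or.inl hh))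
    simp [push, hFw, h1, ha]
  · refine push_nonneg fun y _ X => ?_
    simp only [hFw]
    split_ifs
    · exact mul_nonneg (h.w_nonneg a i y) (by rw [nom]; split_ifs <;> norm_num)
    · exact (hs _).w_nonneg a (hfib.mpr rfl) X
    · exact le_rfl
  · rw [hn2, sum_push hn0]
    simp only [hFw]
    by_cases h1 : (a, i) ∈ Zed
    · simp only [if_pos h1, ← mul_sum, ← sum_mul, ← hn ▸ h.w_sum a i h1]
      rw [h.w_sum a i h1, one_mul]
      simp [Fin.sum_univ_three, nom]; norm_num
    · simp only [if_neg h1, ha, true_and]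
      rw [sum_eq_single_of_mem _ (mem_range.mpr (h.pos_lt a)) fun y _ hy => by simp [hy]]
      simpa using (hs _).w_sum a (hfib.mpr rfl)
  · rw [hn2] at hc ⊢
    obtain ⟨y, hy, X, rfl, hy'⟩ := hsrc a i ha c hor
    obtain ⟨m1, m2, -⟩ := hWbI a i ha y hy hy'
    obtain ⟨q1, q2⟩ := child_parent hy X
    simp only [hWin]
    exact ⟨⟨hc, by rcases q1 with q | q <;> rw [q] <;> assumption⟩,
      Nat.mod_lt _ (by omega), by rcases q2 with q | q <;> rw [q] <;> assumption⟩
  · rw [hn2] at hk hc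
    obtain ⟨y, hy, X, rfl, hy'⟩ := hsrc a i ha c hor
    obtain ⟨m1, m2, m3⟩ := hWbI a i ha y hy hy'
    obtain ⟨p1, p2, -⟩ := hWbI a i ha (pos a) (h.pos_lt a) (Or.inl rfl)
    have h0' : 0 ∉ Wb a i := fun hh => h0 ((hWin a i 0).mpr ⟨by omega, by simpa using hh⟩)
    have hk' : k / 2 ∉ Wb a i := fun hh => hkW ((hWin a i k).mpr ⟨hk, hh⟩)
    rw [child_side hy X h0' m1 m2 hk']
    simp only [hpos']
    rw [child_side (h.pos_lt a) _ h0' p1 p2 hk']
    exact m3 h0' (k / 2) (by omega) hk'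
  · rw [hn2] at hc ⊢
    rw [hpos', fib_sum (n := n) h.pos_lt piece]
    rcases push_cases hc with ⟨j, hj, rfl, hF⟩ | ⟨j, hj, j', hj', rfl, hjj, -, hF⟩
    · rw [show 2 * j + 1 + 1 = 2 * (j + 1) by ring, Nat.mul_mod_mul_left, hP'even j hj, hP'odd,
        (hMG j hj i).2.1]
      simp only [hG, hF, hu']
    · rw [Nat.mod_eq_of_lt (by omega), hP'odd, ← hjj, hP'even j' hj', hjj]
      simp only [hF, add_mul, sum_add_distrib]
      have q1 := (hMG j hj i).1
      have q2 := (hMG j' hj' i).2.2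
      rw [hjj] at q2
      simp only [hG, hu'] at q1 q2
      linarith
  · rw [hn2] at hc
    simp only [Rep, hn2]
    rcases push_cases hc with ⟨j, hj, rfl, -⟩ | ⟨j, hj, j', hj', rfl, hjj, -, -⟩
    · have hs2 : s = 0 ∨ s = 1 := by omega
      rcases hs2 with rfl | rfl
      · obtain ⟨r', e', x', h1, h2, h3, h4, h5, h6⟩ := hside j hj 1
        refine ⟨r', e', x', fun i => ?_, h2, h3, h4, fun a ha => ?_, h6⟩
        · simp only [endp, if_true, hP'odd]; exact h1 i
        · exact (h5 a ha).trans (child_one hj)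
      · obtain ⟨r', e', x', h1, h2, h3, h4, h5, h6⟩ := hside j hj 2
        refine ⟨r', e', x', fun i => ?_, h2, h3, h4, fun a ha => ?_, h6⟩
        · simp only [endp, Fin.reduceEq, if_false]
          rw [show 2 * j + 1 + 1 = 2 * (j + 1) by ring, Nat.mul_mod_mul_left, hP'even j hj]
          exact h1 i
        · exact (h5 a ha).trans (child_one hj)
    · have hs2 : s = 0 ∨ s = 1 := by omega
      rcases hs2 with rfl | rfl
      · obtain ⟨r', e', x', h1, h2, h3, h4, h5, h6⟩ := hside j' hj' 3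
        refine ⟨r', e', x', fun i => ?_, h2, h3, h4, fun a ha => ?_, h6⟩
        · simp only [endp, if_true, ← hjj, hP'even j' hj']; exact h1 i
        · rw [h5 a ha, ← hjj]; exact child_two n j'
      · obtain ⟨r', e', x', h1, h2, h3, h4, h5, h6⟩ := hside j hj 0
        refine ⟨r', e', x', fun i => ?_, h2, h3, h4, fun a ha => ?_, h6⟩
        · simp only [endp, Fin.reduceEq, if_false]
          rw [Nat.mod_eq_of_lt (by omega), hP'odd]; exact h1 i
        · exact (h5 a ha).trans (child_zero hj)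
  · rw [hn2] at hc
    have hc2 : c / 2 < n := by omega
    obtain ⟨hp, hps, hpu⟩ := pred_mod hc2
    set cp := (c / 2 + n - 1) % n with hcp
    set ρ : Fin d → ℝ := fun i => near v Zed' Win' c i - near v Zed Win (c / 2) i with hρ
    have hρb : ∀ i, 0 ≤ ρ i ∧ ρ i ≤ (∑ a ∈ left (c / 2), if cross Lam i ≤ l then |u a i| else 0) +
        ∑ a ∈ left cp, if cross Lam i ≤ l then |u a i| else 0 := by
      intro i
      have e2 : ρ i = ∑ a, if (a, i) ∉ Zed ∧ (a ∈ left (pos a) ∧ cross Lam i ≤ l) ∧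
          (c / 2 = pos a ∨ c / 2 = (pos a + 1) % n) then |v a i| else 0 := by
        simp only [hρ, near, ← sum_sub_distrib]
        refine sum_congr rfl fun a _ => ?_
        by_cases h1 : (a, i) ∈ Zed
        · have e : Wb a i = Win a i := by simp [hWb, h1]
          simp [hWin, hZ', h1, hc, e]
        · have e : Wb a i = {pos a, (pos a + 1) % n} := by simp [hWb, h1]
          simp [hWin, hZ', h1, hc, e]
      rw [e2]
      refine ⟨sum_nonneg fun a _ => by split_ifs <;> simp, ?_⟩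
      have hl : ∀ j, (∑ a ∈ left j, if cross Lam i ≤ l then |u a i| else 0) = ∑ a,
          if a ∈ left j then (if cross Lam i ≤ l then |u a i| else 0) else 0 := fun j => by simp
      rw [hl, hl, ← sum_add_distrib]
      refine sum_le_sum fun a _ => ?_
      have hnn : ∀ j, 0 ≤ if a ∈ left j then (if cross Lam i ≤ l then |u a i| else 0) else 0 :=
        fun j => by split_ifs <;> simp
      by_cases hh : (a, i) ∉ Zed ∧ (a ∈ left (pos a) ∧ cross Lam i ≤ l) ∧
          (c / 2 = pos a ∨ c / 2 = (pos a + 1) % n)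
      · rw [if_pos hh]
        obtain ⟨h1, ⟨h2, h3⟩, h4⟩ := hh
        have hval : u a i = v a i := by simp [hu, cut, h1]
        rcases h4 with h4 | h4
        · have := hnn cp
          simp only [if_pos h3, hval] at this
          rw [h4, if_pos h2, if_pos h3, hval]
          linarith
        · have := hnn (c / 2)
          simp only [if_pos h3, hval] at this
          rw [← hpu (pos a) (h.pos_lt a) h4.symm, if_pos h2, if_pos h3, hval]
          linarith
      · rw [if_neg hh]
        exact add_nonneg (hnn _) (hnn _)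
    have hρ2 := fresh_sq_le u ρ (hs (c / 2)).left_sub (hs cp).left_sub (hs (c / 2)).left_card
      (hs cp).left_card hρb
    have h1 := Hn_step Lam l (near v Zed Win (c / 2)) ρ
    simp only [hρ, add_sub_cancel] at h1
    refine h1.trans ?_
    have := h.offset (c / 2) hc2
    have hp1 := hpot (c / 2) hc2
    have hp2 := hpot cp hp
    have := hZ0 (c / 2)
    have := hZ0 cp
    have := hT0 (c / 2)
    have := hT0 cp
    have := xi_nonneg Lam l
    have := PhiSeq_nonneg Lam l
    rw [budget_succ]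
    simp only [hρ] at hρ2
    norm_num at *
    linarith
  · rw [hn2] at hc
    rw [← hu']
    have hz := zn_next_le (n := n) v h.pos_lt piece hu'v hc
    rw [← hpos'] at hz
    have ht : Tm Lam u' (l + 1) (fib pos' c) = push n (fun j X =>
        ∑ a ∈ (fib pos j).filter (fun a => piece j a = X), nuLo Lam u' (l + 1) a) c := by
      rw [Tm, hpos', fib_sum (n := n) h.pos_lt piece]
    rw [ht]
    have e' : PhiSeq Lam (l + 1) = 9 / 10 * PhiSeq Lam l + 2 ^ 190 * xi Lam l := by rw [PhiSeq]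
    rw [e']
    have hb := fun j hj X => pieces_le v (hs j) hu'v (hlo j) (hpot j hj) (hRest j hj) X
    rcases push_cases hc with ⟨j, hj, -, hF⟩ | ⟨j, hj, j', hj', -, -, -, hF⟩
    · rw [hF] at hz ⊢
      have := hb j hj 1
      simp only [if_true] at this hz
      linarith
    · rw [hF] at hz ⊢
      have := hb j hj 0
      have := hb j' hj' 2
      simp only [Fin.reduceEq, if_false] at *
      linarith
  · rw [hn2] at hc
    have e1 : ((fib pos' c).card : ℝ) = ∑ a ∈ fib pos' c, (1 : ℝ) := by simp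
    rw [e1, hpos', fib_sum (n := n) h.pos_lt piece]
    simp only [sum_const, nsmul_one]
    set N := (Fintype.card ι : ℝ)
    have hN : 0 ≤ (4 / 5 : ℝ) ^ l * N := by positivity
    rw [pow_succ]
    rcases push_cases hc with ⟨j, hj, -, hF⟩ | ⟨j, hj, j', hj', -, -, -, hF⟩ <;> rw [hF]
    · have := (hs j).card 1
      have := h.card_le j hj
      simp [nom, alpha] at *
      linarith
    · have := (hs j).card 0
      have := (hs j').card 2
      have := h.card_le j hj
      have := h.card_le j' hj'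
      simp [nom, alpha] at *
      linarith

end Vale.Agent.P262.Full
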