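import Mathlib

/-!
Weights of the coordinates at each level of the cyclic halving, and their elementary bounds.
-/

open Finset

namespace Vale.Agent.P262.Full

/-- The absolute threshold between high and low coordinates. -/
noncomputable def Bc : ℝ := 2 ^ 50

theorem Bc_eq : Bc = 2 ^ 50 := rfl

theorem Bc_pos : 0 < Bc := by rw [Bc_eq]; norm_num

theorem one_le_Bc : 1 ≤ Bc := by rw [Bc_eq]; norm_num

variable {d : ℕ} (Lam : Fin d → ℝ)

/-- The nominal mass at level `l`. -/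
noncomputable def lam (l : ℕ) (i : Fin d) : ℝ := Lam i / 2 ^ l

theorem exists_lt_Bc (i : Fin d) : ∃ l, lam Lam l i < Bc := by
  obtain ⟨l, hl⟩ := pow_unbounded_of_one_lt (Lam i / Bc) (one_lt_two (α := ℝ))
  refine ⟨l, ?_⟩
  rw [div_lt_iff₀ Bc_pos] at hl
  rw [lam, div_lt_iff₀ (by positivity)]
  linarith [mul_comm ((2:ℝ) ^ l) Bc]

open Classical in
/-- The first level at which a coordinate is low. -/
noncomputable def cross (i : Fin d) : ℕ := Nat.find (exists_lt_Bc Lam i)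

/-- The high coordinates. -/
noncomputable def hiSet (l : ℕ) : Finset (Fin d) := univ.filter fun i => l < cross Lam i

/-- The low coordinates. -/
noncomputable def loSet (l : ℕ) : Finset (Fin d) := univ.filter fun i => cross Lam i ≤ l

/-- The number of levels to the crossing. -/
noncomputable def age (l : ℕ) (i : Fin d) : ℕ :=
  if l < cross Lam i then cross Lam i - 1 - l else l - cross Lam i

/-- The residual weight. -/
noncomputable def gw (l : ℕ) (i : Fin d) : ℝ := (3/2) ^ age Lam l i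

/-- The regularised mass. -/
noncomputable def Am (l : ℕ) (i : Fin d) : ℝ := lam Lam l i + Bc / gw Lam l i

/-- The cost of an error in one coordinate. -/
noncomputable def Ww (l : ℕ) (i : Fin d) : ℝ := Bc / Am Lam l i

/-- The scale of the second moments. -/
noncomputable def sw (l : ℕ) (i : Fin d) : ℝ := (3/5) ^ age Lam l i / Bc

/-- The budget of one coordinate at one level. -/
noncomputable def xiOne (l : ℕ) (i : Fin d) : ℝ :=
  (3/4) ^ ((l - cross Lam i) + (cross Lam i - l))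

/-- The budget of a level. -/
noncomputable def xi (l : ℕ) : ℝ := ∑ i, xiOne Lam l i

/-- The accumulated inverse weights. -/
noncomputable def Ssum (l : ℕ) (i : Fin d) : ℝ := 1 + ∑ m ∈ range l, 1 / gw Lam m i

theorem mem_hiSet {l : ℕ} {i : Fin d} : i ∈ hiSet Lam l ↔ l < cross Lam i :=
  ⟨fun h => (mem_filter.mp h).2, fun h => mem_filter.mpr ⟨mem_univ _, h⟩⟩

theorem mem_loSet {l : ℕ} {i : Fin d} : i ∈ loSet Lam l ↔ cross Lam i ≤ l :=
  ⟨fun h => (mem_filter.mp h).2, fun h => mem_filter.mpr ⟨mem_univ _, h⟩⟩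

theorem sum_hi_add_lo (l : ℕ) (f : Fin d → ℝ) :
    ∑ i ∈ hiSet Lam l, f i + ∑ i ∈ loSet Lam l, f i = ∑ i, f i := by
  rw [← sum_filter_add_sum_filter_not univ (fun i => l < cross Lam i)]
  simp [hiSet, loSet, not_lt]

theorem hiSet_succ_subset (l : ℕ) : hiSet Lam (l+1) ⊆ hiSet Lam l := fun i hi =>
  (mem_hiSet Lam).mpr (by have := (mem_hiSet Lam).mp hi; omega)

theorem loSet_subset_succ (l : ℕ) : loSet Lam l ⊆ loSet Lam (l+1) := fun i hi =>
  (mem_loSet Lam).mpr (by have := (mem_loSet Lam).mp hi; omega)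

theorem lam_succ (l : ℕ) (i : Fin d) : lam Lam (l+1) i = lam Lam l i / 2 := by
  simp only [lam, pow_succ, div_div]

theorem lam_nonneg (hLam : ∀ i, 0 ≤ Lam i) (l : ℕ) (i : Fin d) : 0 ≤ lam Lam l i :=
  div_nonneg (hLam i) (by positivity)

theorem gw_pos (l : ℕ) (i : Fin d) : 0 < gw Lam l i := by rw [gw]; positivity

theorem one_le_gw (l : ℕ) (i : Fin d) : 1 ≤ gw Lam l i := one_le_pow₀ (by norm_num)

theorem sw_pos (l : ℕ) (i : Fin d) : 0 < sw Lam l i := by
  have := Bc_pos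
  rw [sw]; positivity

theorem sw_le (l : ℕ) (i : Fin d) : sw Lam l i ≤ 1 / Bc :=
  div_le_div_of_nonneg_right (pow_le_one₀ (by norm_num) (by norm_num)) Bc_pos.le

theorem Am_pos (hLam : ∀ i, 0 ≤ Lam i) (l : ℕ) (i : Fin d) : 0 < Am Lam l i :=
  add_pos_of_nonneg_of_pos (lam_nonneg Lam hLam l i) (div_pos Bc_pos (gw_pos Lam l i))

theorem Ww_pos (hLam : ∀ i, 0 ≤ Lam i) (l : ℕ) (i : Fin d) : 0 < Ww Lam l i :=
  div_pos Bc_pos (Am_pos Lam hLam l i)

theorem hi_lam_bounds {l : ℕ} {i : Fin d} (h : l < cross Lam i) :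
    Bc * 2 ^ age Lam l i ≤ lam Lam l i ∧ lam Lam l i < 2 * Bc * 2 ^ age Lam l i := by
  classical
  obtain ⟨k, hk⟩ : ∃ k, cross Lam i = l + k + 1 := ⟨cross Lam i - 1 - l, by omega⟩
  have he : age Lam l i = k := by rw [age, if_pos h, hk]; omega
  have hlow : Bc ≤ lam Lam (l + k) i :=
    not_lt.mp (Nat.find_min (exists_lt_Bc Lam i) (show l + k < cross Lam i by omega))
  have hup : lam Lam (l + k + 1) i < Bc := hk ▸ Nat.find_spec (exists_lt_Bc Lam i)
  rw [lam_succ, div_lt_iff₀ two_pos] at hup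
  have e : lam Lam (l + k) i * 2 ^ k = lam Lam l i := by
    simp only [lam, pow_add]
    field_simp
  have hp : (0:ℝ) < 2 ^ k := by positivity
  rw [he, ← e]
  exact ⟨mul_le_mul_of_nonneg_right hlow hp.le,
    mul_lt_mul_of_pos_right (by linarith) hp⟩

theorem lo_lam_lt {l : ℕ} {i : Fin d} (h : cross Lam i ≤ l) :
    lam Lam l i * 2 ^ age Lam l i < Bc := by
  classical
  have he : age Lam l i = l - cross Lam i := by rw [age, if_neg (by omega)]
  have hc : lam Lam (cross Lam i) i < Bc := Nat.find_spec (exists_lt_Bc Lam i)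
  rw [he]
  refine lt_of_eq_of_lt ?_ hc
  obtain ⟨k, hk⟩ := Nat.exists_eq_add_of_le h
  rw [hk, Nat.add_sub_cancel_left]
  simp only [lam, pow_add]
  field_simp

theorem gw_le_two_pow (l : ℕ) (i : Fin d) : gw Lam l i ≤ 2 ^ age Lam l i :=
  pow_le_pow_left₀ (by norm_num) (by norm_num) _

theorem hi_lam_ge {l : ℕ} {i : Fin d} (h : l < cross Lam i) : Bc ≤ lam Lam l i :=
  le_trans (le_mul_of_one_le_right Bc_pos.le (one_le_pow₀ one_le_two)) (hi_lam_bounds Lam h).1

theorem hi_Am {l : ℕ} {i : Fin d} (h : l < cross Lam i) :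
    lam Lam l i ≤ Am Lam l i ∧ Am Lam l i ≤ 2 * lam Lam l i ∧ Bc ≤ Am Lam l i := by
  have h1 := hi_lam_ge Lam h
  have h2 : Bc / gw Lam l i ≤ Bc := div_le_self Bc_pos.le (one_le_gw Lam l i)
  have h3 : 0 ≤ Bc / gw Lam l i := (div_pos Bc_pos (gw_pos Lam l i)).le
  refine ⟨?_, ?_, ?_⟩ <;> rw [Am] <;> linarith

theorem hi_Ww {l : ℕ} {i : Fin d} (h : l < cross Lam i) :
    Ww Lam l i ≤ 1 / 2 ^ age Lam l i := by
  rw [Ww, div_le_div_iff₀ (Bc_pos.trans_le (hi_Am Lam h).2.2) (by positivity), one_mul]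
  exact (hi_lam_bounds Lam h).1.trans (hi_Am Lam h).1

theorem hi_inv_Am {l : ℕ} {i : Fin d} (h : l < cross Lam i) :
    1 / Am Lam l i ≤ sw Lam l i := by
  have hB := Bc_pos
  refine le_trans (one_div_le_one_div_of_le (by positivity)
    ((hi_lam_bounds Lam h).1.trans (hi_Am Lam h).1)) ?_
  calc 1 / (Bc * 2 ^ age Lam l i) = (1/2) ^ age Lam l i / Bc := by
        rw [div_pow, one_pow]; field_simp
    _ ≤ sw Lam l i :=
        div_le_div_of_nonneg_right (pow_le_pow_left₀ (by norm_num) (by norm_num) _) hB.le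

theorem hi_sw_sq_lam {l : ℕ} {i : Fin d} (h : l < cross Lam i) :
    sw Lam l i ^ 2 * lam Lam l i ≤ 2 / Bc * (18/25) ^ age Lam l i := by
  have hB := Bc_pos
  refine (mul_le_mul_of_nonneg_left (hi_lam_bounds Lam h).2.le (sq_nonneg _)).trans (le_of_eq ?_)
  rw [sw, show ((18:ℝ)/25) = (3/5) ^ 2 * 2 by norm_num, mul_pow, ← pow_mul, mul_comm 2 (age Lam l i),
    pow_mul]
  field_simp

theorem sw_sq (l : ℕ) (i : Fin d) :
    sw Lam l i ^ 2 = (9/25) ^ age Lam l i / Bc ^ 2 := by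
  rw [sw, div_pow, show ((9:ℝ)/25) = (3/5) ^ 2 by norm_num, ← pow_mul, ← pow_mul, mul_comm]

theorem lo_Am {l : ℕ} {i : Fin d} (h : cross Lam i ≤ l) :
    Am Lam l i ≤ 2 * (Bc / gw Lam l i) := by
  have hp : (0:ℝ) < 2 ^ age Lam l i := by positivity
  have h1 : lam Lam l i ≤ Bc / 2 ^ age Lam l i := (le_div_iff₀ hp).mpr (lo_lam_lt Lam h).le
  have h2 : Bc / 2 ^ age Lam l i ≤ Bc / gw Lam l i :=
    div_le_div_of_nonneg_left Bc_pos.le (gw_pos Lam l i) (gw_le_two_pow Lam l i)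
  rw [Am]
  linarith

theorem Bc_div_gw_le_Am (hLam : ∀ i, 0 ≤ Lam i) (l : ℕ) (i : Fin d) :
    Bc / gw Lam l i ≤ Am Lam l i := le_add_of_nonneg_left (lam_nonneg Lam hLam l i)

theorem Ww_le_gw (hLam : ∀ i, 0 ≤ Lam i) (l : ℕ) (i : Fin d) : Ww Lam l i ≤ gw Lam l i := by
  have h := Bc_div_gw_le_Am Lam hLam l i
  rw [div_le_iff₀ (gw_pos Lam l i)] at h
  rw [Ww, div_le_iff₀ (Am_pos Lam hLam l i)]
  linarith [mul_comm (Am Lam l i) (gw Lam l i)]

theorem age_hi_succ {l : ℕ} {i : Fin d} (h : l + 1 < cross Lam i) :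
    age Lam l i = age Lam (l+1) i + 1 := by
  rw [age, age, if_pos h, if_pos (by omega)]; omega

theorem sw_succ {l : ℕ} {i : Fin d} (h : l + 1 < cross Lam i) :
    sw Lam (l+1) i = 5/3 * sw Lam l i := by
  rw [sw, sw, age_hi_succ Lam h, pow_succ]; ring

theorem gw_succ {l : ℕ} {i : Fin d} (h : cross Lam i ≤ l) :
    gw Lam (l+1) i = 3/2 * gw Lam l i := by
  have : age Lam (l+1) i = age Lam l i + 1 := by
    rw [age, age, if_neg (by omega), if_neg (by omega)]; omega
  rw [gw, gw, this, pow_succ]; ring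

theorem age_cross {l : ℕ} {i : Fin d} (h : cross Lam i = l + 1) :
    age Lam l i = 0 ∧ age Lam (l+1) i = 0 := by
  refine ⟨?_, ?_⟩ <;> rw [age, h] <;> simp

theorem xiOne_pos (l : ℕ) (i : Fin d) : 0 < xiOne Lam l i := by rw [xiOne]; positivity

theorem xi_nonneg (l : ℕ) : 0 ≤ xi Lam l := sum_nonneg fun i _ => (xiOne_pos Lam l i).le

theorem xiOne_cross {l : ℕ} {i : Fin d} (h : cross Lam i = l + 1) : xiOne Lam l i = 3/4 := by
  rw [xiOne, h]; simp

theorem hi_geom_le_xiOne {l : ℕ} {i : Fin d} (h : l < cross Lam i) {r : ℝ} (hr0 : 0 ≤ r)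
    (hr : r ≤ 3/4) : r ^ age Lam l i ≤ 4/3 * xiOne Lam l i := by
  refine (pow_le_pow_left₀ hr0 hr _).trans (le_of_eq ?_)
  rw [xiOne, age, if_pos h, show (l - cross Lam i) + (cross Lam i - l) =
    (cross Lam i - 1 - l) + 1 by omega, pow_succ]
  ring

theorem sum_range_dist (c L : ℕ) {r : ℝ} (hr0 : 0 ≤ r) (hr1 : r < 1) :
    ∑ l ∈ range L, r ^ (if l < c then c - 1 - l else l - c) ≤ 2 / (1 - r) := by
  have hgeo : ∀ n, ∑ k ∈ range n, r ^ k ≤ 1 / (1 - r) := fun n => by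
    rw [le_div_iff₀ (by linarith), mul_comm, mul_neg_geom_sum]
    linarith [pow_nonneg hr0 n]
  have hsub := sum_le_sum_of_subset_of_nonneg (f := fun l => r ^ (if l < c then c - 1 - l else l - c))
    (range_subset_range.mpr (Nat.le_add_left L c)) (fun l _ _ => pow_nonneg hr0 _)
  refine hsub.trans ?_
  rw [sum_range_add, show (2:ℝ) / (1 - r) = 1 / (1 - r) + 1 / (1 - r) by ring]
  refine add_le_add ?_ ?_
  · refine le_trans (le_of_eq ?_) (hgeo c)
    rw [← sum_range_reflect (fun k => r ^ k) c]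
    exact sum_congr rfl fun l hl => by rw [if_pos (mem_range.mp hl)]
  · refine le_trans (le_of_eq ?_) (hgeo L)
    exact sum_congr rfl fun k _ => by rw [if_neg (by omega), Nat.add_sub_cancel_left]

theorem sum_xi_le (L : ℕ) : ∑ l ∈ range L, xi Lam l ≤ 8 * d := by
  simp only [xi]
  rw [sum_comm]
  refine (sum_le_card_nsmul _ _ (8:ℝ) fun i _ => ?_).trans (le_of_eq (by simp [mul_comm]))
  refine le_trans ?_ ((sum_range_dist (cross Lam i) L (r := 3/4) (by norm_num) (by norm_num)).trans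
    (by norm_num))
  refine sum_le_sum fun l _ => ?_
  refine pow_le_pow_of_le_one (by norm_num) (by norm_num) ?_
  split_ifs <;> omega

theorem Ssum_pos (l : ℕ) (i : Fin d) : 0 < Ssum Lam l i :=
  add_pos_of_pos_of_nonneg one_pos (sum_nonneg fun m _ => (div_pos one_pos (gw_pos Lam m i)).le)

theorem Ssum_succ (l : ℕ) (i : Fin d) :
    Ssum Lam (l+1) i = Ssum Lam l i + 1 / gw Lam l i := by
  rw [Ssum, Ssum, sum_range_succ]; ring

theorem Ssum_le (l : ℕ) (i : Fin d) : Ssum Lam l i ≤ 7 := by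
  have h := (sum_range_dist (cross Lam i) l (r := (2/3 : ℝ)) (by norm_num) (by norm_num)).trans
    (show (2:ℝ) / (1 - 2/3) ≤ 6 by norm_num)
  have e : ∀ m, 1 / gw Lam m i = (2/3) ^ age Lam m i := fun m => by
    rw [gw, one_div, ← inv_pow]; norm_num
  simp only [Ssum, e, age]
  linarith

end Vale.Agent.P262.Full
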