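import Vale.Agent.P262.Full.Walk

/-!
The raw walk: the vectors left by the regressed walk are assigned up to a constant number.
-/

set_option linter.unusedSectionVars false

open Finset Filter Topology

namespace Vale.Agent.P262.Full

variable {ι : Type*} [Fintype ι] [DecidableEq ι] {d : ℕ} (Lam : Fin d → ℝ)
variable (u : ι → Fin d → ℝ) (l : ℕ) (V : Finset ι) (δA δC : ι → ℝ)
variable (ebar : Fin 2 → Fin d → ℝ) (p₁ : ι → Fin 3 → ℝ)

/-- The change of the error since the regressed walk. -/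
noncomputable def incr (p : ι → Fin 3 → ℝ) (j : Fin 2) (i : Fin d) : ℝ :=
  ferr u V δA δC p j i - ferr u V δA δC p₁ j i

/-- The weight of one vector in the raw potential. -/
noncomputable def rawW (a : ι) : ℝ := (∑ i, u a i ^ 2) / Bc + qc Lam u l a ^ 2

/-- The potential of the raw walk. -/
noncomputable def Pot2 (p : ι → Fin 3 → ℝ) : ℝ :=
  Rsq Lam u l V δA δC p + (∑ j, ∑ i, incr u V δA δC p₁ p j i ^ 2) / Bc +
    300 * ∑ a ∈ V, phi (p a) * rawW Lam u l a

/-- The bound on the potential of the raw walk. -/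
noncomputable def Pb2 : ℝ := Pb Lam u l V + 300 / Bc * (fracV V p₁).card

/-- The states of the raw walk. -/
structure State2 (p : ι → Fin 3 → ℝ) : Prop where
  simp0 : ∀ a X, 0 ≤ p a X
  simp1 : ∀ a, ∑ X, p a X = 1
  fix : ∀ a, a ∉ fracV V p₁ → p a = p₁ a
  card_eq : ∀ j, ∑ a ∈ V, p a (selX j) = ∑ a ∈ V, tgt δA δC a (selX j)
  low_eq : ∀ j, ∑ a ∈ V, p a (selX j) * nuLo Lam u l a =
    ∑ a ∈ V, tgt δA δC a (selX j) * nuLo Lam u l a
  orth : ∀ j, ∑ i, ebar j i * incr u V δA δC p₁ p j i = 0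
  pot : Pot2 Lam u l V δA δC p₁ p ≤ Pb2 Lam u l V p₁

variable (hLam : ∀ i, 0 ≤ Lam i) (hu : ∀ a, ∑ i, u a i ^ 2 ≤ 1)

include hLam hu in
theorem state2_start {x : Fin 4 → ι → ℝ} (hs : State1 Lam u l V δA δC p₁ x) :
    State2 Lam u l V δA δC ebar p₁ p₁ := by
  refine ⟨hs.simp0, hs.simp1, fun a _ => rfl, hs.card_eq, hs.low_eq,
    fun j => by simp [incr], ?_⟩
  have hB := Bc_pos
  have h := hs.pot
  rw [Pot1] at h
  have hG : 0 ≤ ∑ σ, Gside Lam u l V δA δC p₁ x σ := sum_nonneg fun σ _ =>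
    add_nonneg (sum_nonneg fun i _ => mul_nonneg (gw_pos Lam l i).le (sq_nonneg _))
      (mul_nonneg hB.le (sum_nonneg fun a _ => sq_nonneg _))
  have hW : 0 ≤ ∑ j, ∑ i, Ww Lam l i * ferr u V δA δC p₁ j i ^ 2 :=
    sum_nonneg fun j _ => sum_nonneg fun i _ => mul_nonneg (Ww_pos Lam hLam l i).le (sq_nonneg _)
  have hp : ∀ a, 0 ≤ phi (p₁ a) := fun a => phi_nonneg (hs.simp0 a) (hs.simp1 a)
  have hE : ∀ i, 0 ≤ En u V p₁ i := fun i =>
    sum_nonneg fun a _ => mul_nonneg (hp a) (sq_nonneg _)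
  have h3 : 0 ≤ ∑ i, Ww Lam l i *
      (if l < cross Lam i then min 8 (En u V p₁ i) else En u V p₁ i) :=
    sum_nonneg fun i _ => mul_nonneg (Ww_pos Lam hLam l i).le (by
      split_ifs
      · exact le_min (by norm_num) (hE i)
      · exact hE i)
  have h4 : ∑ a ∈ V, phi (p₁ a) * ((∑ i, u a i ^ 2) / Bc) ≤ ((fracV V p₁).card : ℝ) / Bc := by
    rw [← sum_subset (show fracV V p₁ ⊆ V from filter_subset _ _) fun a haV ha => ?_]
    · refine (sum_le_card_nsmul _ _ (1 / Bc) fun a _ => ?_).trans (le_of_eq ?_)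
      · exact (mul_le_of_le_one_left (div_nonneg (sum_nonneg fun i _ => sq_nonneg _) hB.le)
          (phi_le_one _)).trans (div_le_div_of_nonneg_right (hu a) hB.le)
      · rw [nsmul_eq_mul]; ring
    · obtain ⟨X, hX⟩ : ∃ X, p₁ a X = 1 := by
        by_contra hne
        push Not at hne
        exact ha (mem_filter.mpr ⟨haV, hne⟩)
      rw [phi_eq_zero (hs.simp0 a) (hs.simp1 a) hX, zero_mul]
  rw [Pot2, Pb2]
  simp only [incr, sub_self, rawW, mul_add, sum_add_distrib, ne_eq, OfNat.ofNat_ne_zero,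
    not_false_eq_true, zero_pow, sum_const_zero, zero_div]
  rw [show 300 / Bc * ((fracV V p₁).card : ℝ) = 300 * (((fracV V p₁).card : ℝ) / Bc) by ring]
  linarith

include hu in
/-- The raw walk moves while more than ten vectors are unassigned. -/
theorem raw_step {p : ι → Fin 3 → ℝ} (hs : State2 Lam u l V δA δC ebar p₁ p)
    (hn : 10 < (fracV V p).card) :
    ∃ p', State2 Lam u l V δA δC ebar p₁ p' ∧
      ∑ a ∈ V, ∑ X, p a X ^ 2 < ∑ a ∈ V, ∑ X, p' a X ^ 2 := by
  classical
  have hB := Bc_pos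
  set F := fracV V p with hF
  have hFV : F ⊆ V := filter_subset _ _
  have hF₁ : F ⊆ fracV V p₁ := by
    intro a ha
    by_contra h
    obtain ⟨haV, hne⟩ := mem_filter.mp ha
    exact h (mem_filter.mpr ⟨haV, fun X => hs.fix a h ▸ hne X⟩)
  have hex : ∀ a, ∃ e : Fin 3 → ℝ, a ∈ F → (∑ X, e X = 0 ∧ ∑ X, e X ^ 2 = 2 ∧
      (∀ X, e X ^ 2 ≤ 1) ∧ ∀ X, p a X = 0 → e X = 0) := by
    intro a
    by_cases ha : a ∈ F
    · obtain ⟨e, he⟩ := exists_dir (hs.simp0 a) (hs.simp1 a) (mem_filter.mp ha).2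
      exact ⟨e, fun _ => he⟩
    · exact ⟨0, fun h => absurd h ha⟩
  choose e he using hex
  let dP : Fin 2 → Fin d → ι → ℝ := fun j i a =>
    if a ∈ F then selS j * e a (selX j) * u a i else 0
  let dR : Fin 3 → Fin d → Fin d → ι → ℝ := fun X i k a =>
    if a ∈ F then e a X * cvec Lam u l a i * cvec Lam u l a k else 0
  let eE : ι → ℝ := fun a => if a ∈ F then (∑ X, p a X * e a X) * rawW Lam u l a else 0
  let cC : Fin 2 → ι → ℝ := fun j a => if a ∈ F then e a (selX j) else 0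
  let cT : Fin 2 → ι → ℝ := fun j a => if a ∈ F then e a (selX j) * nuLo Lam u l a else 0
  let orthF : Fin 2 → (ι → ℝ) →ₗ[ℝ] ℝ := fun j => ∑ i, ebar j i • rowL (dP j i)
  let grad : (ι → ℝ) →ₗ[ℝ] ℝ :=
    ∑ X, ∑ i, ∑ k, (2 * Rm Lam u l V δA δC p X i k) • rowL (dR X i k) +
    ∑ j, ∑ i, (2 * incr u V δA δC p₁ p j i / Bc) • rowL (dP j i) + (-600 : ℝ) • rowL eE
  let rows : (Fin 2 × Fin d) ⊕ (Fin 3 × Fin d × Fin d) → ι → ℝ :=
    Sum.elim (fun ji a => Real.sqrt (1 / Bc) * dP ji.1 ji.2 a)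
      (fun Xik a => dR Xik.1 Xik.2.1 Xik.2.2 a)
  set D : ι → ℝ := fun a => 2 * ((∑ i, u a i ^ 2) / Bc) + 3 * qc Lam u l a ^ 2
  obtain ⟨LT, hLT, hquad⟩ := exists_trace_dirs F rows D fun a ha => by
    rw [Fintype.sum_sum_type, Fintype.sum_prod_type]
    refine add_le_add ?_ ?_
    · rw [sum_comm, sum_div, mul_sum]
      refine sum_le_sum fun i _ => ?_
      simp only [rows, Sum.elim_inl, dP, if_pos ha, mul_pow,
        Real.sq_sqrt (one_div_nonneg.mpr hB.le)]
      rw [Fin.sum_univ_two]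
      have h3 : 0 ≤ u a i ^ 2 / Bc := by positivity
      simp only [selS, Matrix.cons_val_zero, Matrix.cons_val_one]
      have h4 := mul_le_mul_of_nonneg_left ((he a ha).2.2.1 (selX 0)) h3
      have h5 := mul_le_mul_of_nonneg_left ((he a ha).2.2.1 (selX 1)) h3
      ring_nf at h4 h5 ⊢
      linarith
    · simp only [Fintype.sum_prod_type, rows, Sum.elim_inr, dR, if_pos ha, mul_pow]
      have hq : qc Lam u l a ^ 2 =
          ∑ i, ∑ k, cvec Lam u l a i ^ 2 * cvec Lam u l a k ^ 2 := by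
        rw [qc, pow_two, sum_mul_sum]
      calc ∑ X, ∑ i, ∑ k, e a X ^ 2 * cvec Lam u l a i ^ 2 * cvec Lam u l a k ^ 2
          = ∑ X, e a X ^ 2 * qc Lam u l a ^ 2 := by
            simp only [hq, mul_sum, mul_assoc]
        _ ≤ ∑ _X : Fin 3, qc Lam u l a ^ 2 := sum_le_sum fun X _ =>
            mul_le_of_le_one_left (sq_nonneg _) ((he a ha).2.2.1 X)
        _ = _ := by simp
  let L : List ((ι → ℝ) →ₗ[ℝ] ℝ) :=
    [grad, rowL (cC 0), rowL (cC 1), rowL (cT 0), rowL (cT 1), orthF 0, orthF 1] ++ LT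
  have hlen : L.length < F.card := by
    simp only [L, List.length_append, List.length_cons, List.length_nil]
    omega
  obtain ⟨t, ⟨a₀, ha₀⟩, htF, htk⟩ := exists_kill F L hlen
  have haF₀ : a₀ ∈ F := by
    by_contra h; exact ha₀ (htF a₀ h)
  have hrow : ∀ (f : ι → ℝ), rowL (fun a => if a ∈ F then f a else 0) t = ∑ a ∈ V, t a * f a := by
    intro f
    rw [rowL_apply, ← sum_subset (subset_univ V) fun a _ ha => by
      rw [htF a fun h => ha (hFV h), mul_zero]]
    refine sum_congr rfl fun a _ => ?_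
    by_cases ha : a ∈ F
    · rw [if_pos ha]; ring
    · rw [if_neg ha, htF a ha]; ring
  set dp : ι → Fin 3 → ℝ := fun a X => t a * e a X
  set dv : Fin 2 → Fin d → ℝ := fun j i => rowL (dP j i) t
  have hdv : ∀ j i, dv j i = ∑ a ∈ V, t a * (selS j * e a (selX j) * u a i) := fun j i => hrow _
  have hinc : ∀ (s : ℝ) j i, incr u V δA δC p₁ (fun a X => p a X + s * dp a X) j i =
      incr u V δA δC p₁ p j i + s * dv j i := by
    intro s j i
    have : ferr u V δA δC (fun a X => p a X + s * dp a X) j i =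
        ferr u V δA δC p j i + s * dv j i := by
      rw [hdv, ferr, ferr, mul_sum, ← sum_add_distrib]
      exact sum_congr rfl fun a _ => by simp only [dp]; ring
    rw [incr, incr, this]
    ring
  have hphi : ∀ (s : ℝ) a, phi (fun X => p a X + s * dp a X) =
      phi (p a) - 2 * s * t a * (∑ X, p a X * e a X) - 2 * s ^ 2 * t a ^ 2 := by
    intro s a
    by_cases ha : a ∈ F
    · have h := phi_step (p a) (e a) (he a ha).2.1 (s * t a)
      simp only [dp, ← mul_assoc, h]
      ring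
    · simp [dp, htF a ha]
  have hP : ∀ s : ℝ, Pot2 Lam u l V δA δC p₁ (fun a X => p a X + s * dp a X) ≤
      Pot2 Lam u l V δA δC p₁ p := by
    intro s
    have hRm : ∀ X i k, Rm Lam u l V δA δC (fun a X => p a X + s * dp a X) X i k =
        Rm Lam u l V δA δC p X i k + s * rowL (dR X i k) t := by
      intro X i k
      rw [hrow, Rm, Rm, mul_sum, ← sum_add_distrib]
      exact sum_congr rfl fun a _ => by simp only [dp]; ring
    have hexp : ∀ r q : ℝ, (r + s * q) ^ 2 = r ^ 2 + s * (2 * r * q) + s ^ 2 * q ^ 2 :=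
      fun r q => by ring
    have hQ := hquad t htF fun φ hφ => htk φ (by simp [L, hφ])
    rw [Fintype.sum_sum_type, Fintype.sum_prod_type] at hQ
    simp only [rows, Sum.elim_inl, Sum.elim_inr, Fintype.sum_prod_type] at hQ
    have eW : ∀ j i, (∑ a, Real.sqrt (1 / Bc) * dP j i a * t a) ^ 2 = dv j i ^ 2 / Bc := by
      intro j i
      simp only [mul_assoc, ← mul_sum, mul_pow, Real.sq_sqrt (one_div_nonneg.mpr hB.le)]
      simp only [dv, rowL_apply]
      ring
    have eR : ∀ X i k, ∑ a, dR X i k a * t a = rowL (dR X i k) t := fun X i k =>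
      (rowL_apply _ _).symm
    simp only [eW, eR, ← sum_div] at hQ
    have hDle : ∑ a ∈ F, D a * t a ^ 2 ≤ 3 * ∑ a ∈ V, t a ^ 2 * rawW Lam u l a := by
      rw [mul_sum]
      refine (sum_le_sum fun a _ => ?_).trans (sum_le_sum_of_subset_of_nonneg hFV fun a _ _ =>
        mul_nonneg (by norm_num) (mul_nonneg (sq_nonneg _)
          (add_nonneg (by positivity) (sq_nonneg _))))
      have h0 : 0 ≤ (∑ i, u a i ^ 2) / Bc * t a ^ 2 := by positivity
      simp only [D, rawW]
      linarith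
    have hneg : (∑ X, ∑ i, ∑ k, rowL (dR X i k) t ^ 2) + (∑ j, ∑ i, dv j i ^ 2) / Bc -
        600 * ∑ a ∈ V, t a ^ 2 * rawW Lam u l a ≤ 0 := by
      have : 0 ≤ ∑ a ∈ V, t a ^ 2 * rawW Lam u l a := sum_nonneg fun a _ =>
        mul_nonneg (sq_nonneg _) (add_nonneg (by positivity) (sq_nonneg _))
      linarith
    have hlin : grad t = 0 := htk _ (by simp [L])
    have heE : rowL eE t = ∑ a ∈ V, t a * (∑ X, p a X * e a X) * rawW Lam u l a := by
      rw [hrow]; exact sum_congr rfl fun a _ => by ring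
    have hdiv : ∑ j, ∑ i, 2 * incr u V δA δC p₁ p j i / Bc * dv j i =
        (∑ j, ∑ i, 2 * incr u V δA δC p₁ p j i * dv j i) / Bc := by
      simp only [sum_div]
      exact sum_congr rfl fun j _ => sum_congr rfl fun i _ => by ring
    simp only [grad, LinearMap.add_apply, LinearMap.sum_apply, LinearMap.smul_apply, smul_eq_mul,
      heE] at hlin
    rw [show ∑ j, ∑ i, 2 * incr u V δA δC p₁ p j i / Bc * rowL (dP j i) t =
      ∑ j, ∑ i, 2 * incr u V δA δC p₁ p j i / Bc * dv j i from rfl, hdiv] at hlin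
    have hQ1 : ∑ a ∈ V, phi (fun X => p a X + s * dp a X) * rawW Lam u l a =
        ∑ a ∈ V, phi (p a) * rawW Lam u l a -
          2 * s * (∑ a ∈ V, t a * (∑ X, p a X * e a X) * rawW Lam u l a) -
          2 * s ^ 2 * ∑ a ∈ V, t a ^ 2 * rawW Lam u l a := by
      simp only [hphi, mul_sum, ← sum_sub_distrib]
      refine sum_congr rfl fun a _ => ?_
      simp only [mul_sum, sum_mul, sub_mul]
      ring_nf
    have hq2 := mul_le_mul_of_nonneg_left hneg (sq_nonneg s)
    have hl2 := congrArg (fun y => s * y) hlin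
    simp only [mul_zero] at hq2 hl2
    simp only [Pot2, Rsq, hinc, hRm, hexp, sum_add_distrib, ← mul_sum, hQ1, add_div, mul_div_assoc]
    ring_nf at hl2 hq2 ⊢
    linarith
  have hnhds : ∀ᶠ s : ℝ in 𝓝 0, ∀ a X, 0 ≤ p a X + s * dp a X := by
    rw [eventually_all]; intro a
    rw [eventually_all]; intro X
    rcases (hs.simp0 a X).eq_or_lt with h | h
    · refine Eventually.of_forall fun s => ?_
      by_cases ha : a ∈ F
      · simp [dp, (he a ha).2.2.2 X h.symm, ← h]
      · simp [dp, htF a ha, ← h]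
    · have hc : Tendsto (fun s : ℝ => p a X + s * dp a X) (𝓝 0) (𝓝 (p a X)) := by
        have : Continuous (fun s : ℝ => p a X + s * dp a X) := by fun_prop
        simpa using this.tendsto 0
      exact (hc.eventually (lt_mem_nhds h)).mono fun s hs => hs.le
  obtain ⟨r, hr, hball⟩ := Metric.eventually_nhds_iff.mp hnhds
  have hsum_dp : ∀ a, ∑ X, dp a X = 0 := fun a => by
    by_cases ha : a ∈ F
    · simp only [dp, ← mul_sum, (he a ha).1, mul_zero]
    · simp [dp, htF a ha]
  have hstate : ∀ s : ℝ, |s| < r →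
      State2 Lam u l V δA δC ebar p₁ (fun a X => p a X + s * dp a X) := by
    intro s hs'
    have hp0 := hball (y := s) (by simpa [Real.dist_eq] using hs')
    refine ⟨hp0, fun a => ?_, fun a ha => ?_, fun j => ?_, fun j => ?_, fun j => ?_,
      (hP s).trans hs.pot⟩
    · rw [sum_add_distrib, hs.simp1, ← mul_sum, hsum_dp]; ring
    · funext X
      simp [dp, htF a (fun h => ha (hF₁ h)), hs.fix a ha]
    · have h : rowL (cC j) t = 0 := htk _ (by fin_cases j <;> simp [L])
      rw [hrow] at h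
      rw [sum_add_distrib, hs.card_eq, ← mul_sum]
      simp only [dp, h, mul_zero, add_zero]
    · have h : rowL (cT j) t = 0 := htk _ (by fin_cases j <;> simp [L])
      rw [hrow] at h
      simp only [add_mul, sum_add_distrib, hs.low_eq, mul_assoc, ← mul_sum, dp]
      simp [h]
    · have h : orthF j t = 0 := htk _ (by fin_cases j <;> simp [L])
      simp only [orthF, LinearMap.sum_apply, LinearMap.smul_apply, smul_eq_mul] at h
      simp only [hinc, mul_add, sum_add_distrib, hs.orth, zero_add, mul_left_comm _ s, ← mul_sum]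
      rw [show ∑ i, ebar j i * dv j i = 0 from h, mul_zero]
  have hgain : ∀ s : ℝ, ∑ a ∈ V, ∑ X, (p a X + s * dp a X) ^ 2 = ∑ a ∈ V, ∑ X, p a X ^ 2 +
      2 * s * (∑ a ∈ V, t a * ∑ X, p a X * e a X) + 2 * s ^ 2 * ∑ a ∈ V, t a ^ 2 := by
    intro s
    simp only [mul_sum, ← sum_add_distrib]
    refine sum_congr rfl fun a _ => ?_
    by_cases ha : a ∈ F
    · have h2 := (he a ha).2.1
      rw [show 2 * s ^ 2 * t a ^ 2 = s ^ 2 * t a ^ 2 * ∑ X, e a X ^ 2 by rw [h2]; ring, mul_sum,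
        ← sum_add_distrib]
      exact sum_congr rfl fun X _ => by simp only [dp]; ring
    · simp [dp, htF a ha]
  have hpos : 0 < ∑ a ∈ V, t a ^ 2 :=
    sum_pos' (fun a _ => sq_nonneg _) ⟨a₀, hFV haF₀, by positivity⟩
  obtain ⟨s, hsr, hsgn⟩ : ∃ s : ℝ, |s| < r ∧
      0 ≤ 2 * s * (∑ a ∈ V, t a * ∑ X, p a X * e a X) ∧ s ≠ 0 := by
    rcases le_total 0 (∑ a ∈ V, t a * ∑ X, p a X * e a X) with h | h
    · exact ⟨r/2, by rw [abs_of_pos (by linarith)]; linarith, by positivity, by linarith⟩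
    · refine ⟨-(r/2), by rw [abs_neg, abs_of_pos (by linarith)]; linarith, ?_, by linarith⟩
      exact mul_nonneg_of_nonpos_of_nonpos (by linarith) h
  refine ⟨_, hstate s hsr, ?_⟩
  rw [hgain]
  have : 0 < 2 * s ^ 2 * ∑ a ∈ V, t a ^ 2 := by
    have := hsgn.2
    positivity
  linarith [hsgn.1]

include hLam hu in
/-- The raw walk ends with at most ten unassigned vectors. -/
theorem walk_two {x : Fin 4 → ι → ℝ} (hs : State1 Lam u l V δA δC p₁ x) :
    ∃ p, State2 Lam u l V δA δC ebar p₁ p ∧ (fracV V p).card ≤ 10 := by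
  classical
  set K : Set (ι → Fin 3 → ℝ) := {p | State2 Lam u l V δA δC ebar p₁ p}
  have hne : K.Nonempty := ⟨p₁, state2_start Lam u l V δA δC ebar p₁ hLam hu hs⟩
  have hi : ∀ j i, Continuous fun p : ι → Fin 3 → ℝ => incr u V δA δC p₁ p j i := by
    intro j i; unfold incr ferr; fun_prop
  have hcont : Continuous fun p : ι → Fin 3 → ℝ => Pot2 Lam u l V δA δC p₁ p := by
    have h4 : Continuous fun p : ι → Fin 3 → ℝ => Rsq Lam u l V δA δC p := by
      refine continuous_finsetSum _ fun X _ => continuous_finsetSum _ fun i _ =>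
        continuous_finsetSum _ fun k _ => ?_
      unfold Rm; fun_prop
    have h5 : Continuous fun p : ι → Fin 3 → ℝ =>
        ∑ a ∈ V, phi (p a) * rawW Lam u l a := by
      unfold phi; fun_prop
    exact (h4.add ((continuous_finsetSum _ fun j _ => continuous_finsetSum _ fun i _ =>
      (hi j i).pow 2).div_const _)).add (continuous_const.mul h5)
  have hclosed : IsClosed K := by
    have e : K = {p | ∀ a X, 0 ≤ p a X} ∩ {p | ∀ a, ∑ X, p a X = 1} ∩
        {p | ∀ a, a ∉ fracV V p₁ → p a = p₁ a} ∩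
        {p | ∀ j, ∑ a ∈ V, p a (selX j) = ∑ a ∈ V, tgt δA δC a (selX j)} ∩
        {p | ∀ j, ∑ a ∈ V, p a (selX j) * nuLo Lam u l a =
          ∑ a ∈ V, tgt δA δC a (selX j) * nuLo Lam u l a} ∩
        {p | ∀ j, ∑ i, ebar j i * incr u V δA δC p₁ p j i = 0} ∩
        {p | Pot2 Lam u l V δA δC p₁ p ≤ Pb2 Lam u l V p₁} := by
      ext p
      exact ⟨fun h => ⟨⟨⟨⟨⟨⟨h.simp0, h.simp1⟩, h.fix⟩, h.card_eq⟩, h.low_eq⟩, h.orth⟩, h.pot⟩,
        fun ⟨⟨⟨⟨⟨⟨a, b⟩, c⟩, d'⟩, e'⟩, f⟩, g⟩ => ⟨a, b, c, d', e', f, g⟩⟩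
    rw [e]
    simp only [Set.ofPred_forall]
    refine (((((IsClosed.inter ?_ ?_).inter ?_).inter ?_).inter ?_).inter ?_).inter ?_
    · exact isClosed_iInter fun a => isClosed_iInter fun X =>
        isClosed_le continuous_const (by fun_prop)
    · exact isClosed_iInter fun a => isClosed_eq (by fun_prop) continuous_const
    · exact isClosed_iInter fun a => isClosed_iInter fun _ =>
        isClosed_eq (by fun_prop) continuous_const
    · exact isClosed_iInter fun j => isClosed_eq (by fun_prop) continuous_const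
    · exact isClosed_iInter fun j => isClosed_eq (by fun_prop) continuous_const
    · exact isClosed_iInter fun j => isClosed_eq
        (continuous_finsetSum _ fun i _ => continuous_const.mul (hi j i)) continuous_const
    · exact isClosed_le hcont continuous_const
  have hcompact : IsCompact K := by
    refine (isCompact_Icc (a := (0 : ι → Fin 3 → ℝ)) (b := fun _ _ => 1)).of_isClosed_subset
      hclosed fun p hp => ⟨fun a X => hp.simp0 a X, fun a X => ?_⟩
    exact hp.simp1 a ▸ single_le_sum (fun Y _ => hp.simp0 a Y) (mem_univ X)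
  obtain ⟨p, hpK, hmax⟩ := hcompact.exists_isMaxOn hne
    (f := fun p => ∑ a ∈ V, ∑ X, p a X ^ 2) (by fun_prop)
  refine ⟨p, hpK, not_lt.mp fun hlt => ?_⟩
  obtain ⟨p', hs', hbetter⟩ := raw_step Lam u l V δA δC ebar p₁ hu hpK hlt
  have := hmax (a := p') hs'
  simp only [Set.mem_ofPred_eq] at this
  linarith

end Vale.Agent.P262.Full
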