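import Vale.Agent.P262.Full.Defs

/-!
The cyclic halving of the blocks, the windows of the frozen entries, and the state of a level.
-/

open Finset

namespace Vale.Agent.P262.Full

/-- The block receiving piece `X` of block `x` when `n` blocks become `2n`. -/
def child (n x : ℕ) (X : Fin 3) : ℕ := (2 * x + (X : ℕ)) % (2 * n)

theorem child_lt {n : ℕ} (hn : 0 < n) (x : ℕ) (X : Fin 3) : child n x X < 2 * n :=
  Nat.mod_lt _ (by omega)

theorem child_zero {n x : ℕ} (hx : x < n) : child n x 0 = 2 * x :=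
  Nat.mod_eq_of_lt (by simp only [Fin.val_zero]; omega)

theorem child_one {n x : ℕ} (hx : x < n) : child n x 1 = 2 * x + 1 :=
  Nat.mod_eq_of_lt (by simp only [Fin.val_one]; omega)

theorem child_two (n x : ℕ) : child n x 2 = 2 * ((x + 1) % n) := by
  rw [child, ← Nat.mul_mod_mul_left]
  rfl

theorem succ_mod_cases {n x : ℕ} (hx : x < n) :
    (x + 1 < n ∧ (x + 1) % n = x + 1) ∨ (x + 1 = n ∧ (x + 1) % n = 0) := by
  rcases Nat.lt_or_ge (x + 1) n with h | h
  · exact Or.inl ⟨h, Nat.mod_eq_of_lt h⟩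
  · obtain rfl : x + 1 = n := by omega
    exact Or.inr ⟨rfl, Nat.mod_self _⟩

theorem pred_mod {n m : ℕ} (hm : m < n) :
    (m + n - 1) % n < n ∧ ((m + n - 1) % n + 1) % n = m ∧
      ∀ x < n, (x + 1) % n = m → x = (m + n - 1) % n := by
  have h : (m + n - 1) % n = if m = 0 then n - 1 else m - 1 := by
    split_ifs with h0
    · subst h0; rw [Nat.zero_add]; exact Nat.mod_eq_of_lt (by omega)
    · rw [show m + n - 1 = m - 1 + n by omega, Nat.add_mod_right, Nat.mod_eq_of_lt (by omega)]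
  refine ⟨Nat.mod_lt _ (by omega), ?_, fun x hx hxm => ?_⟩
  · rw [h]
    split_ifs with h0
    · rw [Nat.sub_add_cancel (by omega), Nat.mod_self, h0]
    · rw [Nat.sub_add_cancel (by omega), Nat.mod_eq_of_lt hm]
  · rcases succ_mod_cases hx with ⟨h1, h2⟩ | ⟨h1, h2⟩ <;> rw [h] <;> split_ifs <;> omega

/-- Transport of quantities attached to the pieces to the new blocks. -/
noncomputable def push (n : ℕ) (F : ℕ → Fin 3 → ℝ) (c : ℕ) : ℝ :=
  ∑ x ∈ range n, ∑ X, if child n x X = c then F x X else 0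

theorem push_odd {n j : ℕ} (hj : j < n) (F : ℕ → Fin 3 → ℝ) : push n F (2 * j + 1) = F j 1 := by
  rw [push, sum_eq_single_of_mem j (mem_range.mpr hj) fun x hx hne => ?_]
  · simp [Fin.sum_univ_three, child_zero hj, child_one hj, child_two]
    intro h; omega
  · have hx' := mem_range.mp hx
    simp only [Fin.sum_univ_three, child_zero hx', child_one hx', child_two]
    rw [if_neg (by omega), if_neg (by omega), if_neg (by omega)]
    norm_num

theorem push_even {n j : ℕ} (hj : j < n) (F : ℕ → Fin 3 → ℝ) :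
    push n F (2 * j) = F j 0 + F ((j + n - 1) % n) 2 := by
  obtain ⟨hp, hps, hpu⟩ := pred_mod hj
  rw [push]
  simp only [Fin.sum_univ_three]
  rw [sum_add_distrib, sum_add_distrib]
  rw [sum_eq_single_of_mem j (mem_range.mpr hj) (f := fun x => if child n x 0 = _ then F x 0 else 0)
      fun x hx hne => by rw [child_zero (mem_range.mp hx), if_neg (by omega)],
    sum_eq_zero (f := fun x => if child n x 1 = _ then F x 1 else 0) fun x hx => by
      rw [child_one (mem_range.mp hx), if_neg (by omega)],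
    sum_eq_single_of_mem _ (mem_range.mpr hp) (f := fun x => if child n x 2 = _ then F x 2 else 0)
      fun x hx hne => by
        rw [child_two, if_neg]
        intro h
        exact hne (hpu x (mem_range.mp hx) (by omega))]
  rw [child_zero hj, child_two, hps, if_pos rfl, if_pos rfl, add_zero]

theorem push_cases {n c : ℕ} (hc : c < 2 * n) :
    (∃ j < n, c = 2 * j + 1 ∧ ∀ F, push n F c = F j 1) ∨
    (∃ j < n, ∃ j' < n, c = 2 * j ∧ (j' + 1) % n = j ∧ j' = (j + n - 1) % n ∧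
      ∀ F, push n F c = F j 0 + F j' 2) := by
  rcases Nat.even_or_odd' c with ⟨j, rfl | rfl⟩
  · have hj : j < n := by omega
    obtain ⟨hp, hps, -⟩ := pred_mod hj
    exact Or.inr ⟨j, hj, _, hp, rfl, hps, rfl, push_even hj⟩
  · exact Or.inl ⟨j, by omega, rfl, push_odd (by omega)⟩

theorem push_nonneg {n c : ℕ} {F : ℕ → Fin 3 → ℝ} (h : ∀ x < n, ∀ X, 0 ≤ F x X) :
    0 ≤ push n F c := by
  refine sum_nonneg fun x hx => sum_nonneg fun X _ => ?_
  split_ifs
  · exact h x (mem_range.mp hx) X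
  · exact le_rfl

theorem push_ne_zero {n c : ℕ} {F : ℕ → Fin 3 → ℝ} (h : push n F c ≠ 0) :
    ∃ x < n, ∃ X, child n x X = c ∧ F x X ≠ 0 := by
  obtain ⟨x, hx, hx'⟩ := exists_ne_zero_of_sum_ne_zero h
  obtain ⟨X, -, hX⟩ := exists_ne_zero_of_sum_ne_zero hx'
  exact ⟨x, mem_range.mp hx, X, by_contra fun hc => hX (if_neg hc),
    fun h0 => hX (by split_ifs <;> simp [h0])⟩

theorem sum_push {n : ℕ} (hn : 0 < n) (F : ℕ → Fin 3 → ℝ) :
    ∑ c ∈ range (2 * n), push n F c = ∑ x ∈ range n, ∑ X, F x X := by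
  simp only [push]
  rw [sum_comm]
  refine sum_congr rfl fun x _ => ?_
  rw [sum_comm]
  refine sum_congr rfl fun X _ => ?_
  rw [sum_ite_eq, if_pos (mem_range.mpr (child_lt hn x X))]

/-- The halves of a child, and of the block after it, are the parent and the block after it. -/
theorem child_parent {n x : ℕ} (hx : x < n) (X : Fin 3) :
    (child n x X / 2 = x ∨ child n x X / 2 = (x + 1) % n) ∧
      ((child n x X + 1) % (2 * n) / 2 = x ∨ (child n x X + 1) % (2 * n) / 2 = (x + 1) % n) := by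
  have hX : X = 0 ∨ X = 1 ∨ X = 2 := by omega
  rcases hX with rfl | rfl | rfl
  · rw [child_zero hx, Nat.mod_eq_of_lt (show 2 * x + 1 < 2 * n by omega)]
    omega
  · rw [child_one hx, show 2 * x + 1 + 1 = 2 * (x + 1) by ring, Nat.mul_mod_mul_left]
    omega
  · rw [child_two]
    have : (x + 1) % n < n := Nat.mod_lt _ (by omega)
    rw [Nat.mod_eq_of_lt (show 2 * ((x + 1) % n) + 1 < 2 * n by omega)]
    omega

/-- Children of a block inside a window stay on one side of a cut outside the window. -/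
theorem child_side {n x k : ℕ} (hx : x < n) (X : Fin 3) {s : Finset ℕ} (h0 : 0 ∉ s)
    (h1 : x ∈ s) (h2 : (x + 1) % n ∈ s) (hk : k / 2 ∉ s) : child n x X < k ↔ x < k / 2 := by
  have e1 : x ≠ k / 2 := fun h => hk (h ▸ h1)
  rcases succ_mod_cases hx with ⟨h3, h4⟩ | ⟨h3, h4⟩
  · rw [h4] at h2
    have e2 : x + 1 ≠ k / 2 := fun h => hk (h ▸ h2)
    have hX : X = 0 ∨ X = 1 ∨ X = 2 := by omega
    rcases hX with rfl | rfl | rfl
    · rw [child_zero hx]; omega
    · rw [child_one hx]; omega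
    · rw [child_two, h4]; omega
  · rw [h4] at h2
    exact absurd h2 h0

variable {d : ℕ} (Lam : Fin d → ℝ)

/-- The bound on the potential of a block. -/
noncomputable def PhiSeq : ℕ → ℝ
  | 0 => 2 ^ 40 * Bc * d
  | l + 1 => 9 / 10 * PhiSeq l + 2 ^ 190 * xi Lam l

/-- The accumulated budget. -/
noncomputable def budget (l : ℕ) : ℝ := ∑ m ∈ range l, (xi Lam m + PhiSeq Lam m)

theorem PhiSeq_nonneg : ∀ l, 0 ≤ PhiSeq Lam l
  | 0 => by have := Bc_pos; rw [PhiSeq]; positivity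
  | l + 1 => by
    have := PhiSeq_nonneg l
    have := xi_nonneg Lam l
    rw [PhiSeq]; positivity

theorem budget_nonneg (l : ℕ) : 0 ≤ budget Lam l :=
  sum_nonneg fun m _ => add_nonneg (xi_nonneg Lam m) (PhiSeq_nonneg Lam m)

theorem budget_succ (l : ℕ) :
    budget Lam (l + 1) = budget Lam l + (xi Lam l + PhiSeq Lam l) := sum_range_succ _ _

theorem budget_le (l : ℕ) : budget Lam l ≤ 2 ^ 200 * d := by
  have h : ∀ L, (∑ m ∈ range L, PhiSeq Lam m) + 10 * PhiSeq Lam L =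
      10 * PhiSeq Lam 0 + 10 * 2 ^ 190 * ∑ m ∈ range L, xi Lam m := by
    intro L
    induction L with
    | zero => simp
    | succ L ih =>
      have e : PhiSeq Lam (L + 1) = 9 / 10 * PhiSeq Lam L + 2 ^ 190 * xi Lam L := by rw [PhiSeq]
      rw [sum_range_succ, sum_range_succ, e]; linarith
  have h1 := h l
  have h2 := sum_xi_le Lam l
  have h3 := PhiSeq_nonneg Lam l
  have h4 : PhiSeq Lam 0 = 2 ^ 40 * Bc * d := by rw [PhiSeq]
  have h5 : (0 : ℝ) ≤ d := Nat.cast_nonneg d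
  rw [budget, sum_add_distrib]
  rw [Bc_eq] at h4
  norm_num at h1 h4 ⊢
  linarith

/-- The weighted size of an accumulated residual. -/
noncomputable def Hn (l : ℕ) (r : Fin d → ℝ) : ℝ := ∑ i, r i ^ 2 / Ssum Lam l i

theorem Hn_nonneg (l : ℕ) (r : Fin d → ℝ) : 0 ≤ Hn Lam l r :=
  sum_nonneg fun i _ => div_nonneg (sq_nonneg _) (Ssum_pos Lam l i).le

theorem sum_sq_le_Hn (l : ℕ) (r : Fin d → ℝ) : ∑ i, r i ^ 2 ≤ 7 * Hn Lam l r := by
  rw [Hn, mul_sum]
  refine sum_le_sum fun i _ => ?_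
  rw [mul_div_assoc', le_div_iff₀ (Ssum_pos Lam l i)]
  nlinarith [Ssum_le Lam l i, sq_nonneg (r i)]

/-- A residual of one level adds linearly. -/
theorem Hn_step (l : ℕ) (r ρ : Fin d → ℝ) :
    Hn Lam (l + 1) (fun i => r i + ρ i) ≤ Hn Lam l r + ∑ i, gw Lam l i * ρ i ^ 2 := by
  rw [Hn, Hn, ← sum_add_distrib]
  refine sum_le_sum fun i _ => ?_
  set S := Ssum Lam l i with hS
  set g := gw Lam l i with hg
  have hS0 : 0 < S := Ssum_pos Lam l i
  have hg0 : 0 < g := gw_pos Lam l i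
  rw [Ssum_succ, ← hS, ← hg, div_le_iff₀ (by positivity)]
  have e : (r i ^ 2 / S + g * ρ i ^ 2) * (S + 1 / g) - (r i + ρ i) ^ 2 =
      (r i / (S * g) - ρ i) ^ 2 * (S * g) := by
    field_simp
    ring
  have : 0 ≤ (r i / (S * g) - ρ i) ^ 2 * (S * g) := by positivity
  linarith

theorem Hn_convex (l : ℕ) (r r' : Fin d → ℝ) {θ R : ℝ} (h0 : 0 ≤ θ) (h1 : θ ≤ 1)
    (hr : Hn Lam l r ≤ R) (hr' : Hn Lam l r' ≤ R) :
    Hn Lam l (fun i => θ * r i + (1 - θ) * r' i) ≤ R := by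
  have h : Hn Lam l (fun i => θ * r i + (1 - θ) * r' i) ≤
      θ * Hn Lam l r + (1 - θ) * Hn Lam l r' := by
    rw [Hn, Hn, Hn, mul_sum, mul_sum, ← sum_add_distrib]
    refine sum_le_sum fun i _ => ?_
    rw [← mul_div_assoc, ← mul_div_assoc, ← add_div]
    refine div_le_div_of_nonneg_right ?_ (Ssum_pos Lam l i).le
    nlinarith [mul_nonneg (mul_nonneg h0 (sub_nonneg.mpr h1)) (sq_nonneg (r i - r' i))]
  nlinarith

variable {ι : Type*} [Fintype ι] [DecidableEq ι]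

/-- The vectors with the frozen entries removed. -/
def cut (v : ι → Fin d → ℝ) (Zed : Finset (ι × Fin d)) (a : ι) (i : Fin d) : ℝ :=
  if (a, i) ∈ Zed then 0 else v a i

/-- The vectors of a block. -/
def fib (pos : ι → ℕ) (q : ℕ) : Finset ι := univ.filter fun a => pos a = q

/-- The two endpoints of a block. -/
def endp (n j : ℕ) (s : Fin 2) : ℕ := if s = 0 then j else (j + 1) % n

/-- A way to write a point, seen from one of its blocks. -/
def Rep (v : ι → Fin d → ℝ) (l : ℕ) (pos : ι → ℕ) (Zed : Finset (ι × Fin d))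
    (P : ℕ → Fin d → ℝ) (j : ℕ) (s : Fin 2) (r e : Fin d → ℝ) (x : ι → ℝ) : Prop :=
  (∀ i, P (endp (2 ^ l) j s) i = r i + e i + ∑ a, x a * cut v Zed a i) ∧
    Hn Lam l r ≤ 2 ^ 40 * budget Lam l ∧ ∑ i, e i ^ 2 ≤ 2 ^ 122 * budget Lam l ∧
    (∀ a, |x a| ≤ 2 * alpha) ∧ (∀ a, x a ≠ 0 → pos a = j) ∧
    Bc * ∑ a, x a ^ 2 ≤ PhiSeq Lam l

/-- The frozen entries whose window holds a block. -/
def near (v : ι → Fin d → ℝ) (Zed : Finset (ι × Fin d)) (Win : ι → Fin d → Finset ℕ) (q : ℕ)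
    (i : Fin d) : ℝ :=
  ∑ a, if (a, i) ∈ Zed ∧ q ∈ Win a i then |v a i| else 0

/-- The state after `l` rounds of cyclic halving. -/
structure Lvl (v : ι → Fin d → ℝ) (l : ℕ) (pos : ι → ℕ) (Zed : Finset (ι × Fin d))
    (w : ι → Fin d → ℕ → ℝ) (Win : ι → Fin d → Finset ℕ) (P : ℕ → Fin d → ℝ) : Prop where
  pos_lt : ∀ a, pos a < 2 ^ l
  zed_lo : ∀ a i, (a, i) ∈ Zed → cross Lam i ≤ l
  w_zero : ∀ a i, (a, i) ∉ Zed → ∀ q, w a i q = 0
  w_nonneg : ∀ a i q, 0 ≤ w a i q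
  w_sum : ∀ a i, (a, i) ∈ Zed → ∑ q ∈ range (2 ^ l), w a i q = 1
  inner : ∀ a i, (a, i) ∈ Zed → ∀ c < 2 ^ l, c = pos a ∨ w a i c ≠ 0 →
    c ∈ Win a i ∧ (c + 1) % 2 ^ l ∈ Win a i
  sep : ∀ a i, (a, i) ∈ Zed → 0 ∉ Win a i → ∀ k < 2 ^ l, k ∉ Win a i →
    ∀ c < 2 ^ l, c = pos a ∨ w a i c ≠ 0 → (c < k ↔ pos a < k)
  diff : ∀ q < 2 ^ l, ∀ i, P ((q + 1) % 2 ^ l) i - P q i =
    ∑ a ∈ fib pos q, cut v Zed a i + ∑ a, w a i q * v a i
  reps : ∀ j < 2 ^ l, ∀ s, ∃ r e x, Rep Lam v l pos Zed P j s r e x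
  offset : ∀ q < 2 ^ l, Hn Lam l (near v Zed Win q) ≤ 2 ^ 40 * budget Lam l
  potential : ∀ q < 2 ^ l, 2 ^ 40 * Tm Lam (cut v Zed) l (fib pos q) +
    Zn Lam (cut v Zed) l (fib pos q) ≤ PhiSeq Lam l
  card_le : ∀ q < 2 ^ l, ((fib pos q).card : ℝ) ≤ (4 / 5) ^ l * Fintype.card ι + 200

/-- Every block can be split as prescribed. -/
def Splits (ι : Type*) [DecidableEq ι] {d : ℕ} (Lam : Fin d → ℝ) : Prop :=
  ∀ (l : ℕ) (u : ι → Fin d → ℝ), (∀ a, ∑ i, u a i ^ 2 ≤ 1) →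
    ∀ (V : Finset ι) (δA δC : ι → ℝ), (∀ a ∈ V, |δA a| ≤ 2 * alpha) →
      (∀ a ∈ V, |δC a| ≤ 2 * alpha) → ∀ eL eR : Fin d → ℝ,
        ∃ piece left w x e, SplitSpec Lam u l V δA δC eL eR piece left w x e

end Vale.Agent.P262.Full
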