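import Vale.Agent.P262.Full.Common

/-!
The regressed walk: all but few vectors of a block are assigned to pieces.
-/

set_option linter.unusedSectionVars false

open Finset Filter Topology

namespace Vale.Agent.P262.Full

variable {ι : Type*} [Fintype ι] [DecidableEq ι] {d : ℕ} (Lam : Fin d → ℝ)
variable (u : ι → Fin d → ℝ) (l : ℕ) (V : Finset ι) (δA δC : ι → ℝ)

/-- The residual of one side. -/
noncomputable def resid (p : ι → Fin 3 → ℝ) (x : Fin 4 → ι → ℝ) (σ : Fin 4) (i : Fin d) : ℝ :=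
  ferr u V δA δC p (pnt σ) i - ∑ a ∈ V, x σ a * u a i

/-- The regressed cost of one side. -/
noncomputable def Gside (p : ι → Fin 3 → ℝ) (x : Fin 4 → ι → ℝ) (σ : Fin 4) : ℝ :=
  ∑ i, gw Lam l i * resid u V δA δC p x σ i ^ 2 + Bc * ∑ a ∈ V, x σ a ^ 2

/-- The remaining energy of one coordinate. -/
noncomputable def En (p : ι → Fin 3 → ℝ) (i : Fin d) : ℝ := ∑ a ∈ V, phi (p a) * u a i ^ 2

/-- The potential of the regressed walk. -/
noncomputable def Pot1 (p : ι → Fin 3 → ℝ) (x : Fin 4 → ι → ℝ) : ℝ :=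
  ∑ σ, Gside Lam u l V δA δC p x σ + ∑ j, ∑ i, Ww Lam l i * ferr u V δA δC p j i ^ 2 +
    300 * ∑ i, Ww Lam l i * (if l < cross Lam i then min 8 (En u V p i) else En u V p i) +
    Rsq Lam u l V δA δC p + 300 * ∑ a ∈ V, phi (p a) * qc Lam u l a ^ 2

/-- The bound on the initial potential. -/
noncomputable def Pb : ℝ := 4000 * xi Lam l + 300 * Tm Lam u l V + Zn Lam u l V / 2 ^ 16

/-- The number of bad directions of one side, up to the number of unassigned vectors. -/
noncomputable def Kb : ℝ :=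
  4096 * (Zn Lam u l V / 2 + 816 / Bc * (∑ a ∈ V, (δA a ^ 2 + δC a ^ 2)) + 34 * Pb Lam u l V) +
    64 / Bc * (2 ^ 20 / Bc * Pb Lam u l V + Tm Lam u l V)

/-- The states of the regressed walk. -/
structure State1 (p : ι → Fin 3 → ℝ) (x : Fin 4 → ι → ℝ) : Prop where
  simp0 : ∀ a X, 0 ≤ p a X
  simp1 : ∀ a, ∑ X, p a X = 1
  box : ∀ σ a, |x σ a| ≤ alpha
  supp : ∀ σ a, x σ a = 0 ∨ (a ∈ V ∧ p a (cls σ) = 1)
  card_eq : ∀ j, ∑ a ∈ V, p a (selX j) = ∑ a ∈ V, tgt δA δC a (selX j)
  low_eq : ∀ j, ∑ a ∈ V, p a (selX j) * nuLo Lam u l a =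
    ∑ a ∈ V, tgt δA δC a (selX j) * nuLo Lam u l a
  pot : Pot1 Lam u l V δA δC p x ≤ Pb Lam u l V

/-- The vectors on which the witness of one side may move. -/
noncomputable def free1 (p : ι → Fin 3 → ℝ) (x : Fin 4 → ι → ℝ) (σ : Fin 4) : Finset ι :=
  V.filter fun a => p a (cls σ) = 1 ∧ |x σ a| < alpha

theorem Tm_nonneg : 0 ≤ Tm Lam u l V := sum_nonneg fun a _ => nuLo_nonneg Lam u l a

theorem Pb_nonneg : 0 ≤ Pb Lam u l V := by
  have h1 := xi_nonneg Lam l
  have h2 := Tm_nonneg Lam u l V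
  have h3 : 0 ≤ Zn Lam u l V := ZW_nonneg Lam u l V _ _
  rw [Pb]; positivity

theorem Kb_nonneg : 0 ≤ Kb Lam u l V δA δC := by
  have h1 := Pb_nonneg Lam u l V
  have h2 := Tm_nonneg Lam u l V
  have h3 : 0 ≤ Zn Lam u l V := ZW_nonneg Lam u l V _ _
  have := Bc_pos
  have h4 : 0 ≤ ∑ a ∈ V, (δA a ^ 2 + δC a ^ 2) :=
    sum_nonneg fun a _ => add_nonneg (sq_nonneg _) (sq_nonneg _)
  rw [Kb]; positivity

variable (hLam : ∀ i, 0 ≤ Lam i)

include hLam in
theorem pot_parts {p : ι → Fin 3 → ℝ} {x : Fin 4 → ι → ℝ}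
    (hs : State1 Lam u l V δA δC p x) :
    (∀ σ, Gside Lam u l V δA δC p x σ ≤ Pb Lam u l V) ∧
      Rsq Lam u l V δA δC p ≤ Pb Lam u l V := by
  have hG : ∀ σ, 0 ≤ Gside Lam u l V δA δC p x σ := fun σ =>
    add_nonneg (sum_nonneg fun i _ => mul_nonneg (gw_pos Lam l i).le (sq_nonneg _))
      (mul_nonneg Bc_pos.le (sum_nonneg fun a _ => sq_nonneg _))
  have hW : 0 ≤ ∑ j, ∑ i, Ww Lam l i * ferr u V δA δC p j i ^ 2 :=
    sum_nonneg fun j _ => sum_nonneg fun i _ => mul_nonneg (Ww_pos Lam hLam l i).le (sq_nonneg _)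
  have hE : ∀ i, 0 ≤ En u V p i := fun i =>
    sum_nonneg fun a _ => mul_nonneg (phi_nonneg (hs.simp0 a) (hs.simp1 a)) (sq_nonneg _)
  have h3 : 0 ≤ ∑ i, Ww Lam l i *
      (if l < cross Lam i then min 8 (En u V p i) else En u V p i) :=
    sum_nonneg fun i _ => mul_nonneg (Ww_pos Lam hLam l i).le (by
      split_ifs
      · exact le_min (by norm_num) (hE i)
      · exact hE i)
  have h4 : 0 ≤ ∑ a ∈ V, phi (p a) * qc Lam u l a ^ 2 :=
    sum_nonneg fun a _ => mul_nonneg (phi_nonneg (hs.simp0 a) (hs.simp1 a)) (sq_nonneg _)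
  have h5 : 0 ≤ Rsq Lam u l V δA δC p :=
    sum_nonneg fun X _ => sum_nonneg fun i _ => sum_nonneg fun k _ => sq_nonneg _
  have hp := hs.pot
  rw [Pot1] at hp
  refine ⟨fun σ => ?_, ?_⟩
  · have := single_le_sum (f := fun σ => Gside Lam u l V δA δC p x σ) (fun s _ => hG s) (mem_univ σ)
    linarith
  · have := sum_nonneg (s := (univ : Finset (Fin 4))) fun s _ => hG s
    linarith

variable (hu : ∀ a, ∑ i, u a i ^ 2 ≤ 1)
  (hA : ∀ a ∈ V, |δA a| ≤ 2 * alpha) (hC : ∀ a ∈ V, |δC a| ≤ 2 * alpha)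

include hLam hu hA hC in
/-- Few directions of one side are bad. -/
theorem side_dirs {p : ι → Fin 3 → ℝ} {x : Fin 4 → ι → ℝ} (hs : State1 Lam u l V δA δC p x)
    (σ : Fin 4) :
    ∃ L : List (Fin d → ℝ),
      (L.length : ℝ) ≤ Kb Lam u l V δA δC + 64 / Bc * ((fracV V p).card : ℝ) ∧
      ∀ θ : Fin d → ℝ, (∀ r ∈ L, ∑ i, r i * θ i = 0) →
        (∑ i, Am Lam l i * θ i ^ 2) / 32 ≤
          ∑ a ∈ free1 V p x σ, (∑ i, u a i * θ i) ^ 2 + ∑ i, Bc / gw Lam l i * θ i ^ 2 := by
  have hfV : free1 V p x σ ⊆ V := filter_subset _ _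
  obtain ⟨L, hL, hco⟩ := free_coercive Lam hLam u hu l hfV (fun a => p a (cls σ))
    (fun a _ => hs.simp0 a _)
    (fun a _ => hs.simp1 a ▸ single_le_sum (fun Y _ => hs.simp0 a Y) (mem_univ _))
    (fun a ha => (mem_filter.mp ha).2.1) (nom := nom (cls σ))
    (by simp only [nom]; split_ifs <;> norm_num)
  refine ⟨L, hL.trans ?_, hco⟩
  obtain ⟨hG, hR⟩ := pot_parts Lam u l V δA δC hLam hs
  have hB := Bc_pos
  have hP := Pb_nonneg Lam u l V
  have hal : alpha ^ 2 = (1:ℝ) / 2 ^ 20 := by rw [alpha]; norm_num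
  have hZ : 0 ≤ Zn Lam u l V := ZW_nonneg Lam u l V _ _
  have hZW : ZW Lam u l V (fun a => p a (cls σ)) (nom (cls σ)) ≤ Zn Lam u l V / 2 +
      816 / Bc * (∑ a ∈ V, (δA a ^ 2 + δC a ^ 2)) + 34 * Pb Lam u l V := by
    refine (ZW_piece_le Lam u hu l V δA δC hA hC p (cls σ)).trans ?_
    have h : (1 + 1/16) * nom (cls σ) ^ 2 + 17 * 2 * (128 * alpha ^ 2) ≤ 1/2 := by
      simp only [nom, alpha]; split_ifs <;> norm_num
    have := mul_le_mul_of_nonneg_right h hZ
    linarith
  set clipped := V.filter fun a => |x σ a| = alpha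
  have hclip : (clipped.card : ℝ) ≤ 2 ^ 20 / Bc * Pb Lam u l V := by
    have h1 : (clipped.card : ℝ) * (1 / 2 ^ 20) ≤ ∑ a ∈ V, x σ a ^ 2 := by
      refine le_trans ?_ (sum_le_sum_of_subset_of_nonneg (filter_subset (fun a => |x σ a| = alpha) V)
        fun a _ _ => sq_nonneg _)
      rw [← nsmul_eq_mul]
      refine card_nsmul_le_sum _ _ _ fun a ha => ?_
      rw [← sq_abs, (mem_filter.mp ha).2, hal]
    have h2 : Bc * ∑ a ∈ V, x σ a ^ 2 ≤ Pb Lam u l V :=
      le_trans (le_add_of_nonneg_left (sum_nonneg fun i _ =>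
        mul_nonneg (gw_pos Lam l i).le (sq_nonneg _))) (hG σ)
    rw [div_mul_eq_mul_div, le_div_iff₀ hB]
    have h3 := mul_le_mul_of_nonneg_left h1 hB.le
    linarith
  have hrest : ((V.filter fun a => 0 < p a (cls σ) ∧ a ∉ free1 V p x σ).card : ℝ) ≤
      ((fracV V p).card : ℝ) + clipped.card := by
    have hsub : (V.filter fun a => 0 < p a (cls σ) ∧ a ∉ free1 V p x σ) ⊆
        fracV V p ∪ clipped := by
      intro a ha
      obtain ⟨haV, hpos, hnf⟩ := mem_filter.mp ha
      by_cases h : p a (cls σ) = 1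
      · refine mem_union_right _ (mem_filter.mpr ⟨haV, le_antisymm (hs.box σ a) ?_⟩)
        by_contra hlt
        exact hnf (mem_filter.mpr ⟨haV, h, not_le.mp hlt⟩)
      · refine mem_union_left _ (mem_filter.mpr ⟨haV, fun X hX => ?_⟩)
        rcases eq_or_ne (cls σ) X with e | e
        · exact h (e ▸ hX)
        · exact hpos.ne' (eq_zero_of_eq_one (hs.simp0 a) (hs.simp1 a) hX e)
    exact_mod_cast (card_le_card hsub).trans (card_union_le _ _)
  have h64 : (0:ℝ) ≤ 64 / Bc := by positivity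
  have := mul_le_mul_of_nonneg_left (hrest.trans (add_le_add le_rfl hclip)) h64
  rw [Kb, mul_add, mul_add]
  rw [Tm]
  linarith

/-- The starting assignment. -/
noncomputable def start1 (a : ι) : Fin 3 → ℝ :=
  if a ∈ V then tgt δA δC a else ![0, 1, 0]

include hLam hu hA hC in
theorem state1_start : State1 Lam u l V δA δC (start1 V δA δC) 0 := by
  have hp : ∀ a ∈ V, start1 V δA δC a = tgt δA δC a := fun a ha => if_pos ha
  have hal : (0:ℝ) ≤ alpha ∧ alpha ≤ 1/64 := by rw [alpha]; norm_num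
  have h0 : ∀ a X, 0 ≤ start1 V δA δC a X := by
    intro a X
    rw [start1]
    split_ifs with ha
    · obtain ⟨a1, a2⟩ := abs_le.mp (hA a ha)
      obtain ⟨b1, b2⟩ := abs_le.mp (hC a ha)
      fin_cases X <;> simp [tgt] <;> linarith [hal.1, hal.2]
    · fin_cases X <;> simp
  have h1 : ∀ a, ∑ X, start1 V δA δC a X = 1 := by
    intro a
    rw [start1]
    split_ifs with ha <;> simp [tgt, Fin.sum_univ_three] <;> ring
  refine ⟨h0, h1, fun σ a => by simp [hal.1], fun σ a => Or.inl rfl,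
    fun j => sum_congr rfl fun a ha => by rw [hp a ha],
    fun j => sum_congr rfl fun a ha => by rw [hp a ha], ?_⟩
  have hf : ∀ j i, ferr u V δA δC (start1 V δA δC) j i = 0 := fun j i =>
    sum_eq_zero fun a ha => by rw [hp a ha]; simp
  have hR : Rsq Lam u l V δA δC (start1 V δA δC) = 0 :=
    sum_eq_zero fun X _ => sum_eq_zero fun i _ => sum_eq_zero fun k _ => by
      rw [sq_eq_zero_iff]
      exact sum_eq_zero fun a ha => by rw [hp a ha]; simp
  have hG : ∀ σ, Gside Lam u l V δA δC (start1 V δA δC) 0 σ = 0 := fun σ => by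
    simp [Gside, resid, hf]
  have hE : ∑ i, Ww Lam l i * (if l < cross Lam i then min 8 (En u V (start1 V δA δC) i)
      else En u V (start1 V δA δC) i) ≤ 32/3 * xi Lam l + Tm Lam u l V := by
    have hT : Tm Lam u l V = ∑ i ∈ loSet Lam l, gw Lam l i * ∑ a ∈ V, u a i ^ 2 := by
      simp only [Tm, nuLo, mul_sum]; exact sum_comm
    rw [hT, ← sum_hi_add_lo Lam l]
    refine add_le_add ?_ ?_
    · refine le_trans ?_ (mul_le_mul_of_nonneg_left (sum_le_sum_of_subset_of_nonneg
        (subset_univ (hiSet Lam l)) fun i _ _ => (xiOne_pos Lam l i).le) (by norm_num))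
      rw [mul_sum]
      refine sum_le_sum fun i hi => ?_
      have h := (mem_hiSet Lam).mp hi
      rw [if_pos h]
      have hW : Ww Lam l i ≤ 4/3 * xiOne Lam l i := by
        refine (hi_Ww Lam h).trans ?_
        rw [← one_div_pow]
        exact hi_geom_le_xiOne Lam h (by norm_num) (by norm_num)
      calc _ ≤ Ww Lam l i * 8 :=
            mul_le_mul_of_nonneg_left (min_le_left _ _) (Ww_pos Lam hLam l i).le
        _ ≤ _ := by linarith
    · refine sum_le_sum fun i hi => ?_
      have h := (mem_loSet Lam).mp hi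
      rw [if_neg (not_lt.mpr h)]
      refine mul_le_mul (Ww_le_gw Lam hLam l i) (sum_le_sum fun a _ => ?_)
        (sum_nonneg fun a _ => mul_nonneg (phi_nonneg (h0 a) (h1 a)) (sq_nonneg _))
        (gw_pos Lam l i).le
      exact mul_le_of_le_one_left (sq_nonneg _) (phi_le_one _)
  have hQ : ∑ a ∈ V, phi (start1 V δA δC a) * qc Lam u l a ^ 2 ≤
      4 / Bc * xi Lam l + Zn Lam u l V / 2 ^ 25 :=
    (sum_le_sum fun a _ => mul_le_of_le_one_left (sq_nonneg _) (phi_le_one _)).trans
      (sum_qc_sq_le Lam u hu l V)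
  have hx := xi_nonneg Lam l
  have hB : 4 / Bc * xi Lam l ≤ 1 * xi Lam l :=
    mul_le_mul_of_nonneg_right (by rw [Bc_eq]; norm_num) hx
  have hZ : 0 ≤ Zn Lam u l V := ZW_nonneg Lam u l V _ _
  rw [Pot1, Pb, hR]
  simp only [hG, hf, sum_const_zero, ne_eq, OfNat.ofNat_ne_zero, not_false_eq_true, zero_pow,
    mul_zero]
  linarith

include hLam hu hA hC in
/-- A state with many unassigned vectors can be moved to increase the squared lengths. -/
theorem walk_step {p : ι → Fin 3 → ℝ} {x : Fin 4 → ι → ℝ} (hs : State1 Lam u l V δA δC p x)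
    (hn : 11/5 * (4 * Kb Lam u l V δA δC + 5) < ((fracV V p).card : ℝ)) :
    ∃ p' x', State1 Lam u l V δA δC p' x' ∧
      ∑ a ∈ V, ∑ X, p a X ^ 2 < ∑ a ∈ V, ∑ X, p' a X ^ 2 := by
  classical
  have hB := Bc_pos
  set F := fracV V p with hF
  have hFV : F ⊆ V := filter_subset _ _
  have hex : ∀ a, ∃ e : Fin 3 → ℝ, a ∈ F → (∑ X, e X = 0 ∧ ∑ X, e X ^ 2 = 2 ∧
      (∀ X, e X ^ 2 ≤ 1) ∧ ∀ X, p a X = 0 → e X = 0) := by
    intro a
    by_cases ha : a ∈ F
    · obtain ⟨e, he⟩ := exists_dir (hs.simp0 a) (hs.simp1 a) (mem_filter.mp ha).2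
      exact ⟨e, fun _ => he⟩
    · exact ⟨0, fun h => absurd h ha⟩
  choose e he using hex
  -- movement of the assignment, the errors and the witnesses
  let dP : Fin 2 → Fin d → ι → ℝ := fun j i a =>
    if a ∈ F then selS j * e a (selX j) * u a i else 0
  let dL : Fin 2 → (ι → ℝ) →ₗ[ℝ] (Fin d → ℝ) := fun j => LinearMap.pi fun i => rowL (dP j i)
  choose θ hθ using fun σ => exists_ridge (free1 V p x σ) u (gw Lam l) (gw_pos Lam l) hB
  let zL : Fin 4 → ι → (ι → ℝ) →ₗ[ℝ] ℝ := fun σ a =>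
    if a ∈ free1 V p x σ then ∑ k, u a k • ((LinearMap.proj k).comp ((θ σ).comp (dL (pnt σ))))
    else 0
  let rL : Fin 4 → Fin d → (ι → ℝ) →ₗ[ℝ] ℝ := fun σ i =>
    (LinearMap.proj i).comp (dL (pnt σ)) - ∑ a ∈ V, u a i • zL σ a
  let frozen : Finset (Fin d) := univ.filter fun i => l < cross Lam i ∧ 8 ≤ En u V p i
  let wf : Fin d → ℝ := fun i => if i ∈ frozen then 0 else Ww Lam l i
  let eE : ι → ℝ := fun a => if a ∈ F then
    (∑ X, p a X * e a X) * (∑ i, wf i * u a i ^ 2 + qc Lam u l a ^ 2) else 0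
  let dR : Fin 3 → Fin d → Fin d → ι → ℝ := fun X i k a =>
    if a ∈ F then e a X * cvec Lam u l a i * cvec Lam u l a k else 0
  let grad : (ι → ℝ) →ₗ[ℝ] ℝ :=
    ∑ σ, (∑ i, (2 * gw Lam l i * resid u V δA δC p x σ i) • rL σ i +
      ∑ a ∈ V, (2 * Bc * x σ a) • zL σ a) +
    ∑ j, ∑ i, (2 * Ww Lam l i * ferr u V δA δC p j i) • rowL (dP j i) +
    (-600 : ℝ) • rowL eE + ∑ X, ∑ i, ∑ k, (2 * Rm Lam u l V δA δC p X i k) • rowL (dR X i k)
  let cC : Fin 2 → ι → ℝ := fun j a => if a ∈ F then e a (selX j) else 0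
  let cT : Fin 2 → ι → ℝ := fun j a => if a ∈ F then e a (selX j) * nuLo Lam u l a else 0
  let rows : (Fin 2 × Fin d) ⊕ (Fin 3 × Fin d × Fin d) → ι → ℝ :=
    Sum.elim (fun ji a => Real.sqrt (65 * wf ji.2) * dP ji.1 ji.2 a)
      (fun Xik a => dR Xik.1 Xik.2.1 Xik.2.2 a)
  have hwf : ∀ i, 0 ≤ wf i := fun i => by
    simp only [wf]; split_ifs
    · exact le_rfl
    · exact (Ww_pos Lam hLam l i).le
  set D : ι → ℝ := fun a => 130 * ∑ i, wf i * u a i ^ 2 + 3 * qc Lam u l a ^ 2
  obtain ⟨LT, hLT, hquad⟩ := exists_trace_dirs F rows D fun a ha => by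
    rw [Fintype.sum_sum_type, Fintype.sum_prod_type]
    refine add_le_add ?_ ?_
    · rw [sum_comm, mul_sum]
      refine sum_le_sum fun i _ => ?_
      simp only [rows, Sum.elim_inl, dP, if_pos ha, mul_pow,
        Real.sq_sqrt (mul_nonneg (show (0:ℝ) ≤ 65 by norm_num) (hwf i))]
      rw [Fin.sum_univ_two]
      have h1 := (he a ha).2.2.1 (selX 0)
      have h2 := (he a ha).2.2.1 (selX 1)
      have h3 : 0 ≤ wf i * u a i ^ 2 := mul_nonneg (hwf i) (sq_nonneg _)
      simp only [selS, Matrix.cons_val_zero, Matrix.cons_val_one]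
      have h4 := mul_le_mul_of_nonneg_left h1 h3
      have h5 := mul_le_mul_of_nonneg_left h2 h3
      linarith
    · rw [Fintype.sum_prod_type]
      simp only [Fintype.sum_prod_type, rows, Sum.elim_inr, dR, if_pos ha, mul_pow]
      have hq : qc Lam u l a ^ 2 =
          ∑ i, ∑ k, cvec Lam u l a i ^ 2 * cvec Lam u l a k ^ 2 := by
        rw [qc, pow_two, sum_mul_sum]
      calc ∑ X, ∑ i, ∑ k, e a X ^ 2 * cvec Lam u l a i ^ 2 * cvec Lam u l a k ^ 2
          = ∑ X, e a X ^ 2 * qc Lam u l a ^ 2 := by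
            simp only [hq, mul_sum, mul_assoc]
        _ ≤ ∑ _X : Fin 3, qc Lam u l a ^ 2 := sum_le_sum fun X _ =>
            mul_le_of_le_one_left (sq_nonneg _) ((he a ha).2.2.1 X)
        _ = _ := by simp
  choose LS hLS hco using fun σ => side_dirs Lam u l V δA δC hLam hu hA hC hs σ
  let sideF : Fin 4 → List ((ι → ℝ) →ₗ[ℝ] ℝ) := fun σ =>
    (LS σ).map fun r => (rowL r).comp ((θ σ).comp (dL (pnt σ)))
  let L : List ((ι → ℝ) →ₗ[ℝ] ℝ) :=
    [grad, rowL (cC 0), rowL (cC 1), rowL (cT 0), rowL (cT 1)] ++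
      (frozen.toList.map fun i => rowL (dP 0 i)) ++ (frozen.toList.map fun i => rowL (dP 1 i)) ++
      LT ++ sideF 0 ++ sideF 1 ++ sideF 2 ++ sideF 3
  have hfro : (frozen.card : ℝ) * 8 ≤ (F.card : ℝ) := by
    calc (frozen.card : ℝ) * 8 ≤ ∑ i ∈ frozen, En u V p i := by
          rw [← nsmul_eq_mul]
          exact card_nsmul_le_sum _ _ _ fun i hi => (mem_filter.mp hi).2.2
      _ ≤ ∑ i, En u V p i := sum_le_sum_of_subset_of_nonneg (subset_univ _) fun i _ _ =>
          sum_nonneg fun a _ => mul_nonneg (phi_nonneg (hs.simp0 a) (hs.simp1 a)) (sq_nonneg _)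
      _ ≤ (F.card : ℝ) := by
          simp only [En]
          rw [sum_comm]
          simp only [← mul_sum]
          rw [← sum_subset hFV fun a haV haF => ?_]
          · refine (sum_le_card_nsmul _ _ (1:ℝ) fun a _ => ?_).trans (le_of_eq (by simp))
            exact mul_le_one₀ (phi_le_one _) (sum_nonneg fun i _ => sq_nonneg _) (hu a)
          · obtain ⟨X, hX⟩ : ∃ X, p a X = 1 := by
              by_contra h
              push Not at h
              exact haF (mem_filter.mpr ⟨haV, h⟩)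
            rw [phi_eq_zero (hs.simp0 a) (hs.simp1 a) hX, zero_mul]
  have hlen : (L.length : ℝ) < (F.card : ℝ) := by
    have h1 : (4 * LT.length : ℝ) ≤ (F.card : ℝ) := by exact_mod_cast hLT
    have h2 : ∀ σ, ((sideF σ).length : ℝ) ≤ Kb Lam u l V δA δC + 64 / Bc * (F.card : ℝ) :=
      fun σ => by simp only [sideF, List.length_map]; exact hLS σ
    have h3 : 64 / Bc * (F.card : ℝ) ≤ 1/100 * (F.card : ℝ) :=
      mul_le_mul_of_nonneg_right (by rw [Bc_eq]; norm_num) (Nat.cast_nonneg _)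
    simp only [L, List.length_append, List.length_map, length_toList, List.length_cons,
      List.length_nil, Nat.cast_add, Nat.cast_zero, Nat.cast_one]
    have := h2 0; have := h2 1; have := h2 2; have := h2 3
    linarith [Kb_nonneg Lam u l V δA δC]
  obtain ⟨t, ⟨a₀, ha₀⟩, htF, htk⟩ := exists_kill F L (by exact_mod_cast hlen)
  have haF₀ : a₀ ∈ F := by
    by_contra h; exact ha₀ (htF a₀ h)
  -- consequences of the kernel conditions
  have hrow : ∀ (f : ι → ℝ), rowL (fun a => if a ∈ F then f a else 0) t = ∑ a ∈ V, t a * f a := by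
    intro f
    rw [rowL_apply, ← sum_subset (subset_univ V) fun a _ ha => by
      rw [htF a fun h => ha (hFV h), mul_zero]]
    refine sum_congr rfl fun a _ => ?_
    by_cases ha : a ∈ F
    · rw [if_pos ha]; ring
    · rw [if_neg ha, htF a ha]; ring
  set dp : ι → Fin 3 → ℝ := fun a X => t a * e a X
  set z : Fin 4 → ι → ℝ := fun σ a => zL σ a t
  set dv : Fin 2 → Fin d → ℝ := fun j i => rowL (dP j i) t
  have hdv : ∀ j i, dv j i = ∑ a ∈ V, t a * (selS j * e a (selX j) * u a i) := fun j i => hrow _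
  have hdLt : ∀ j, dL j t = dv j := fun j => rfl
  have hz : ∀ σ a, z σ a =
      if a ∈ free1 V p x σ then ∑ k, u a k * θ σ (dv (pnt σ)) k else 0 := by
    intro σ a
    simp only [z, zL]
    split_ifs
    · simp [LinearMap.sum_apply, hdLt]
    · rfl
  have hzsum : ∀ σ (f : ι → ℝ), ∑ a ∈ V, z σ a * f a =
      ∑ a ∈ free1 V p x σ, (∑ k, u a k * θ σ (dv (pnt σ)) k) * f a := by
    intro σ f
    simp only [hz, ite_mul, zero_mul]
    rw [sum_ite_mem, inter_eq_right.mpr (show free1 V p x σ ⊆ V from filter_subset _ _)]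
  have hfz : ∀ i ∈ frozen, ∀ j, dv j i = 0 := by
    intro i hi j
    have h0 : rowL (dP 0 i) ∈ frozen.toList.map fun i => rowL (dP 0 i) :=
      List.mem_map.mpr ⟨i, mem_toList.mpr hi, rfl⟩
    have h1 : rowL (dP 1 i) ∈ frozen.toList.map fun i => rowL (dP 1 i) :=
      List.mem_map.mpr ⟨i, mem_toList.mpr hi, rfl⟩
    fin_cases j
    · exact htk _ (by simp only [L, List.mem_append]; tauto)
    · exact htk _ (by simp only [L, List.mem_append]; tauto)
  have hside : ∀ σ, ∑ i, gw Lam l i * (rL σ i t) ^ 2 + Bc * ∑ a ∈ V, z σ a ^ 2 ≤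
      32 * ∑ i, Ww Lam l i * dv (pnt σ) i ^ 2 := by
    intro σ
    obtain ⟨hid, hen⟩ := hθ σ (dv (pnt σ))
    have e1 : ∀ i, rL σ i t =
        dv (pnt σ) i - ∑ a ∈ free1 V p x σ, (∑ k, u a k * θ σ (dv (pnt σ)) k) * u a i := by
      intro i
      rw [← hzsum σ (fun a => u a i)]
      simp only [rL, LinearMap.sub_apply, LinearMap.comp_apply, LinearMap.proj_apply,
        LinearMap.sum_apply, LinearMap.smul_apply, smul_eq_mul, hdLt]
      exact congrArg (dv (pnt σ) i - ·) (sum_congr rfl fun a _ => mul_comm _ _)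
    have e2 : ∑ a ∈ V, z σ a ^ 2 =
        ∑ a ∈ free1 V p x σ, (∑ k, u a k * θ σ (dv (pnt σ)) k) ^ 2 := by
      simp only [pow_two]
      rw [hzsum σ (z σ)]
      exact sum_congr rfl fun a ha => by rw [hz, if_pos ha]
    simp only [e1, e2, hid]
    have hzero : ∀ r ∈ LS σ, ∑ i, r i * θ σ (dv (pnt σ)) i = 0 := fun r hr => by
      have hmem : (rowL r).comp ((θ σ).comp (dL (pnt σ))) ∈ L := by
        have : (rowL r).comp ((θ σ).comp (dL (pnt σ))) ∈ sideF σ :=
          List.mem_map.mpr ⟨r, hr, rfl⟩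
        fin_cases σ <;> simp only [L, List.mem_append] <;> tauto
      have := htk _ hmem
      simpa [rowL_apply, hdLt] using this
    have hc := hco σ _ hzero
    rw [← hen] at hc
    have := pairing_le (Am_pos Lam hLam l) (show (0:ℝ) < 1/32 by norm_num)
      (le_trans (le_of_eq (by ring)) hc)
    calc Bc * ∑ i, dv (pnt σ) i * θ σ (dv (pnt σ)) i
        ≤ Bc * ((∑ i, dv (pnt σ) i ^ 2 / Am Lam l i) / (1/32)) :=
          mul_le_mul_of_nonneg_left this hB.le
      _ = _ := by
          simp only [Ww, mul_sum, sum_div]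
          exact sum_congr rfl fun i _ => by ring
  -- the potential along the line
  have hP : ∀ s : ℝ, Pot1 Lam u l V δA δC (fun a X => p a X + s * dp a X)
      (fun σ a => x σ a + s * z σ a) ≤ Pot1 Lam u l V δA δC p x := by
    intro s
    have hf : ∀ j i, ferr u V δA δC (fun a X => p a X + s * dp a X) j i =
        ferr u V δA δC p j i + s * dv j i := by
      intro j i
      rw [hdv, ferr, ferr, mul_sum, ← sum_add_distrib]
      exact sum_congr rfl fun a _ => by simp only [dp]; ring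
    have hres : ∀ σ i, resid u V δA δC (fun a X => p a X + s * dp a X)
        (fun σ a => x σ a + s * z σ a) σ i = resid u V δA δC p x σ i + s * rL σ i t := by
      intro σ i
      have e1 : rL σ i t = dv (pnt σ) i - ∑ a ∈ V, z σ a * u a i := by
        simp only [rL, LinearMap.sub_apply, LinearMap.comp_apply, LinearMap.proj_apply,
          LinearMap.sum_apply, LinearMap.smul_apply, smul_eq_mul, hdLt]
        exact congrArg (dv (pnt σ) i - ·) (sum_congr rfl fun a _ => mul_comm _ _)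
      simp only [resid, hf, e1, add_mul, sum_add_distrib, mul_assoc, ← mul_sum]
      ring
    have hG : ∀ σ, Gside Lam u l V δA δC (fun a X => p a X + s * dp a X)
        (fun σ a => x σ a + s * z σ a) σ = Gside Lam u l V δA δC p x σ +
          s * ((∑ i, (2 * gw Lam l i * resid u V δA δC p x σ i) • rL σ i +
            ∑ a ∈ V, (2 * Bc * x σ a) • zL σ a) t) +
          s ^ 2 * (∑ i, gw Lam l i * (rL σ i t) ^ 2 + Bc * ∑ a ∈ V, z σ a ^ 2) := by
      intro σ
      have e1 : ∀ g r q : ℝ, g * (r + s * q) ^ 2 =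
          g * r ^ 2 + s * (2 * g * r * q) + s ^ 2 * (g * q ^ 2) := fun g r q => by ring
      have e2 : ∀ r q : ℝ, (r + s * q) ^ 2 = r ^ 2 + s * (2 * r * q) + s ^ 2 * q ^ 2 :=
        fun r q => by ring
      have e3 : ∑ a ∈ V, 2 * Bc * x σ a * zL σ a t = Bc * ∑ a ∈ V, 2 * x σ a * z σ a := by
        rw [mul_sum]; exact sum_congr rfl fun a _ => by simp only [z]; ring
      have hs1 : ∑ i, gw Lam l i * (resid u V δA δC p x σ i + s * rL σ i t) ^ 2 =
          ∑ i, gw Lam l i * resid u V δA δC p x σ i ^ 2 +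
            s * ∑ i, 2 * gw Lam l i * resid u V δA δC p x σ i * rL σ i t +
            s ^ 2 * ∑ i, gw Lam l i * rL σ i t ^ 2 := by
        simp only [e1, mul_sum, ← sum_add_distrib]
      have hs2 : ∑ a ∈ V, (x σ a + s * z σ a) ^ 2 = ∑ a ∈ V, x σ a ^ 2 +
          s * (∑ a ∈ V, 2 * x σ a * z σ a) + s ^ 2 * ∑ a ∈ V, z σ a ^ 2 := by
        simp only [e2, mul_sum, ← sum_add_distrib]
      simp only [Gside, hres, hs1, hs2, LinearMap.add_apply, LinearMap.sum_apply,
        LinearMap.smul_apply, smul_eq_mul, e3]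
      ring
    have hphi : ∀ a, phi (fun X => p a X + s * dp a X) =
        phi (p a) - 2 * s * t a * (∑ X, p a X * e a X) - 2 * s ^ 2 * t a ^ 2 := by
      intro a
      by_cases ha : a ∈ F
      · have h := phi_step (p a) (e a) (he a ha).2.1 (s * t a)
        simp only [dp, ← mul_assoc, h]
        ring
      · simp [dp, htF a ha]
    have hEn : ∀ i, En u V (fun a X => p a X + s * dp a X) i = En u V p i -
        2 * s * (∑ a ∈ V, t a * (∑ X, p a X * e a X) * u a i ^ 2) -
        2 * s ^ 2 * ∑ a ∈ V, t a ^ 2 * u a i ^ 2 := by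
      intro i
      simp only [En, hphi, mul_sum, ← sum_sub_distrib]
      refine sum_congr rfl fun a _ => ?_
      simp only [mul_sum, sum_mul, sub_mul]
      ring_nf
    have hEterm : ∀ i, Ww Lam l i * (if l < cross Lam i then
          min 8 (En u V (fun a X => p a X + s * dp a X) i)
          else En u V (fun a X => p a X + s * dp a X) i) ≤
        Ww Lam l i * (if l < cross Lam i then min 8 (En u V p i) else En u V p i) -
          2 * s * (∑ a ∈ V, t a * (∑ X, p a X * e a X) * (wf i * u a i ^ 2)) -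
          2 * s ^ 2 * ∑ a ∈ V, t a ^ 2 * (wf i * u a i ^ 2) := by
      intro i
      by_cases hfr : i ∈ frozen
      · obtain ⟨-, hc, h8⟩ := mem_filter.mp hfr
        simp only [wf, if_pos hfr, if_pos hc, zero_mul, mul_zero, sum_const_zero, sub_zero,
          min_eq_left h8]
        exact mul_le_mul_of_nonneg_left (min_le_left _ _) (Ww_pos Lam hLam l i).le
      · have e1 : (if l < cross Lam i then min 8 (En u V p i) else En u V p i) = En u V p i := by
          split_ifs with hc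
          · refine min_eq_right ?_
            by_contra h8
            exact hfr (mem_filter.mpr ⟨mem_univ _, hc, (not_le.mp h8).le⟩)
          · rfl
        have e2 : ∀ y : ℝ, (if l < cross Lam i then min 8 y else y) ≤ y := fun y => by
          split_ifs
          · exact min_le_right _ _
          · exact le_rfl
        refine (mul_le_mul_of_nonneg_left (e2 _) (Ww_pos Lam hLam l i).le).trans (le_of_eq ?_)
        simp only [e1, hEn, wf, if_neg hfr, mul_sub, mul_sum]
        congr 1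
        · congr 1
          exact sum_congr rfl fun a _ => by ring
        · exact sum_congr rfl fun a _ => by ring
    have hRm : ∀ X i k, Rm Lam u l V δA δC (fun a X => p a X + s * dp a X) X i k =
        Rm Lam u l V δA δC p X i k + s * rowL (dR X i k) t := by
      intro X i k
      rw [hrow, Rm, Rm, mul_sum, ← sum_add_distrib]
      exact sum_congr rfl fun a _ => by simp only [dp]; ring
    have hQ := hquad t htF fun φ hφ => htk φ (by simp [L, hφ])
    rw [Fintype.sum_sum_type, Fintype.sum_prod_type] at hQ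
    simp only [rows, Sum.elim_inl, Sum.elim_inr, Fintype.sum_prod_type] at hQ
    have eW : ∀ j i, (∑ a, Real.sqrt (65 * wf i) * dP j i a * t a) ^ 2 =
        65 * (Ww Lam l i * dv j i ^ 2) := by
      intro j i
      simp only [mul_assoc, ← mul_sum, mul_pow, Real.sq_sqrt (mul_nonneg (by norm_num : (0:ℝ) ≤ 65)
        (hwf i))]
      simp only [dv, rowL_apply, wf]
      split_ifs with h
      · have := hfz i h j
        simp only [dv, rowL_apply] at this
        simp [this]
      · ring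
    have eR : ∀ X i k, ∑ a, dR X i k a * t a = rowL (dR X i k) t := fun X i k =>
      (rowL_apply _ _).symm
    simp only [eW, eR, ← mul_sum] at hQ
    have hlin : grad t = 0 := htk _ (by simp [L])
    have hsides : ∑ σ, (∑ i, gw Lam l i * (rL σ i t) ^ 2 + Bc * ∑ a ∈ V, z σ a ^ 2) ≤
        64 * ∑ j, ∑ i, Ww Lam l i * dv j i ^ 2 := by
      refine (sum_le_sum fun σ _ => hside σ).trans (le_of_eq ?_)
      rw [Fin.sum_univ_four, Fin.sum_univ_two, show pnt 0 = 0 from rfl, show pnt 1 = 0 from rfl,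
        show pnt 2 = 1 from rfl, show pnt 3 = 1 from rfl]
      ring
    -- the quadratic part is not positive
    have hDt : ∑ a ∈ F, D a * t a ^ 2 =
        130 * (∑ i, ∑ a ∈ V, t a ^ 2 * (wf i * u a i ^ 2)) +
          3 * ∑ a ∈ V, t a ^ 2 * qc Lam u l a ^ 2 := by
      rw [sum_comm, ← sum_subset hFV fun a _ ha => by simp [htF a ha],
        ← sum_subset hFV fun a _ ha => by simp [htF a ha], mul_sum, mul_sum, ← sum_add_distrib]
      refine sum_congr rfl fun a _ => ?_
      rw [← mul_sum]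
      simp only [D]
      ring
    rw [hDt] at hQ
    have hpW : 0 ≤ ∑ i, ∑ a ∈ V, t a ^ 2 * (wf i * u a i ^ 2) :=
      sum_nonneg fun i _ => sum_nonneg fun a _ =>
        mul_nonneg (sq_nonneg _) (mul_nonneg (hwf i) (sq_nonneg _))
    have hpq : 0 ≤ ∑ a ∈ V, t a ^ 2 * qc Lam u l a ^ 2 :=
      sum_nonneg fun a _ => mul_nonneg (sq_nonneg _) (sq_nonneg _)
    have hquadneg : ∑ σ, (∑ i, gw Lam l i * (rL σ i t) ^ 2 + Bc * ∑ a ∈ V, z σ a ^ 2) +
        ∑ j, ∑ i, Ww Lam l i * dv j i ^ 2 + ∑ X, ∑ i, ∑ k, rowL (dR X i k) t ^ 2 -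
        600 * (∑ i, ∑ a ∈ V, t a ^ 2 * (wf i * u a i ^ 2) +
          ∑ a ∈ V, t a ^ 2 * qc Lam u l a ^ 2) ≤ 0 := by
      linarith
    -- the linear part vanishes
    have hE1 := sum_le_sum (s := univ) fun i _ => hEterm i
    simp only [sum_sub_distrib, ← mul_sum] at hE1
    have hQ1 : ∑ a ∈ V, phi (fun X => p a X + s * dp a X) * qc Lam u l a ^ 2 =
        ∑ a ∈ V, phi (p a) * qc Lam u l a ^ 2 -
          2 * s * (∑ a ∈ V, t a * (∑ X, p a X * e a X) * qc Lam u l a ^ 2) -
          2 * s ^ 2 * ∑ a ∈ V, t a ^ 2 * qc Lam u l a ^ 2 := by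
      simp only [hphi, mul_sum, ← sum_sub_distrib]
      refine sum_congr rfl fun a _ => ?_
      simp only [mul_sum, sum_mul, sub_mul]
      ring_nf
    have hsum_eE : rowL eE t = ∑ i, ∑ a ∈ V, t a * (∑ X, p a X * e a X) * (wf i * u a i ^ 2) +
        ∑ a ∈ V, t a * (∑ X, p a X * e a X) * qc Lam u l a ^ 2 := by
      rw [hrow, sum_comm, ← sum_add_distrib]
      refine sum_congr rfl fun a _ => ?_
      rw [← mul_sum]
      ring
    have hWexp : ∀ j i, Ww Lam l i * (ferr u V δA δC p j i + s * dv j i) ^ 2 =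
        Ww Lam l i * ferr u V δA δC p j i ^ 2 +
          s * (2 * Ww Lam l i * ferr u V δA δC p j i * dv j i) +
          s ^ 2 * (Ww Lam l i * dv j i ^ 2) := fun j i => by ring
    have hWsum : ∑ j, ∑ i, Ww Lam l i * (ferr u V δA δC p j i + s * dv j i) ^ 2 =
        ∑ j, ∑ i, Ww Lam l i * ferr u V δA δC p j i ^ 2 +
          s * (∑ j, ∑ i, 2 * Ww Lam l i * ferr u V δA δC p j i * dv j i) +
          s ^ 2 * ∑ j, ∑ i, Ww Lam l i * dv j i ^ 2 := by
      simp only [hWexp, mul_sum, ← sum_add_distrib]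
    have hRexp : ∀ r q : ℝ, (r + s * q) ^ 2 = r ^ 2 + s * (2 * r * q) + s ^ 2 * q ^ 2 :=
      fun r q => by ring
    have hGsum := sum_congr (s₁ := (univ : Finset (Fin 4))) rfl fun σ _ => hG σ
    simp only [sum_add_distrib, ← mul_sum] at hGsum hquadneg
    simp only [Pot1, Rsq, hf, hRm]
    rw [hWsum]
    simp only [hRexp, sum_add_distrib, ← mul_sum, hGsum, hQ1]
    have hlin' : (∑ σ, (∑ i, (2 * gw Lam l i * resid u V δA δC p x σ i) • rL σ i +
          ∑ a ∈ V, (2 * Bc * x σ a) • zL σ a) t) +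
        (∑ j, ∑ i, 2 * Ww Lam l i * ferr u V δA δC p j i * dv j i) +
        -600 * rowL eE t +
        (∑ X, ∑ i, ∑ k, 2 * Rm Lam u l V δA δC p X i k * rowL (dR X i k) t) = 0 := by
      rw [← hlin]
      simp only [grad, dv, LinearMap.add_apply, LinearMap.sum_apply, LinearMap.smul_apply,
        smul_eq_mul]
    rw [hsum_eE] at hlin'
    have hq2 := mul_le_mul_of_nonneg_left hquadneg (sq_nonneg s)
    have hl2 := congrArg (fun y => s * y) hlin'
    simp only [mul_zero] at hq2 hl2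
    nlinarith [hE1, hq2, hl2]
  -- small steps stay feasible
  have hnhds : ∀ᶠ s : ℝ in 𝓝 0, (∀ a X, 0 ≤ p a X + s * dp a X) ∧
      (∀ σ a, |x σ a + s * z σ a| ≤ alpha) := by
    refine Filter.Eventually.and ?_ ?_
    · rw [eventually_all]; intro a
      rw [eventually_all]; intro X
      rcases (hs.simp0 a X).eq_or_lt with h | h
      · refine Eventually.of_forall fun s => ?_
        by_cases ha : a ∈ F
        · simp [dp, (he a ha).2.2.2 X h.symm, ← h]
        · simp [dp, htF a ha, ← h]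
      · have hc : Tendsto (fun s : ℝ => p a X + s * dp a X) (𝓝 0) (𝓝 (p a X)) := by
          have : Continuous (fun s : ℝ => p a X + s * dp a X) := by fun_prop
          simpa using this.tendsto 0
        exact (hc.eventually (lt_mem_nhds h)).mono fun s hs => hs.le
    · rw [eventually_all]; intro σ
      rw [eventually_all]; intro a
      by_cases hf : a ∈ free1 V p x σ
      · have hc : Tendsto (fun s : ℝ => |x σ a + s * z σ a|) (𝓝 0) (𝓝 |x σ a|) := by
          have : Continuous (fun s : ℝ => |x σ a + s * z σ a|) := by fun_prop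
          simpa using this.tendsto 0
        exact (hc.eventually (gt_mem_nhds (mem_filter.mp hf).2.2)).mono fun s hs => hs.le
      · refine Eventually.of_forall fun s => ?_
        rw [hz, if_neg hf, mul_zero, add_zero]
        exact hs.box σ a
  obtain ⟨r, hr, hball⟩ := Metric.eventually_nhds_iff.mp hnhds
  have hsum_dp : ∀ a, ∑ X, dp a X = 0 := fun a => by
    by_cases ha : a ∈ F
    · simp only [dp, ← mul_sum, (he a ha).1, mul_zero]
    · simp [dp, htF a ha]
  have hstate : ∀ s : ℝ, |s| < r → State1 Lam u l V δA δC (fun a X => p a X + s * dp a X)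
      (fun σ a => x σ a + s * z σ a) := by
    intro s hs'
    obtain ⟨hp0, hbox⟩ := hball (y := s) (by simpa [Real.dist_eq] using hs')
    refine ⟨hp0, fun a => ?_, hbox, fun σ a => ?_, fun j => ?_, fun j => ?_, (hP s).trans hs.pot⟩
    · rw [sum_add_distrib, hs.simp1, ← mul_sum, hsum_dp]; ring
    · by_cases hf : a ∈ free1 V p x σ
      · obtain ⟨haV, hp1, -⟩ := mem_filter.mp hf
        refine Or.inr ⟨haV, ?_⟩
        have : a ∉ F := fun h => (mem_filter.mp h).2 _ hp1
        simp [dp, htF a this, hp1]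
      · rcases hs.supp σ a with h | ⟨haV, hp1⟩
        · exact Or.inl (by rw [hz, if_neg hf, mul_zero, add_zero, h])
        · refine Or.inr ⟨haV, ?_⟩
          have : a ∉ F := fun h => (mem_filter.mp h).2 _ hp1
          simp [dp, htF a this, hp1]
    · have h : rowL (cC j) t = 0 := htk _ (by fin_cases j <;> simp [L])
      rw [hrow] at h
      rw [sum_add_distrib, hs.card_eq, ← mul_sum]
      simp only [dp, h, mul_zero, add_zero]
    · have h : rowL (cT j) t = 0 := htk _ (by fin_cases j <;> simp [L])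
      rw [hrow] at h
      simp only [add_mul, sum_add_distrib, hs.low_eq, mul_assoc, ← mul_sum, dp]
      simp [h]
  have hgain : ∀ s : ℝ, ∑ a ∈ V, ∑ X, (p a X + s * dp a X) ^ 2 = ∑ a ∈ V, ∑ X, p a X ^ 2 +
      2 * s * (∑ a ∈ V, t a * ∑ X, p a X * e a X) + 2 * s ^ 2 * ∑ a ∈ V, t a ^ 2 := by
    intro s
    simp only [mul_sum, ← sum_add_distrib]
    refine sum_congr rfl fun a _ => ?_
    by_cases ha : a ∈ F
    · have h2 := (he a ha).2.1
      rw [show 2 * s ^ 2 * t a ^ 2 = s ^ 2 * t a ^ 2 * ∑ X, e a X ^ 2 by rw [h2]; ring, mul_sum,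
        ← sum_add_distrib]
      exact sum_congr rfl fun X _ => by simp only [dp]; ring
    · simp [dp, htF a ha]
  have hpos : 0 < ∑ a ∈ V, t a ^ 2 :=
    sum_pos' (fun a _ => sq_nonneg _) ⟨a₀, hFV haF₀, by positivity⟩
  obtain ⟨s, hsr, hsgn⟩ : ∃ s : ℝ, |s| < r ∧
      0 ≤ 2 * s * (∑ a ∈ V, t a * ∑ X, p a X * e a X) ∧ s ≠ 0 := by
    rcases le_total 0 (∑ a ∈ V, t a * ∑ X, p a X * e a X) with h | h
    · exact ⟨r/2, by rw [abs_of_pos (by linarith)]; linarith, by positivity, by linarith⟩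
    · refine ⟨-(r/2), by rw [abs_neg, abs_of_pos (by linarith)]; linarith, ?_, by linarith⟩
      exact mul_nonneg_of_nonpos_of_nonpos (by linarith) h
  refine ⟨_, _, hstate s hsr, ?_⟩
  rw [hgain]
  have : 0 < 2 * s ^ 2 * ∑ a ∈ V, t a ^ 2 := by
    have := hsgn.2
    positivity
  linarith [hsgn.1]

include hLam hu hA hC in
/-- The regressed walk ends with few unassigned vectors. -/
theorem walk_one : ∃ p x, State1 Lam u l V δA δC p x ∧
    ((fracV V p).card : ℝ) ≤ 11/5 * (4 * Kb Lam u l V δA δC + 5) := by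
  classical
  set K : Set ((ι → Fin 3 → ℝ) × (Fin 4 → ι → ℝ)) := {s | State1 Lam u l V δA δC s.1 s.2}
  have hne : K.Nonempty := ⟨(start1 V δA δC, 0), state1_start Lam u l V δA δC hLam hu hA hC⟩
  have hcont : Continuous fun s : (ι → Fin 3 → ℝ) × (Fin 4 → ι → ℝ) =>
      Pot1 Lam u l V δA δC s.1 s.2 := by
    have h1 : ∀ i, Continuous fun s : (ι → Fin 3 → ℝ) × (Fin 4 → ι → ℝ) => En u V s.1 i := by
      intro i; unfold En phi; fun_prop
    have h2 : ∀ j i, Continuous fun s : (ι → Fin 3 → ℝ) × (Fin 4 → ι → ℝ) =>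
        ferr u V δA δC s.1 j i := by
      intro j i; unfold ferr; fun_prop
    have h3 : ∀ σ, Continuous fun s : (ι → Fin 3 → ℝ) × (Fin 4 → ι → ℝ) =>
        Gside Lam u l V δA δC s.1 s.2 σ := by
      intro σ; unfold Gside resid; fun_prop
    have h4 : Continuous fun s : (ι → Fin 3 → ℝ) × (Fin 4 → ι → ℝ) =>
        Rsq Lam u l V δA δC s.1 := by
      refine continuous_finsetSum _ fun X _ => continuous_finsetSum _ fun i _ =>
        continuous_finsetSum _ fun k _ => ?_
      unfold Rm; fun_prop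
    have h5 : Continuous fun s : (ι → Fin 3 → ℝ) × (Fin 4 → ι → ℝ) =>
        ∑ a ∈ V, phi (s.1 a) * qc Lam u l a ^ 2 := by
      unfold phi; fun_prop
    refine ((((continuous_finsetSum _ fun σ _ => h3 σ).add (continuous_finsetSum _ fun j _ =>
      continuous_finsetSum _ fun i _ => continuous_const.mul ((h2 j i).pow 2))).add
      (continuous_const.mul (continuous_finsetSum _ fun i _ => continuous_const.mul ?_))).add
      h4).add (continuous_const.mul h5)
    by_cases h : l < cross Lam i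
    · simp only [if_pos h]; exact continuous_const.min (h1 i)
    · simp only [if_neg h]; exact h1 i
  have hclosed : IsClosed K := by
    have e : K = {s | ∀ a X, 0 ≤ s.1 a X} ∩ {s | ∀ a, ∑ X, s.1 a X = 1} ∩
        {s | ∀ σ a, |s.2 σ a| ≤ alpha} ∩
        {s | ∀ σ a, s.2 σ a = 0 ∨ (a ∈ V ∧ s.1 a (cls σ) = 1)} ∩
        {s | ∀ j, ∑ a ∈ V, s.1 a (selX j) = ∑ a ∈ V, tgt δA δC a (selX j)} ∩
        {s | ∀ j, ∑ a ∈ V, s.1 a (selX j) * nuLo Lam u l a =
          ∑ a ∈ V, tgt δA δC a (selX j) * nuLo Lam u l a} ∩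
        {s | Pot1 Lam u l V δA δC s.1 s.2 ≤ Pb Lam u l V} := by
      ext s
      exact ⟨fun h => ⟨⟨⟨⟨⟨⟨h.simp0, h.simp1⟩, h.box⟩, h.supp⟩, h.card_eq⟩, h.low_eq⟩, h.pot⟩,
        fun ⟨⟨⟨⟨⟨⟨a, b⟩, c⟩, d'⟩, e'⟩, f⟩, g⟩ => ⟨a, b, c, d', e', f, g⟩⟩
    rw [e]
    simp only [Set.ofPred_forall]
    refine (((((IsClosed.inter ?_ ?_).inter ?_).inter ?_).inter ?_).inter ?_).inter ?_
    · exact isClosed_iInter fun a => isClosed_iInter fun X =>
        isClosed_le continuous_const (by fun_prop)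
    · exact isClosed_iInter fun a => isClosed_eq (by fun_prop) continuous_const
    · exact isClosed_iInter fun σ => isClosed_iInter fun a =>
        isClosed_le (by fun_prop) continuous_const
    · refine isClosed_iInter fun σ => isClosed_iInter fun a => IsClosed.union
        (isClosed_eq (by fun_prop) continuous_const) ?_
      by_cases ha : a ∈ V
      · simp only [ha, true_and]
        exact isClosed_eq (by fun_prop) continuous_const
      · simp only [ha, false_and]
        exact isClosed_empty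
    · exact isClosed_iInter fun j => isClosed_eq (by fun_prop) continuous_const
    · exact isClosed_iInter fun j => isClosed_eq (by fun_prop) continuous_const
    · exact isClosed_le hcont continuous_const
  have hcompact : IsCompact K := by
    have hbig : IsCompact (Set.Icc (0 : ι → Fin 3 → ℝ) (fun _ _ => 1) ×ˢ
        Set.Icc (fun (_ : Fin 4) (_ : ι) => -alpha) (fun _ _ => alpha)) :=
      isCompact_Icc.prod isCompact_Icc
    refine hbig.of_isClosed_subset hclosed fun s hs => ⟨⟨?_, ?_⟩, ?_, ?_⟩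
    · exact fun a X => hs.simp0 a X
    · exact fun a X => hs.simp1 a ▸ single_le_sum (fun Y _ => hs.simp0 a Y) (mem_univ X)
    · exact fun σ a => (abs_le.mp (hs.box σ a)).1
    · exact fun σ a => (abs_le.mp (hs.box σ a)).2
  obtain ⟨s, hsK, hmax⟩ := hcompact.exists_isMaxOn hne
    (f := fun s => ∑ a ∈ V, ∑ X, s.1 a X ^ 2) (by fun_prop)
  refine ⟨s.1, s.2, hsK, not_lt.mp fun hlt => ?_⟩
  obtain ⟨p', x', hs', hbetter⟩ := walk_step Lam u l V δA δC hLam hu hA hC hsK hlt
  have := hmax (a := (p', x')) hs'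
  simp only [Set.mem_ofPred_eq] at this
  linarith

end Vale.Agent.P262.Full
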